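import Vale.Agent.P144D.DefsB

/-!
The local inverse of the operator outside the region.
-/

namespace Vale.Agent.P144Z

open Finset Matrix

namespace B3a

/-- The form of a face is a sum of squares. -/
theorem face_eq {s0 s1 s2 s3 : ℝ} (h0 : s0 * s0 = 1) (h1 : s1 * s1 = 1) (h2 : s2 * s2 = 1)
    (h3 : s3 * s3 = 1) (h : s0 * s1 * s2 * s3 = -1) (a b c d : ℝ) :
    (√2 * a - s0 * b - s3 * d) ^ 2 + (√2 * b - s0 * a - s1 * c) ^ 2 +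
      (√2 * c - s1 * b - s2 * d) ^ 2 + (√2 * d - s2 * c - s3 * a) ^ 2 =
      2 * (2 * (a ^ 2 + b ^ 2 + c ^ 2 + d ^ 2) -
        2 * √2 * (s0 * a * b + s1 * b * c + s2 * c * d + s3 * d * a)) := by
  have r2 : √2 * √2 = 2 := Real.mul_self_sqrt (by norm_num)
  have k1 : s0 * s3 + s1 * s2 = 0 := by
    linear_combination (s1 * s2) * h - (s0 * s3 * s2 * s2) * h1 - (s0 * s3) * h2
  have k2 : s0 * s1 + s2 * s3 = 0 := by
    linear_combination (s2 * s3) * h - (s0 * s1 * s3 * s3) * h2 - (s0 * s1) * h3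
  linear_combination (a ^ 2 + b ^ 2 + c ^ 2 + d ^ 2) * r2 + (a ^ 2 + b ^ 2) * h0 +
    (b ^ 2 + c ^ 2) * h1 + (c ^ 2 + d ^ 2) * h2 + (d ^ 2 + a ^ 2) * h3 + 2 * b * d * k1 +
    2 * a * c * k2

theorem sqrt_two_lt : √2 < (3 / 2 : ℝ) := by
  rw [Real.sqrt_lt' (by norm_num)]
  norm_num

theorem lt_sqrt_two : (7 / 5 : ℝ) < √2 := by
  rw [Real.lt_sqrt (by norm_num)]
  norm_num

/-- Holonomy `-1` around a face. -/
theorem face_le {s0 s1 s2 s3 : ℝ} (h0 : s0 * s0 = 1) (h1 : s1 * s1 = 1) (h2 : s2 * s2 = 1)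
    (h3 : s3 * s3 = 1) (h : s0 * s1 * s2 * s3 = -1) (a b c d : ℝ) :
    a ^ 2 + b ^ 2 + c ^ 2 + d ^ 2 ≤
      2 * ((b - s0 * a) ^ 2 + (c - s1 * b) ^ 2 + (c - s2 * d) ^ 2 + (d - s3 * a) ^ 2) := by
  have k := face_eq h0 h1 h2 h3 h a b c d
  have k1 : √2 * (s0 * a * b + s1 * b * c + s2 * c * d + s3 * d * a) ≤
      a ^ 2 + b ^ 2 + c ^ 2 + d ^ 2 := by
    nlinarith [sq_nonneg (√2 * a - s0 * b - s3 * d), sq_nonneg (√2 * b - s0 * a - s1 * c),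
      sq_nonneg (√2 * c - s1 * b - s2 * d), sq_nonneg (√2 * d - s2 * c - s3 * a)]
  have k2 : (b - s0 * a) ^ 2 + (c - s1 * b) ^ 2 + (c - s2 * d) ^ 2 + (d - s3 * a) ^ 2 =
      2 * (a ^ 2 + b ^ 2 + c ^ 2 + d ^ 2) -
        2 * (s0 * a * b + s1 * b * c + s2 * c * d + s3 * d * a) := by
    linear_combination a ^ 2 * h0 + b ^ 2 * h1 + d ^ 2 * h2 + a ^ 2 * h3
  rw [k2]
  have k3 : 0 ≤ a ^ 2 + b ^ 2 + c ^ 2 + d ^ 2 := by positivity
  generalize s0 * a * b + s1 * b * c + s2 * c * d + s3 * d * a = X at k1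
  rcases le_total X 0 with hX | hX
  · linarith
  · nlinarith [lt_sqrt_two]

variable {M : ℕ}

theorem chi0 (φ : Tor M × Fin 4 → ℝ) (x : Tor M) :
    chi φ x 0 = -φ (x, 0) + φ (x, 1) + φ (x, 2) + φ (x, 3) := by
  simp [chi, Fin.sum_univ_four, sA]; ring

theorem chi1 (φ : Tor M × Fin 4 → ℝ) (x : Tor M) :
    chi φ x 1 = -φ (x, 0) - φ (x, 1) + φ (x, 2) + φ (x, 3) := by
  simp [chi, Fin.sum_univ_four, sA]; ring

theorem chi2 (φ : Tor M × Fin 4 → ℝ) (x : Tor M) :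
    chi φ x 2 = -φ (x, 0) - φ (x, 1) - φ (x, 2) + φ (x, 3) := by
  simp [chi, Fin.sum_univ_four, sA]; ring

theorem chi3 (φ : Tor M × Fin 4 → ℝ) (x : Tor M) :
    chi φ x 3 = -φ (x, 0) - φ (x, 1) - φ (x, 2) - φ (x, 3) := by
  simp [chi, Fin.sum_univ_four, sA]; ring

theorem pw_free {R : Reg M} (hR : R.fr = true) {e : Tor M × Fin 2} (h : e.1 ∉ R.In ∨ oth e ∉ R.In) :
    R.pw e = tT := by
  rw [Reg.pw, if_pos hR, if_neg (by tauto)]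

theorem pw_plus {R : Reg M} (hR : ¬ R.fr = true) {e : Tor M × Fin 2} (h : e.1 ∉ R.In)
    (h' : oth e ∉ R.In) : R.pw e = 0 := by
  rw [Reg.pw, if_neg hR, if_neg (by tauto)]

theorem oth0 (x : Tor M) : oth (x, 0) = x - uv M 1 := by simp [oth]

theorem oth1 (x : Tor M) : oth (x, 1) = x - uv M 0 := by simp [oth]

variable [NeZero M]

/-- The corner values of an outer face, free boundary condition. -/
theorem face_out {R : Reg M} (hR : R.fr = true) {B : Gauge M} (hB : IsSign B) {y : Tor M}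
    (hy : y ∉ R.In) (hf : flux B y = 1) (φ : Tor M × Fin 4 → ℝ) {S : ℝ}
    (hS : ∀ v, v = y ∨ v = y + uv M 0 ∨ v = y + uv M 1 ∨ v = y + uv M 0 + uv M 1 →
      ∀ a, (Dm (R.pw * B) *ᵥ φ) (v, a) ^ 2 ≤ S) :
    chi φ y 0 ^ 2 + chi φ (y + uv M 0) 1 ^ 2 + chi φ (y + uv M 0 + uv M 1) 2 ^ 2 +
      chi φ (y + uv M 1) 3 ^ 2 ≤ 32 * S := by
  have p0 : R.pw (y, 0) = tT := pw_free hR (Or.inl hy)
  have p1 : R.pw (y + uv M 0, 1) = tT := pw_free hR (Or.inr (by rwa [oth1, add_sub_cancel_right]))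
  have p2 : R.pw (y + uv M 1, 0) = tT := pw_free hR (Or.inr (by rwa [oth0, add_sub_cancel_right]))
  have p3 : R.pw (y, 1) = tT := pw_free hR (Or.inl hy)
  have q0 := E4.sign_sq hB (y, 0)
  have q1 := E4.sign_sq hB (y + uv M 0, 1)
  have q2 := E4.sign_sq hB (y + uv M 1, 0)
  have q3 := E4.sign_sq hB (y, 1)
  have e1 : y + uv M 1 + uv M 0 = y + uv M 0 + uv M 1 := add_right_comm _ _ _
  have e2 : y + uv M 0 + uv M 1 - uv M 0 = y + uv M 1 := by rw [← e1, add_sub_cancel_right]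
  have k := face_le (s0 := -B (y, 0)) (s1 := -B (y + uv M 0, 1)) (s2 := -B (y + uv M 1, 0))
    (s3 := B (y, 1)) (by linear_combination q0) (by linear_combination q1)
    (by linear_combination q2) q3 (by unfold flux at hf; linear_combination -hf)
    (chi φ y 0) (chi φ (y + uv M 0) 1) (chi φ (y + uv M 0 + uv M 1) 2) (chi φ (y + uv M 1) 3)
  have t := tc_mul_tT
  have d0 : chi φ (y + uv M 0) 1 - -B (y, 0) * chi φ y 0 = (Dm (R.pw * B) *ᵥ φ) (y + uv M 0, 2) +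
      B (y, 0) * (Dm (R.pw * B) *ᵥ φ) (y, 0) := by
    rw [chi0, chi1, E4.Dm0, E4.Dm2, add_sub_cancel_right, Pi.mul_apply, p0]
    linear_combination (B (y, 0) * φ (y, 0) - B (y, 0) * B (y, 0) * φ (y + uv M 0, 2)) * t -
      φ (y + uv M 0, 2) * q0
  have d1 : chi φ (y + uv M 0 + uv M 1) 2 - -B (y + uv M 0, 1) * chi φ (y + uv M 0) 1 =
      (Dm (R.pw * B) *ᵥ φ) (y + uv M 0 + uv M 1, 3) +
        B (y + uv M 0, 1) * (Dm (R.pw * B) *ᵥ φ) (y + uv M 0, 1) := by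
    rw [chi1, chi2, E4.Dm1, E4.Dm3, add_sub_cancel_right, Pi.mul_apply, p1]
    linear_combination (B (y + uv M 0, 1) * φ (y + uv M 0, 1) - B (y + uv M 0, 1) *
      B (y + uv M 0, 1) * φ (y + uv M 0 + uv M 1, 3)) * t - φ (y + uv M 0 + uv M 1, 3) * q1
  have d2 : chi φ (y + uv M 0 + uv M 1) 2 - -B (y + uv M 1, 0) * chi φ (y + uv M 1) 3 =
      (Dm (R.pw * B) *ᵥ φ) (y + uv M 0 + uv M 1, 2) -
        B (y + uv M 1, 0) * (Dm (R.pw * B) *ᵥ φ) (y + uv M 1, 0) := by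
    rw [chi2, chi3, E4.Dm0, E4.Dm2, e1, e2, Pi.mul_apply, p2]
    linear_combination (B (y + uv M 1, 0) * φ (y + uv M 1, 0) + B (y + uv M 1, 0) *
      B (y + uv M 1, 0) * φ (y + uv M 0 + uv M 1, 2)) * t + φ (y + uv M 0 + uv M 1, 2) * q2
  have d3 : chi φ (y + uv M 1) 3 - B (y, 1) * chi φ y 0 = (Dm (R.pw * B) *ᵥ φ) (y + uv M 1, 3) -
      B (y, 1) * (Dm (R.pw * B) *ᵥ φ) (y, 1) := by
    rw [chi0, chi3, E4.Dm1, E4.Dm3, add_sub_cancel_right, Pi.mul_apply, p3]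
    linear_combination (B (y, 1) * φ (y, 1) + B (y, 1) * B (y, 1) * φ (y + uv M 1, 3)) * t +
      φ (y + uv M 1, 3) * q3
  have key : ∀ s u w : ℝ, s * s = 1 → u ^ 2 ≤ S → w ^ 2 ≤ S →
      (u + s * w) ^ 2 ≤ 4 * S ∧ (u - s * w) ^ 2 ≤ 4 * S := fun s u w hs hu hw => by
    have h1 : (s * w) ^ 2 = w ^ 2 := by linear_combination w ^ 2 * hs
    constructor <;> nlinarith [sq_nonneg (u - s * w), sq_nonneg (u + s * w)]
  rw [d0, d1, d2, d3] at k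
  linarith [(key _ _ _ q0 (hS _ (Or.inr (Or.inl rfl)) 2) (hS _ (Or.inl rfl) 0)).1,
    (key _ _ _ q1 (hS _ (Or.inr (Or.inr (Or.inr rfl))) 3) (hS _ (Or.inr (Or.inl rfl)) 1)).1,
    (key _ _ _ q2 (hS _ (Or.inr (Or.inr (Or.inr rfl))) 2)
      (hS _ (Or.inr (Or.inr (Or.inl rfl))) 0)).2,
    (key _ _ _ q3 (hS _ (Or.inr (Or.inr (Or.inl rfl))) 3) (hS _ (Or.inl rfl) 1)).2]

theorem tdist_near (x : Tor M) (v : ℤ × ℤ) (h1 : v.1.natAbs ≤ 1) (h2 : v.2.natAbs ≤ 1) {y : Tor M}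
    (h : y = x + prj M v) : tdist y x ≤ 1 :=
  h ▸ (G.tdist_add_prj_le x v).trans (max_le h1 h2)

/-- The four vertices of a face at `x` are close to `x`. -/
theorem near_face (x : Tor M) (i j : ℤ) (hi : i = 0 ∨ i = -1) (hj : j = 0 ∨ j = -1) {y v : Tor M}
    (hy : y = x + prj M (i, j))
    (hv : v = y ∨ v = y + uv M 0 ∨ v = y + uv M 1 ∨ v = y + uv M 0 + uv M 1) : tdist v x ≤ 1 := by
  subst hy
  rcases hv with h | h | h | h
  · exact tdist_near x (i, j) (by simp only; omega) (by simp only; omega) h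
  · refine tdist_near x (i + 1, j) (by simp only; omega) (by simp only; omega) (h.trans ?_)
    ext <;> simp [prj, uv, add_assoc]
  · refine tdist_near x (i, j + 1) (by simp only; omega) (by simp only; omega) (h.trans ?_)
    ext <;> simp [prj, uv, add_assoc]
  · refine tdist_near x (i + 1, j + 1) (by simp only; omega) (by simp only; omega) (h.trans ?_)
    ext <;> simp [prj, uv, add_assoc]

theorem ext_128 (R : Reg M) {B : Gauge M} (hB : IsSign B) {x : Tor M}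
    (hx : ∀ f, tdist f x ≤ 1 → f ∉ R.In ∧ (R.fr = true → flux B f = 1))
    (φ : Tor M × Fin 4 → ℝ) : l2sq {x} φ ≤ 128 * l2sq (ball x 1) (Dm (R.pw * B) *ᵥ φ) := by
  have hS : ∀ v, tdist v x ≤ 1 → ∀ a, (Dm (R.pw * B) *ᵥ φ) (v, a) ^ 2 ≤
      l2sq (ball x 1) (Dm (R.pw * B) *ᵥ φ) := fun v hv a => E3.sq_le_l2sq _ (G.mem_ball.2 hv) a
  have y0 : x = x + prj M (0, 0) := by ext <;> simp [prj]
  have y1 : x - uv M 0 = x + prj M (-1, 0) := by ext <;> simp [prj, uv, sub_eq_add_neg]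
  have y2 : x - uv M 0 - uv M 1 = x + prj M (-1, -1) := by ext <;> simp [prj, uv, sub_eq_add_neg]
  have y3 : x - uv M 1 = x + prj M (0, -1) := by ext <;> simp [prj, uv, sub_eq_add_neg]
  have n0 := hx _ (near_face x 0 0 (Or.inl rfl) (Or.inl rfl) y0 (Or.inl rfl))
  have n1 := hx _ (near_face x (-1) 0 (Or.inr rfl) (Or.inl rfl) y1 (Or.inl rfl))
  have n2 := hx _ (near_face x (-1) (-1) (Or.inr rfl) (Or.inr rfl) y2 (Or.inl rfl))
  have n3 := hx _ (near_face x 0 (-1) (Or.inl rfl) (Or.inr rfl) y3 (Or.inl rfl))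
  rw [l2sq, sum_singleton, Fin.sum_univ_four]
  by_cases hR : R.fr = true
  · have k0 := face_out hR hB n0.1 (n0.2 hR) φ fun v hv =>
      hS v (near_face x 0 0 (Or.inl rfl) (Or.inl rfl) y0 hv)
    have k1 := face_out hR hB n1.1 (n1.2 hR) φ fun v hv =>
      hS v (near_face x (-1) 0 (Or.inr rfl) (Or.inl rfl) y1 hv)
    have k2 := face_out hR hB n2.1 (n2.2 hR) φ fun v hv =>
      hS v (near_face x (-1) (-1) (Or.inr rfl) (Or.inr rfl) y2 hv)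
    have k3 := face_out hR hB n3.1 (n3.2 hR) φ fun v hv =>
      hS v (near_face x 0 (-1) (Or.inl rfl) (Or.inr rfl) y3 hv)
    have e2 : x - uv M 0 - uv M 1 + uv M 0 + uv M 1 = x := by abel
    rw [sub_add_cancel] at k1 k3
    rw [e2] at k2
    have c0 := chi0 φ x
    have c1 := chi1 φ x
    have c2 := chi2 φ x
    have c3 := chi3 φ x
    have h0 : φ (x, 0) ^ 2 + φ (x, 1) ^ 2 + φ (x, 2) ^ 2 + φ (x, 3) ^ 2 ≤
        chi φ x 0 ^ 2 + chi φ x 1 ^ 2 + chi φ x 2 ^ 2 + chi φ x 3 ^ 2 := by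
      rw [c0, c1, c2, c3]
      nlinarith [sq_nonneg (φ (x, 0) - φ (x, 2) - φ (x, 3)), sq_nonneg (φ (x, 0) + φ (x, 1) - φ (x, 3)),
        sq_nonneg (φ (x, 0) + φ (x, 1) + φ (x, 2)), sq_nonneg (φ (x, 1) + φ (x, 2) + φ (x, 3))]
    nlinarith [sq_nonneg (chi φ (x + uv M 0) 1), sq_nonneg (chi φ (x + uv M 0 + uv M 1) 2),
      sq_nonneg (chi φ (x + uv M 1) 3), sq_nonneg (chi φ (x - uv M 0) 0),
      sq_nonneg (chi φ (x + uv M 1) 2), sq_nonneg (chi φ (x - uv M 0 + uv M 1) 3),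
      sq_nonneg (chi φ (x - uv M 0 - uv M 1) 0), sq_nonneg (chi φ (x - uv M 0 - uv M 1 + uv M 0) 1),
      sq_nonneg (chi φ (x - uv M 0 - uv M 1 + uv M 1) 3), sq_nonneg (chi φ (x - uv M 1) 0),
      sq_nonneg (chi φ (x - uv M 1 + uv M 0) 1),
      sq_nonneg (chi φ (x - uv M 1 + uv M 0 + uv M 1) 2)]
  · have h0 : tdist x x ≤ 1 := by rw [tdist_self]; exact zero_le_one
    have k0 := hS x h0 0
    have k1 := hS x h0 1
    have k2 := hS x h0 2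
    have k3 := hS x h0 3
    rw [E4.Dm0, Pi.mul_apply, pw_plus hR n0.1 (by rw [oth0]; exact n3.1)] at k0
    rw [E4.Dm1, Pi.mul_apply, pw_plus hR n0.1 (by rw [oth1]; exact n1.1)] at k1
    rw [E4.Dm2, Pi.mul_apply, pw_plus hR n1.1 (by rw [oth0]; exact n2.1)] at k2
    rw [E4.Dm3, Pi.mul_apply, pw_plus hR n3.1 (by rw [oth1, sub_right_comm]; exact n2.1)] at k3
    simp only [zero_mul, mul_zero, add_zero, sub_zero] at k0 k1 k2 k3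
    have h1 : ∀ a b c d : ℝ, a ^ 2 + b ^ 2 + c ^ 2 + d ^ 2 ≤
        9 * ((b + c + d) ^ 2 + (-a + c + d) ^ 2 + (-a - b + d) ^ 2 + (-a - b - c) ^ 2) := by
      intro a b c d
      have h2 : ∀ u v w : ℝ, (u + v + w) ^ 2 ≤ 3 * (u ^ 2 + v ^ 2 + w ^ 2) := fun u v w => by
        nlinarith [sq_nonneg (u - v), sq_nonneg (v - w), sq_nonneg (u - w)]
      have a0 := h2 (-(-a - b - c)) (-(-a + c + d)) (-a - b + d)
      have a1 := h2 (b + c + d) (-(-a - b + d)) (-a - b - c)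
      have a2 := h2 (-(b + c + d)) (-a + c + d) (-(-a - b - c))
      have a3 := h2 (b + c + d) (-(-a + c + d)) (-a - b + d)
      nlinarith
    linarith [h1 (φ (x, 0)) (φ (x, 1)) (φ (x, 2)) (φ (x, 3)),
      E3.l2sq_nonneg (ball x 1) (Dm (R.pw * B) *ᵥ φ)]

theorem sum_ball_one (z : Tor M) (r : ℕ) (g : Tor M × Fin 4 → ℝ) :
    ∑ x ∈ ball z r, l2sq (ball x 1) g ≤ 9 * l2sq (ball z (r + 1)) g := by
  have h1 : ∑ x ∈ ball z r, l2sq (ball x 1) g =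
      ∑ y ∈ ball z (r + 1), ∑ x ∈ ball z r ∩ ball y 1, ∑ a, g (y, a) ^ 2 := by
    unfold l2sq
    refine sum_comm' fun x y => ?_
    simp only [mem_inter, G.mem_ball]
    have := tdist_triangle y x z
    rw [tdist_comm x y]
    omega
  rw [h1, l2sq, mul_sum]
  refine sum_le_sum fun y _ => ?_
  rw [sum_const, nsmul_eq_mul]
  refine mul_le_mul_of_nonneg_right ?_ (sum_nonneg fun _ _ => sq_nonneg _)
  exact_mod_cast (card_le_card inter_subset_right).trans (card_ball_le y 1)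

theorem ext_ball (R : Reg M) {B : Gauge M} (hB : IsSign B) {z : Tor M} {r : ℕ}
    (hz : ∀ f, tdist f z ≤ r + 1 → f ∉ R.In ∧ (R.fr = true → flux B f = 1))
    (φ : Tor M × Fin 4 → ℝ) :
    l2sq (ball z r) φ ≤ 1152 * l2sq (ball z (r + 1)) (Dm (R.pw * B) *ᵥ φ) := by
  have h1 : l2sq (ball z r) φ ≤ ∑ x ∈ ball z r, 128 * l2sq (ball x 1) (Dm (R.pw * B) *ᵥ φ) := by
    refine sum_le_sum fun x hx => ?_
    have h2 := ext_128 R hB (x := x) (fun f hf => hz f (by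
      have := tdist_triangle f x z
      have := G.mem_ball.1 hx
      omega)) φ
    rwa [l2sq, sum_singleton] at h2
  rw [← mul_sum] at h1
  linarith [sum_ball_one z r (Dm (R.pw * B) *ᵥ φ)]

end B3a

/-- Outside the region the operator has a local inverse. -/
theorem ext_est : ∃ C : ℝ, 1 ≤ C ∧ ∀ (M : ℕ) [NeZero M] (R : Reg M) (B : Gauge M), IsSign B →
    ∀ x : Tor M, (∀ f, tdist f x ≤ 1 → f ∉ R.In ∧ (R.fr = true → flux B f = 1)) →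
    ∀ φ, l2sq {x} φ ≤ C * l2sq (ball x 1) (Dm (R.pw * B) *ᵥ φ) :=
  ⟨128, by norm_num, fun _ _ R _ hB _ hx φ => B3a.ext_128 R hB hx φ⟩

/-- The change of scale outside the region. -/
theorem deep_est : ∃ C : ℝ, 1 ≤ C ∧ ∀ (M : ℕ) [NeZero M] (R : Reg M) (B : Gauge M), IsSign B →
    ∀ (z : Tor M) (ℓ ℓ' : ℕ), 1 ≤ ℓ → ℓ + 2 ≤ ℓ' →
    (∀ f, tdist f z ≤ 2 * ℓ + 6 → f ∉ R.In ∧ (R.fr = true → flux B f = 1)) → ∀ w,
      hsq (R.pw * B) ℓ (ball z (2 * ℓ)) w * ℓ' ^ 6 ≤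
        C ^ 2 * ℓ ^ 6 * hsq (R.pw * B) ℓ' (ball z (2 * ℓ')) w := by
  refine ⟨10 ^ 5, by norm_num, fun M _ R B hB z ℓ ℓ' h1 h2 hz w => ?_⟩
  have st : ∀ k r : ℕ, r ≤ 2 * ℓ + 2 → l2sq (ball z r) ((Dm (R.pw * B) ^ k) *ᵥ w) ≤
      1152 * l2sq (ball z (r + 1)) ((Dm (R.pw * B) ^ (k + 1)) *ᵥ w) := fun k r hr => by
    rw [pow_succ', ← Matrix.mulVec_mulVec]
    exact B3a.ext_ball R hB (fun f hf => hz f (by omega)) _
  have mo : ∀ k r : ℕ, r ≤ 2 * ℓ + 3 → l2sq (ball z r) ((Dm (R.pw * B) ^ k) *ᵥ w) ≤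
      l2sq (ball z (2 * ℓ')) ((Dm (R.pw * B) ^ k) *ᵥ w) := fun k r hr =>
    E3.l2sq_mono (E3.ball_mono z (by omega)) _
  have a0 := st 0 (2 * ℓ) (by omega)
  have a1 := st 1 (2 * ℓ + 1) (by omega)
  have a2 := st 2 (2 * ℓ + 1 + 1) (by omega)
  have a3 := mo 3 (2 * ℓ + 1 + 1 + 1) (by omega)
  have b1 := st 1 (2 * ℓ) (by omega)
  have b2 := st 2 (2 * ℓ + 1) (by omega)
  have b3 := mo 3 (2 * ℓ + 1 + 1) (by omega)
  have c2 := st 2 (2 * ℓ) (by omega)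
  have c3 := mo 3 (2 * ℓ + 1) (by omega)
  have d3 := mo 3 (2 * ℓ) (by omega)
  have d4 := mo 4 (2 * ℓ) (by omega)
  simp only [hsq, sum_range_succ, range_zero, sum_empty, zero_add] at *
  have n0 := E3.l2sq_nonneg (ball z (2 * ℓ')) ((Dm (R.pw * B) ^ 0) *ᵥ w)
  have n1 := E3.l2sq_nonneg (ball z (2 * ℓ')) ((Dm (R.pw * B) ^ 1) *ᵥ w)
  have n2 := E3.l2sq_nonneg (ball z (2 * ℓ')) ((Dm (R.pw * B) ^ 2) *ᵥ w)
  have n3 := E3.l2sq_nonneg (ball z (2 * ℓ')) ((Dm (R.pw * B) ^ 3) *ᵥ w)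
  have n4 := E3.l2sq_nonneg (ball z (2 * ℓ')) ((Dm (R.pw * B) ^ 4) *ᵥ w)
  have k0 : l2sq (ball z (2 * ℓ)) ((Dm (R.pw * B) ^ 0) *ᵥ w) ≤
      1152 ^ 3 * l2sq (ball z (2 * ℓ')) ((Dm (R.pw * B) ^ 3) *ᵥ w) := by linarith
  have k1 : l2sq (ball z (2 * ℓ)) ((Dm (R.pw * B) ^ 1) *ᵥ w) ≤
      1152 ^ 3 * l2sq (ball z (2 * ℓ')) ((Dm (R.pw * B) ^ 3) *ᵥ w) := by linarith
  have k2 : l2sq (ball z (2 * ℓ)) ((Dm (R.pw * B) ^ 2) *ᵥ w) ≤
      1152 ^ 3 * l2sq (ball z (2 * ℓ')) ((Dm (R.pw * B) ^ 3) *ᵥ w) := by linarith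
  clear a0 a1 a2 a3 b1 b2 b3 c2 c3 st mo
  have m0 := E3.l2sq_nonneg (ball z (2 * ℓ)) ((Dm (R.pw * B) ^ 0) *ᵥ w)
  have m1 := E3.l2sq_nonneg (ball z (2 * ℓ)) ((Dm (R.pw * B) ^ 1) *ᵥ w)
  have m2 := E3.l2sq_nonneg (ball z (2 * ℓ)) ((Dm (R.pw * B) ^ 2) *ᵥ w)
  have m4 := E3.l2sq_nonneg (ball z (2 * ℓ)) ((Dm (R.pw * B) ^ 4) *ᵥ w)
  generalize l2sq (ball z (2 * ℓ)) ((Dm (R.pw * B) ^ 0) *ᵥ w) = X0 at *
  generalize l2sq (ball z (2 * ℓ)) ((Dm (R.pw * B) ^ 1) *ᵥ w) = X1 at *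
  generalize l2sq (ball z (2 * ℓ)) ((Dm (R.pw * B) ^ 2) *ᵥ w) = X2 at *
  generalize l2sq (ball z (2 * ℓ)) ((Dm (R.pw * B) ^ 3) *ᵥ w) = X3 at *
  generalize l2sq (ball z (2 * ℓ)) ((Dm (R.pw * B) ^ 4) *ᵥ w) = X4 at *
  generalize l2sq (ball z (2 * ℓ')) ((Dm (R.pw * B) ^ 0) *ᵥ w) = Y0 at *
  generalize l2sq (ball z (2 * ℓ')) ((Dm (R.pw * B) ^ 1) *ᵥ w) = Y1 at *
  generalize l2sq (ball z (2 * ℓ')) ((Dm (R.pw * B) ^ 2) *ᵥ w) = Y2 at *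
  generalize l2sq (ball z (2 * ℓ')) ((Dm (R.pw * B) ^ 3) *ᵥ w) = Y3 at *
  generalize l2sq (ball z (2 * ℓ')) ((Dm (R.pw * B) ^ 4) *ᵥ w) = Y4 at *
  have l1 : (1 : ℝ) ≤ ℓ := by exact_mod_cast h1
  have l2 : (ℓ : ℝ) ≤ ℓ' := by exact_mod_cast (by omega : ℓ ≤ ℓ')
  generalize (ℓ : ℝ) = a at *
  generalize (ℓ' : ℝ) = b at *
  have p0 : a ^ (2 * 0) * X0 ≤ a ^ 6 * (1152 ^ 3 * Y3) :=
    mul_le_mul (pow_le_pow_right₀ l1 (by norm_num)) k0 m0 (by positivity)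
  have p1 : a ^ (2 * 1) * X1 ≤ a ^ 6 * (1152 ^ 3 * Y3) :=
    mul_le_mul (pow_le_pow_right₀ l1 (by norm_num)) k1 m1 (by positivity)
  have p2 : a ^ (2 * 2) * X2 ≤ a ^ 6 * (1152 ^ 3 * Y3) :=
    mul_le_mul (pow_le_pow_right₀ l1 (by norm_num)) k2 m2 (by positivity)
  have p3 : a ^ (2 * 3) * X3 ≤ a ^ 6 * Y3 := mul_le_mul_of_nonneg_left d3 (by positivity)
  have p4 : a ^ (2 * 4) * X4 ≤ a ^ 6 * (b ^ 2 * Y4) := by
    have h3 : a ^ 2 * X4 ≤ b ^ 2 * Y4 := by gcongr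
    calc a ^ (2 * 4) * X4 = a ^ 6 * (a ^ 2 * X4) := by ring
      _ ≤ _ := mul_le_mul_of_nonneg_left h3 (by positivity)
  have hb : 0 ≤ b := by linarith
  have q3 : 0 ≤ a ^ 6 * (b ^ 6 * Y3) := by positivity
  have q4 : 0 ≤ a ^ 6 * (b ^ 8 * Y4) := by positivity
  have q0 : 0 ≤ a ^ 6 * (b ^ (2 * 0) * Y0 + b ^ (2 * 1) * Y1 + b ^ (2 * 2) * Y2) := by positivity
  have h3 := mul_le_mul_of_nonneg_right (add_le_add (add_le_add (add_le_add (add_le_add p0 p1) p2)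
    p3) p4) (pow_nonneg hb 6)
  refine h3.trans ?_
  simp only [Nat.reduceMul] at q0 ⊢
  linarith

end Vale.Agent.P144Z
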