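import Vale.Agent.P144D.DefsB

/-!
Linear decay at the boundary, by a barrier.
-/

namespace Vale.Agent.P144Z

open Finset Matrix Filter Topology

namespace PairDecay

theorem ht_add (ν : ℂ) (v v' : ℤ × ℤ) : ht ν (v + v') = ht ν v + ht ν v' := by
  simp only [ht, Prod.fst_add, Prod.snd_add, Int.cast_add]
  ring

theorem sq_of_norm {ν : ℂ} (h : ‖ν‖ = 1) : ν.re ^ 2 + ν.im ^ 2 = 1 := by
  have h1 := Complex.sq_norm ν
  rw [h, Complex.normSq_apply] at h1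
  linarith

theorem sq_I {ν : ℂ} (h : ν.re ^ 2 + ν.im ^ 2 = 1) :
    (Complex.I * ν).re ^ 2 + (Complex.I * ν).im ^ 2 = 1 := by
  simp only [Complex.mul_re, Complex.mul_im, Complex.I_re, Complex.I_im]
  linarith

theorem abs_step {ν : ℂ} (h : ν.re ^ 2 + ν.im ^ 2 = 1) (a : Fin 4) : |ht ν (st4 a)| ≤ 1 := by
  have h1 : |ν.re| ≤ 1 := abs_le.2 ⟨by nlinarith, by nlinarith⟩
  have h2 : |ν.im| ≤ 1 := abs_le.2 ⟨by nlinarith, by nlinarith⟩
  fin_cases a <;> simpa [ht, st4]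

theorem sum_step (ν : ℂ) : ∑ a, ht ν (st4 a) = 0 := by
  simp [Fin.sum_univ_four, ht, st4]

theorem sum_step_sq {ν : ℂ} (h : ν.re ^ 2 + ν.im ^ 2 = 1) : ∑ a, ht ν (st4 a) ^ 2 = 2 := by
  simp [Fin.sum_univ_four, ht, st4]
  linarith

theorem zd_step (v : ℤ × ℤ) (a : Fin 4) : zd (v + st4 a) 0 ≤ zd v 0 + 1 := by
  fin_cases a <;> simp [zd, st4] <;> omega

theorem coord {v : ℤ × ℤ} {ρ : ℕ} (h : zd v 0 ≤ ρ) : |(v.1 : ℝ)| ≤ ρ ∧ |(v.2 : ℝ)| ≤ ρ := by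
  simp only [zd, Prod.fst_zero, Prod.snd_zero, sub_zero, max_le_iff] at h
  have h1 : |v.1| ≤ (ρ : ℤ) := by rw [Int.abs_eq_natAbs]; exact_mod_cast h.1
  have h2 : |v.2| ≤ (ρ : ℤ) := by rw [Int.abs_eq_natAbs]; exact_mod_cast h.2
  exact ⟨by exact_mod_cast h1, by exact_mod_cast h2⟩

theorem coord' {v : ℤ × ℤ} {ρ : ℕ} (h : ρ ≤ zd v 0) : ρ ≤ |(v.1 : ℝ)| ∨ ρ ≤ |(v.2 : ℝ)| := by
  simp only [zd, Prod.fst_zero, Prod.snd_zero, sub_zero, le_max_iff] at h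
  rcases h with h | h
  · have h1 : (ρ : ℤ) ≤ |v.1| := by rw [Int.abs_eq_natAbs]; exact_mod_cast h
    exact Or.inl (by exact_mod_cast h1)
  · have h1 : (ρ : ℤ) ≤ |v.2| := by rw [Int.abs_eq_natAbs]; exact_mod_cast h
    exact Or.inr (by exact_mod_cast h1)

theorem abs_ht {ν : ℂ} (h : ν.re ^ 2 + ν.im ^ 2 = 1) {v : ℤ × ℤ} {r : ℝ} (h1 : |(v.1 : ℝ)| ≤ r)
    (h2 : |(v.2 : ℝ)| ≤ r) : |ht ν v| ≤ 3 / 2 * r := by
  have h0 : 0 ≤ r := (abs_nonneg _).trans h1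
  refine abs_le_of_sq_le_sq' ?_ (by positivity) |> abs_le.2
  have h3 := sq_le_sq' (abs_le.1 h1).1 (abs_le.1 h1).2
  have h4 := sq_le_sq' (abs_le.1 h2).1 (abs_le.1 h2).2
  have h5 : ht ν v ^ 2 + (v.1 * ν.im - v.2 * ν.re) ^ 2 =
      ((v.1 : ℝ) ^ 2 + (v.2 : ℝ) ^ 2) * (ν.re ^ 2 + ν.im ^ 2) := by
    rw [ht]
    ring
  rw [h, mul_one] at h5
  nlinarith [sq_nonneg (v.1 * ν.im - v.2 * ν.re)]

theorem pyth {ν : ℂ} (h : ν.re ^ 2 + ν.im ^ 2 = 1) (v v' : ℤ × ℤ) :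
    (ht ν v - ht ν v') ^ 2 + (ht (Complex.I * ν) v - ht (Complex.I * ν) v') ^ 2 =
      ((v.1 : ℝ) - v'.1) ^ 2 + ((v.2 : ℝ) - v'.2) ^ 2 := by
  simp only [ht, Complex.mul_re, Complex.mul_im, Complex.I_re, Complex.I_im]
  linear_combination (((v.1 : ℝ) - v'.1) ^ 2 + ((v.2 : ℝ) - v'.2) ^ 2) * h

/-- The barrier. -/
def bar (r t s : ℝ) : ℝ := 12 * t * r + 2 * (s ^ 2 - 2 * t ^ 2) + 84 * r

theorem bar_ge {r t : ℝ} (s : ℝ) (h0 : 0 ≤ t) (h1 : t ≤ 2 * r) : 84 * r ≤ bar r t s := by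
  rw [bar]
  nlinarith [sq_nonneg s, mul_nonneg h0 (sub_nonneg.2 h1)]

theorem bar_far {r t s t₀ : ℝ} (h0 : 0 ≤ t) (h1 : t ≤ 2 * r) (h2 : 0 ≤ t₀) (h3 : 64 * t₀ ≤ r)
    (h4 : (3 / 4 * r) ^ 2 ≤ (t - t₀) ^ 2 + s ^ 2) : r ^ 2 ≤ bar r t s := by
  rw [bar]
  nlinarith [mul_nonneg h0 (sub_nonneg.2 h1), mul_nonneg h0 h2,
    mul_nonneg h2 (sub_nonneg.2 h3), mul_nonneg (h2.trans (by linarith : t₀ ≤ r))
      (sub_nonneg.2 h3)]

theorem bar_lip {r t s a b : ℝ} (hr : 1 ≤ r) (h0 : 0 ≤ t) (h1 : t ≤ 2 * r) (h2 : |s| ≤ 2 * r)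
    (ha : |a| ≤ 1) (hb : |b| ≤ 1) : -(42 * r) ≤ bar r (t + a) (s + b) - bar r t s := by
  have h3 : |s * b| ≤ 2 * r * 1 := by
    rw [abs_mul]
    exact mul_le_mul h2 hb (abs_nonneg _) (by linarith)
  have h4 : t * a ≤ 2 * r := by nlinarith [(abs_le.1 ha).2]
  have h5 : -r ≤ a * r := by nlinarith [(abs_le.1 ha).1]
  have h6 : a ^ 2 ≤ 1 := by nlinarith [(abs_le.1 ha).1, (abs_le.1 ha).2]
  rw [bar, bar]
  nlinarith [(abs_le.1 h3).1, sq_nonneg b]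

theorem barrier {ρ : ℕ} {g : ℤ × ℤ → ℝ} {ν : ℂ} {w₀ S : ℝ} (hν : ‖ν‖ = 1) (hw : 0 ≤ w₀)
    (hS : ∀ v, zd v 0 ≤ ρ → |g v| ≤ S)
    (hg : ∀ v, zd v 0 + 1 ≤ ρ → 0 < g v → -w₀ < ht ν v ∧ ∃ G : Fin 4 → ℝ, 0 ≤ ∑ a, G a ∧
      ∀ a, G a ≤ g (v + st4 a) - g v ∨ G a ≤ -(1 / 2) * g v)
    {v₀ : ℤ × ℤ} (hv : 4 * zd v₀ 0 ≤ ρ) :
    g v₀ * ρ ≤ 96 * S * (max (ht ν v₀) 0 + w₀ + 1) := by
  have hn := sq_of_norm hν
  have hI := sq_I hn
  have hb₀ : zd v₀ 0 ≤ ρ := by omega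
  have hS0 : 0 ≤ S := (abs_nonneg _).trans (hS v₀ hb₀)
  have hm1 : ht ν v₀ + w₀ + 1 ≤ max (ht ν v₀) 0 + w₀ + 1 := by linarith [le_max_left (ht ν v₀) 0]
  have hm2 : w₀ + 1 ≤ max (ht ν v₀) 0 + w₀ + 1 := by linarith [le_max_right (ht ν v₀) 0]
  generalize max (ht ν v₀) 0 + w₀ + 1 = m at hm1 hm2 ⊢
  have hr0 : (0 : ℝ) ≤ ρ := Nat.cast_nonneg ρ
  have hSm : 0 ≤ S * m := mul_nonneg hS0 (by linarith)
  rcases le_or_gt (g v₀) 0 with hpos | hpos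
  · nlinarith [mul_nonneg (neg_nonneg.2 hpos) hr0]
  rcases le_or_gt (ρ : ℝ) (64 * m) with hρ | hρ
  · have h1 := mul_le_mul ((le_abs_self _).trans (hS v₀ hb₀)) hρ hr0 hS0
    linarith
  have hSp : 0 < S := hpos.trans_le ((le_abs_self _).trans (hS v₀ hb₀))
  have hr64 : (64 : ℝ) < ρ := by linarith
  have hρn : 64 < ρ := by exact_mod_cast hr64
  have ht₀ := (hg v₀ (by omega) hpos).1
  have hc₀ : |(v₀.1 : ℝ)| ≤ ρ / 4 ∧ |(v₀.2 : ℝ)| ≤ ρ / 4 := by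
    have h1 := coord (le_refl (zd v₀ 0))
    have h2 : 4 * (zd v₀ 0 : ℝ) ≤ ρ := by exact_mod_cast hv
    exact ⟨by linarith [h1.1], by linarith [h1.2]⟩
  let B : ℤ × ℤ → ℝ := fun v =>
    bar ρ (ht ν v + w₀ + 1) (ht (Complex.I * ν) v - ht (Complex.I * ν) v₀)
  let Λ : Finset (ℤ × ℤ) := (Finset.Icc (-(ρ : ℤ)) ρ ×ˢ Finset.Icc (-(ρ : ℤ)) ρ).filter
    fun v => 0 ≤ ht ν v + w₀ + 1
  have hΛ : ∀ v, v ∈ Λ ↔ zd v 0 ≤ ρ ∧ 0 ≤ ht ν v + w₀ + 1 := fun v => by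
    simp only [Λ, Finset.mem_filter, Finset.mem_product, Finset.mem_Icc, zd, Prod.fst_zero,
      Prod.snd_zero, sub_zero, max_le_iff]
    refine and_congr_left' ?_
    omega
  have hv₀ : v₀ ∈ Λ := (hΛ v₀).2 ⟨hb₀, by linarith⟩
  obtain ⟨v, hvΛ, hmax⟩ := Λ.exists_max_image (fun v => g v * ρ ^ 2 - S * B v) ⟨v₀, hv₀⟩
  obtain ⟨hvb, hvt⟩ := (hΛ v).1 hvΛ
  have hc := coord hvb
  have hτ : ht ν v + w₀ + 1 ≤ 2 * ρ := by
    linarith [(abs_le.1 (abs_ht hn hc.1 hc.2)).2]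
  have hσ : |ht (Complex.I * ν) v - ht (Complex.I * ν) v₀| ≤ 2 * ρ := by
    have h1 := abs_le.1 (abs_ht hI hc.1 hc.2)
    have h2 := abs_le.1 (abs_ht hI hc₀.1 hc₀.2)
    exact abs_le.2 ⟨by linarith, by linarith⟩
  have hB : 84 * ρ ≤ B v := bar_ge _ hvt hτ
  have key : g v * ρ ^ 2 - S * B v ≤ 0 := by
    by_contra hcon
    have hcon' : S * B v < g v * ρ ^ 2 := by linarith
    have h84 : S * (84 * ρ) ≤ S * B v := mul_le_mul_of_nonneg_left hB hS0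
    rcases le_or_gt ρ (zd v 0) with hz | hz
    · have h1 : (3 / 4 * (ρ : ℝ)) ^ 2 ≤ ((v.1 : ℝ) - v₀.1) ^ 2 + ((v.2 : ℝ) - v₀.2) ^ 2 := by
        rcases coord' hz with h2 | h2
        · have h3 : 3 / 4 * (ρ : ℝ) ≤ |(v.1 : ℝ) - v₀.1| := by
            linarith [abs_sub_abs_le_abs_sub (v.1 : ℝ) v₀.1, hc₀.1]
          have h4 := pow_le_pow_left₀ (by positivity) h3 2
          rw [sq_abs] at h4
          linarith [sq_nonneg ((v.2 : ℝ) - v₀.2)]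
        · have h3 : 3 / 4 * (ρ : ℝ) ≤ |(v.2 : ℝ) - v₀.2| := by
            linarith [abs_sub_abs_le_abs_sub (v.2 : ℝ) v₀.2, hc₀.2]
          have h4 := pow_le_pow_left₀ (by positivity) h3 2
          rw [sq_abs] at h4
          linarith [sq_nonneg ((v.1 : ℝ) - v₀.1)]
      have h2 : (ρ : ℝ) ^ 2 ≤ B v := bar_far (t₀ := ht ν v₀ + w₀ + 1) hvt hτ (by linarith)
        (by linarith) (by
          rw [← pyth hn, ← add_sub_add_right_eq_sub (ht ν v) (ht ν v₀) (w₀ + 1), ← add_assoc,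
            ← add_assoc] at h1
          exact h1)
      have h3 := mul_le_mul_of_nonneg_left h2 hS0
      have h4 := mul_le_mul_of_nonneg_right ((le_abs_self _).trans (hS v hvb)) (sq_nonneg (ρ : ℝ))
      linarith
    · have hgp : 0 < g v := by
        by_contra h1
        have h2 := mul_nonneg (neg_nonneg.2 (not_lt.1 h1)) (sq_nonneg (ρ : ℝ))
        have h3 : 0 ≤ S * (84 * ρ) := by positivity
        linarith
      obtain ⟨h1, G, h2, h3⟩ := hg v hz hgp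
      have h4 : ∀ a, G a * ρ ^ 2 ≤ S * (B (v + st4 a) - B v) := fun a => by
        rcases h3 a with h5 | h5
        · have h6 := hmax (v + st4 a) ((hΛ _).2 ⟨(zd_step v a).trans hz, by
            rw [ht_add]
            linarith [(abs_le.1 (abs_step hn a)).1]⟩)
          have h7 := mul_le_mul_of_nonneg_right h5 (sq_nonneg (ρ : ℝ))
          linarith
        · have h6 := bar_lip (r := ρ) (by linarith) hvt hτ hσ (abs_step hn a) (abs_step hI a)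
          have h7 : B (v + st4 a) = bar ρ (ht ν v + w₀ + 1 + ht ν (st4 a))
              (ht (Complex.I * ν) v - ht (Complex.I * ν) v₀ + ht (Complex.I * ν) (st4 a)) := by
            simp only [B, ht_add]
            congr 1 <;> ring
          rw [← h7] at h6
          have h8 := mul_le_mul_of_nonneg_left h6 hS0
          have h9 := mul_le_mul_of_nonneg_right h5 (sq_nonneg (ρ : ℝ))
          change S * -(42 * ρ) ≤ S * (B (v + st4 a) - B v) at h8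
          linarith
      have h5 : ∑ a, (B (v + st4 a) - B v) = -4 := by
        have e1 := sum_step ν
        have e2 := sum_step (Complex.I * ν)
        have e3 := sum_step_sq hn
        have e4 := sum_step_sq hI
        simp only [B, bar, ht_add, Fin.sum_univ_four] at e1 e2 e3 e4 ⊢
        linear_combination (12 * ρ - 8 * (ht ν v + w₀ + 1)) * e1 +
          4 * (ht (Complex.I * ν) v - ht (Complex.I * ν) v₀) * e2 - 4 * e3 + 2 * e4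
      have h6 := Finset.sum_le_sum fun a (_ : a ∈ univ) => h4 a
      rw [← Finset.sum_mul, ← Finset.mul_sum, h5] at h6
      have h7 := mul_nonneg h2 (sq_nonneg (ρ : ℝ))
      linarith
  have h1 := (hmax v₀ hv₀).trans key
  have h2 : B v₀ ≤ 96 * m * ρ := by
    simp only [B, bar, sub_self]
    nlinarith [sq_nonneg (ht ν v₀ + w₀ + 1), mul_le_mul_of_nonneg_right hm1 hr0,
      mul_le_mul_of_nonneg_right (show 1 ≤ m by linarith) hr0]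
  have h3 := mul_le_mul_of_nonneg_left h2 hS0
  refine le_of_mul_le_mul_right ?_ (show (0 : ℝ) < ρ by linarith)
  nlinarith

theorem tc_ge : 1 / 4 ≤ tc := by
  have : (5 / 4 : ℝ) ≤ √2 := Real.le_sqrt_of_sq_le (by norm_num)
  unfold tc
  linarith

end PairDecay

open PairDecay in
/-- Linear decay at the boundary. -/
theorem pair_decay : ∃ C : ℝ, 1 ≤ C ∧ ∀ (ρ : ℕ) (u w : ℤ × ℤ → ℝ) (pr : ℤ × ℤ → Fin 4 → Prop)
    (out : ℤ × ℤ → Prop), IsPair ρ u w pr out → ∀ (ν : ℂ) (w₀ S : ℝ), ‖ν‖ = 1 → 0 ≤ w₀ →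
    (∀ v, zd v 0 ≤ ρ → ht ν v ≤ -w₀ → out v ∧ ∀ a, ¬ pr v a) →
    (∀ v, zd v 0 ≤ ρ → |u v| ≤ S ∧ |w v| ≤ S) → ∀ v, 4 * zd v 0 ≤ ρ →
      |u v| * ρ ≤ C * S * (max (ht ν v) 0 + w₀ + 1) ∧
      |w v| * ρ ≤ C * S * (max (ht ν v) 0 + w₀ + 1) := by
  refine ⟨96, by norm_num, fun ρ u w pr out h ν w₀ S hν hw hout hS v hv => ?_⟩
  have h1 := barrier (g := u) hν hw (fun v hv => (hS v hv).1) (fun v hv hp => by
    have h2 : ∀ a, ¬ pr v a → GG u pr v a ≤ -(1 / 2) * u v := fun a ha => by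
      rw [GG, if_neg ha]
      nlinarith [tc_ge]
    refine ⟨not_le.1 fun h3 => ?_, GG u pr v, h.sub v hv, fun a => ?_⟩
    · have h4 := Finset.sum_le_sum fun a (_ : a ∈ univ) => h2 a ((hout v (by omega) h3).2 a)
      have h5 := h.sub v hv
      simp only [Fin.sum_univ_four] at h4 h5
      linarith
    · by_cases ha : pr v a
      · exact Or.inl (by rw [GG, if_pos ha])
      · exact Or.inr (h2 a ha)) hv
  have h2 := barrier (g := fun v => -w v) hν hw (fun v hv => by rw [abs_neg]; exact (hS v hv).2)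
    (fun v hv hp => by
      have h3 : ¬ out v := fun h4 => by
        rw [h.zero v (by omega) h4, neg_zero] at hp
        exact lt_irrefl _ hp
      refine ⟨not_le.1 fun h4 => h3 (hout v (by omega) h4).1,
        fun a => -w (v + st4 a) - -w v, ?_, fun a => Or.inl le_rfl⟩
      have h5 := h.sup v hv h3
      simp only [Fin.sum_univ_four] at h5 ⊢
      linarith) hv
  have h3 : w v ≤ u v := by
    have h4 := h.le v 0 (by omega)
    have h5 : v - cn 0 = v := by simp [cn]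
    rwa [h5] at h4
  have h4 := mul_le_mul_of_nonneg_right h3 (Nat.cast_nonneg (α := ℝ) ρ)
  rw [← Nat.abs_cast (R := ℝ) ρ, ← abs_mul, ← abs_mul]
  exact ⟨abs_le.2 ⟨by linarith, h1⟩, abs_le.2 ⟨by linarith, by linarith⟩⟩

end Vale.Agent.P144Z
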