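import Vale.Agent.P144D.DefsB

/-!
The increments of the subharmonic function of a pair are bounded by its supremum.
-/

namespace Vale.Agent.P144Z

open Finset

namespace FH

theorem zd_step (v : ℤ × ℤ) (a : Fin 4) :
    zd (v + st4 a) 0 ≤ zd v 0 + 1 ∧ zd v 0 ≤ zd (v + st4 a) 0 + 1 := by
  fin_cases a <;> simp [zd, st4] <;> omega

theorem zd_cn (v : ℤ × ℤ) (k : Fin 4) : zd (v - cn k) 0 ≤ zd v 0 + 1 := by
  fin_cases k <;> simp [zd, cn] <;> omega

theorem mem_box {n : ℕ} {x : ℤ × ℤ} :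
    x ∈ Finset.Icc (-(n : ℤ)) n ×ˢ Finset.Icc (-(n : ℤ)) n ↔ zd x 0 ≤ n := by
  simp only [mem_product, Finset.mem_Icc, zd, Prod.fst_zero, Prod.snd_zero, sub_zero, max_le_iff]
  omega

theorem card_box (n : ℕ) :
    ((Finset.Icc (-(n : ℤ)) n ×ˢ Finset.Icc (-(n : ℤ)) n).card : ℝ) = (2 * n + 1) ^ 2 := by
  have h : (Finset.Icc (-(n : ℤ)) n).card = 2 * n + 1 := by
    rw [Int.card_Icc]
    omega
  rw [card_product, h]
  push_cast
  ring

theorem st4_back (v : ℤ × ℤ) (a : Fin 4) : v + st4 a + st4 (a + 2) = v := by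
  fin_cases a <;> simp [st4, add_assoc]

/-- The reversal of the oriented edges. -/
def rev (e : (ℤ × ℤ) × Fin 4) : (ℤ × ℤ) × Fin 4 := (e.1 + st4 e.2, e.2 + 2)

theorem rev_rev : Function.Involutive rev := fun e => by
  refine Prod.ext (st4_back _ _) ?_
  have h : ∀ a : Fin 4, a + 2 + 2 = a := by decide
  exact h _

/-- The cut-off function. -/
noncomputable def eta (s : ℕ) (v : ℤ × ℤ) : ℝ := max 0 (min 1 ((2 * s - zd v 0) / s))

theorem eta_one {s : ℕ} (hs : 1 ≤ s) {v : ℤ × ℤ} (h : zd v 0 ≤ s) : eta s v = 1 := by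
  have h0 : (0 : ℝ) < s := by exact_mod_cast hs
  have h1 : (zd v 0 : ℝ) ≤ s := by exact_mod_cast h
  rw [eta, min_eq_left (by rw [le_div_iff₀ h0]; linarith), max_eq_right zero_le_one]

theorem eta_zero {s : ℕ} {v : ℤ × ℤ} (h : 2 * s ≤ zd v 0) : eta s v = 0 := by
  have h1 : (2 * s : ℝ) ≤ zd v 0 := by exact_mod_cast h
  exact max_eq_left ((min_le_right _ _).trans
    (div_nonpos_of_nonpos_of_nonneg (by linarith) (Nat.cast_nonneg _)))

theorem eta_lip {s : ℕ} (hs : 1 ≤ s) (v : ℤ × ℤ) (a : Fin 4) :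
    |eta s v - eta s (v + st4 a)| ≤ 1 / s := by
  have h0 : (0 : ℝ) < s := by exact_mod_cast hs
  obtain ⟨h1, h2⟩ := zd_step v a
  have h3 : (zd (v + st4 a) 0 : ℝ) ≤ zd v 0 + 1 := by exact_mod_cast h1
  have h4 : (zd v 0 : ℝ) ≤ zd (v + st4 a) 0 + 1 := by exact_mod_cast h2
  refine (abs_max_sub_max_le_max _ _ _ _).trans (max_le (by simp) ?_)
  refine (abs_min_sub_min_le_max _ _ _ _).trans (max_le (by simp) ?_)
  rw [← sub_div, abs_div, abs_of_pos h0]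
  exact div_le_div_of_nonneg_right (abs_le.2 ⟨by linarith, by linarith⟩) h0.le

theorem edge {p q a b S δ : ℝ} (h : |p - q| ≤ δ) (ha : |a| ≤ S) (hb : |b| ≤ S) :
    p ^ 2 * (b - a) ^ 2 / 8 ≤ 4 * S ^ 2 * δ ^ 2 -
      (p ^ 2 * (a + S) - q ^ 2 * (b + S)) * (b - a) / 2 := by
  have h1 : |(a + b) / 2 + S| ≤ 2 * S := by
    rw [abs_le] at ha hb ⊢
    constructor <;> linarith [ha.1, ha.2, hb.1, hb.2]
  have h2 : ((p - q) * ((a + b) / 2 + S)) ^ 2 ≤ (δ * (2 * S)) ^ 2 := by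
    rw [← sq_abs, abs_mul]
    exact pow_le_pow_left₀ (by positivity)
      (mul_le_mul h h1 (abs_nonneg _) ((abs_nonneg _).trans h)) 2
  nlinarith [sq_nonneg ((p + q) * (b - a) - 4 * ((p - q) * ((a + b) / 2 + S))),
    sq_nonneg ((p - q) * (b - a)), sq_nonneg (q * (b - a))]

variable {ρ s : ℕ} {u w : ℤ × ℤ → ℝ} {pr : ℤ × ℤ → Fin 4 → Prop} {out : ℤ × ℤ → Prop}

theorem nonneg_of_rem (h : IsPair ρ u w pr out) {v : ℤ × ℤ} (hv : zd v 0 ≤ ρ) {a : Fin 4}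
    (ha : ¬ pr v a) : 0 ≤ u v :=
  (h.zero _ ((zd_cn v a).trans (Nat.succ_le_succ hv)) (h.rem v a ha).2).ge.trans (h.le v a hv)

theorem tc_nonneg : 0 ≤ tc := by
  have : (1 : ℝ) ≤ √2 := Real.one_le_sqrt.mpr (by norm_num)
  unfold tc
  linarith

open Classical in
/-- The energy density. -/
noncomputable def en (s : ℕ) (u : ℤ × ℤ → ℝ) (pr : ℤ × ℤ → Fin 4 → Prop) (S : ℝ)
    (e : (ℤ × ℤ) × Fin 4) : ℝ :=
  if pr e.1 e.2 then eta s e.1 ^ 2 * (u (e.1 + st4 e.2) - u e.1) ^ 2 / 8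
  else eta s e.1 ^ 2 * S * (2 * tc * u e.1)

/-- The energy estimate. -/
theorem energy (h : IsPair ρ u w pr out) (hs : 1 ≤ s) (hρ : 2 * s + 1 ≤ ρ) {S : ℝ}
    (hS : ∀ v, zd v 0 ≤ 2 * s + 1 → |u v| ≤ S) :
    ∑ e ∈ (Finset.Icc (-((2 * s : ℕ) : ℤ)) (2 * s : ℕ) ×ˢ
      Finset.Icc (-((2 * s : ℕ) : ℤ)) (2 * s : ℕ)) ×ˢ univ, en s u pr S e ≤ 400 * S ^ 2 := by
  classical
  set B := Finset.Icc (-((2 * s : ℕ) : ℤ)) (2 * s : ℕ) ×ˢ
    Finset.Icc (-((2 * s : ℕ) : ℤ)) (2 * s : ℕ) with hB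
  have hm : ∀ x, x ∈ B ↔ zd x 0 ≤ 2 * s := fun x => mem_box
  let g : ℤ × ℤ → ℝ := fun x => eta s x ^ 2 * (u x + S)
  let E : (ℤ × ℤ) × Fin 4 → ℝ := fun e =>
    if pr e.1 e.2 then g e.1 * (u (e.1 + st4 e.2) - u e.1) else 0
  have hE : ∀ e, E e ≠ 0 → zd e.1 0 < 2 * s := fun e he => by
    by_contra h1
    exact he (by simp only [E, g, eta_zero (not_lt.1 h1)]; simp)
  have h1 : ∑ e ∈ B ×ˢ univ, E (rev e) = ∑ e ∈ B ×ˢ univ, E e := by
    rw [← finsum_eq_sum_of_support_subset (fun e => E (rev e)),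
      ← finsum_eq_sum_of_support_subset E]
    · exact finsum_comp_equiv rev_rev.toPerm
    · intro e he
      exact mem_coe.2 (mem_product.2 ⟨(hm _).2 (hE e he).le, mem_univ _⟩)
    · intro e he
      exact mem_coe.2 (mem_product.2
        ⟨(hm _).2 ((zd_step e.1 e.2).2.trans (hE _ he)), mem_univ _⟩)
  have h2 : 0 ≤ ∑ e ∈ B ×ˢ univ, g e.1 * GG u pr e.1 e.2 := by
    rw [sum_product]
    refine sum_nonneg fun x hx => ?_
    have h3 := (hm x).1 hx
    simp only [← mul_sum]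
    exact mul_nonneg (mul_nonneg (sq_nonneg _) (by linarith [(abs_le.1 (hS x (by omega))).1]))
      (h.sub x (by omega))
  have h3 : ∀ e ∈ B ×ˢ (univ : Finset (Fin 4)), en s u pr S e ≤
      4 * S ^ 2 * (1 / s) ^ 2 - g e.1 * GG u pr e.1 e.2 + (E e - E (rev e)) / 2 := by
    rintro ⟨x, a⟩ he
    have h4 := (hm x).1 (mem_product.1 he).1
    by_cases hp : pr x a
    · have h5 := edge (eta_lip hs x a) (hS x (by omega))
        (hS (x + st4 a) ((zd_step x a).1.trans (by omega)))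
      simp only [en, GG, E, g, rev, if_pos hp, if_pos ((h.symm x a).2 hp), st4_back]
      linarith
    · have h5 := nonneg_of_rem h (by omega) hp
      simp only [en, GG, E, g, rev, if_neg hp, if_neg (mt (h.symm x a).1 hp)]
      have h6 : 0 ≤ eta s x ^ 2 * u x * (2 * tc * u x) := by
        have := tc_nonneg
        positivity
      have h7 : 0 ≤ 4 * S ^ 2 * (1 / (s : ℝ)) ^ 2 := by positivity
      linarith
  refine (sum_le_sum h3).trans ?_
  rw [sum_add_distrib, sum_sub_distrib, ← sum_div, sum_sub_distrib, h1, sub_self, zero_div,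
    add_zero, sum_const, card_product, nsmul_eq_mul, Nat.cast_mul, hB, card_box, card_univ,
    Fintype.card_fin]
  have h0 : (1 : ℝ) ≤ s := by exact_mod_cast hs
  have h4 : (2 * ((2 * s : ℕ) : ℝ) + 1) ^ 2 * (1 / (s : ℝ)) ^ 2 ≤ 5 ^ 2 := by
    rw [← mul_pow]
    refine pow_le_pow_left₀ (by positivity) ?_ 2
    rw [mul_one_div, div_le_iff₀ (by linarith)]
    push_cast
    linarith
  have h5 := mul_le_mul_of_nonneg_left h4 (sq_nonneg S)
  rw [← hB]
  push_cast at h5 ⊢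
  linarith

end FH

/-- The increments are bounded by the supremum. -/
theorem pair_FH : ∃ C : ℝ, 1 ≤ C ∧ ∀ (ρ s : ℕ) (u w : ℤ × ℤ → ℝ) (pr : ℤ × ℤ → Fin 4 → Prop)
    (out : ℤ × ℤ → Prop), IsPair ρ u w pr out → 1 ≤ s → 2 * s + 1 ≤ ρ → ∀ S : ℝ,
    (∀ v, zd v 0 ≤ 2 * s + 1 → |u v| ≤ S) →
      ∑ x ∈ Finset.Icc (-(s : ℤ)) s ×ˢ Finset.Icc (-(s : ℤ)) s, ∑ a, |GG u pr x a| ≤ C * s * S := by
  refine ⟨3236, by norm_num, fun ρ s u w pr out h hs hρ S hS => ?_⟩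
  have h0 : (1 : ℝ) ≤ s := by exact_mod_cast hs
  have hS0 : 0 ≤ S := (abs_nonneg _).trans (hS 0 (by simp [zd]))
  have ht := FH.tc_nonneg
  rcases hS0.eq_or_lt with rfl | hS0
  · refine (sum_eq_zero fun x hx => sum_eq_zero fun a _ => ?_).le.trans (by simp)
    have h1 := FH.mem_box.1 hx
    rw [GG, abs_nonpos_iff.1 (hS x (by omega)),
      abs_nonpos_iff.1 (hS (x + st4 a) ((FH.zd_step x a).1.trans (by omega)))]
    simp
  have h1 : ∀ e : (ℤ × ℤ) × Fin 4, zd e.1 0 ≤ 2 * s → 0 ≤ FH.en s u pr S e := fun e he => by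
    unfold FH.en
    split_ifs with hp
    · positivity
    · have := FH.nonneg_of_rem h (by omega) hp
      positivity
  have h2 : ∀ e ∈ (Finset.Icc (-(s : ℤ)) s ×ˢ Finset.Icc (-(s : ℤ)) s) ×ˢ
      (univ : Finset (Fin 4)), S * |GG u pr e.1 e.2| ≤ 8 * s * FH.en s u pr S e + S ^ 2 / s := by
    rintro ⟨x, a⟩ he
    have h3 : zd x 0 ≤ s := FH.mem_box.1 (mem_product.1 he).1
    have h4 := h1 (x, a) (h3.trans (by omega))
    have h5 : 0 ≤ S ^ 2 / s := by positivity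
    by_cases hp : pr x a
    · simp only [FH.en, GG, if_pos hp, FH.eta_one hs h3]
      rw [← sq_abs (u (x + st4 a) - u x), ← sub_le_iff_le_add', le_div_iff₀ (by linarith)]
      nlinarith [sq_nonneg (s * |u (x + st4 a) - u x| - S), sq_nonneg (s * |u (x + st4 a) - u x|),
        sq_nonneg S]
    · have h6 := FH.nonneg_of_rem h (by omega) hp
      simp only [FH.en, GG, if_neg hp, FH.eta_one hs h3] at h4 ⊢
      rw [neg_mul, abs_neg, abs_of_nonneg (by positivity)]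
      nlinarith
  have h3 := sum_le_sum h2
  rw [sum_add_distrib, ← mul_sum, ← mul_sum, sum_const, card_product, nsmul_eq_mul, Nat.cast_mul,
    FH.card_box, card_univ, Fintype.card_fin, sum_product] at h3
  have h4 := (sum_le_sum_of_subset_of_nonneg (product_subset_product_left fun x hx =>
    FH.mem_box.2 ((FH.mem_box.1 hx).trans (by omega : s ≤ 2 * s))) fun e he _ =>
      h1 e (FH.mem_box.1 (mem_product.1 he).1)).trans (FH.energy h hs hρ hS)
  have h5 : (2 * (s : ℝ) + 1) ^ 2 * ((4 : ℕ) : ℝ) * (S ^ 2 / s) ≤ 36 * s * S ^ 2 := by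
    rw [← mul_div_assoc, div_le_iff₀ (by linarith)]
    have h6 : (2 * (s : ℝ) + 1) ^ 2 ≤ 9 * s ^ 2 := by nlinarith
    have h7 := mul_le_mul_of_nonneg_right h6 (sq_nonneg S)
    push_cast
    nlinarith
  refine le_of_mul_le_mul_left ?_ hS0
  have h6 := mul_le_mul_of_nonneg_left h4 (by linarith : (0 : ℝ) ≤ 8 * s)
  nlinarith

end Vale.Agent.P144Z
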