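import Vale.Agent.P144D.B.PairC

/-!
The pair of a homogeneous solution.
-/

namespace Vale.Agent.P144Z

open Finset Matrix

namespace B2a

variable {M : ℕ}

theorem chi0 (φ : Tor M × Fin 4 → ℝ) (x : Tor M) :
    chi φ x 0 = -φ (x, 0) + φ (x, 1) + φ (x, 2) + φ (x, 3) := by
  simp [chi, sA, Fin.sum_univ_four]; ring

theorem chi1 (φ : Tor M × Fin 4 → ℝ) (x : Tor M) :
    chi φ x 1 = -φ (x, 0) - φ (x, 1) + φ (x, 2) + φ (x, 3) := by
  simp [chi, sA, Fin.sum_univ_four]; ring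

theorem chi2 (φ : Tor M × Fin 4 → ℝ) (x : Tor M) :
    chi φ x 2 = -φ (x, 0) - φ (x, 1) - φ (x, 2) + φ (x, 3) := by
  simp [chi, sA, Fin.sum_univ_four]; ring

theorem chi3 (φ : Tor M × Fin 4 → ℝ) (x : Tor M) :
    chi φ x 3 = -φ (x, 0) - φ (x, 1) - φ (x, 2) - φ (x, 3) := by
  simp [chi, sA, Fin.sum_univ_four]; ring

variable [NeZero M]

theorem edE {A : Gauge M} {φ : Tor M × Fin 4 → ℝ} {x : Tor M} (h1 : (Dm A *ᵥ φ) (x, 0) = 0)
    (h2 : (Dm A *ᵥ φ) (x + uv M 0, 2) = 0) :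
    Ed (tc * A (x, 0)) (-chi φ x 3) (chi φ x 0) (chi φ (x + uv M 0) 1) (chi φ (x + uv M 0) 2) := by
  rw [E4.Dm0] at h1
  rw [E4.Dm2, add_sub_cancel_right] at h2
  rw [chi0, chi1, chi2, chi3]
  exact ⟨by linear_combination 2 * h1, by linear_combination 2 * h2⟩

theorem edN {A : Gauge M} {φ : Tor M × Fin 4 → ℝ} {x : Tor M} (h1 : (Dm A *ᵥ φ) (x, 1) = 0)
    (h2 : (Dm A *ᵥ φ) (x + uv M 1, 3) = 0) :
    Ed (tc * A (x, 1)) (chi φ x 0) (chi φ x 1) (chi φ (x + uv M 1) 2) (chi φ (x + uv M 1) 3) := by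
  rw [E4.Dm1] at h1
  rw [E4.Dm3, add_sub_cancel_right] at h2
  rw [chi0, chi1, chi2, chi3]
  exact ⟨by linear_combination 2 * h1, by linear_combination 2 * h2⟩

theorem td_le (z : Tor M) {v : ℤ × ℤ} {r : ℕ} (h : zd v 0 ≤ r) : tdist (z + prj M v) z ≤ r :=
  (G.tdist_add_prj_le z v).trans (by simpa [zd] using h)

omit [NeZero M] in
theorem zd_lft (x z : Tor M) : zd (lft (x - z)) 0 = tdist x z := by simp [zd, G.tdist_def]

theorem lft_eq (z : Tor M) {v : ℤ × ℤ} {r : ℕ} (h : zd v 0 ≤ r) (hr : 2 * r < M) :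
    lft (z + prj M v - z) = v := by
  rw [zd_le] at h
  exact G.lft_add_sub z (by cases abs_cases v.1 <;> omega) (by cases abs_cases v.2 <;> omega)

theorem cst {I : Finset (Tor M)} {z : Tor M} {s ρ : ℕ} (hs : s ≤ ρ) (hM : 2 * ρ + 9 ≤ M)
    (h : ConnB I z s ρ) : Cst (fun v => z + prj M v ∈ I) s ρ := by
  intro g hg
  have step : ∀ (u : Tor M) i, tdist u z ≤ ρ → tdist (u + uv M i) z ≤ ρ → u ∉ I → u + uv M i ∉ I →
      g (lft (u + uv M i - z)) = g (lft (u - z)) := by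
    intro u i h1 h2 h3 h4
    have e1 : u + uv M i = z + prj M (lft (u - z) + G.ez i) := by
      rw [G.prj_add, ← add_assoc, G.add_prj_lft, G.uv_eq]
    have b : zd (lft (u - z) + G.ez i) 0 ≤ ρ + 1 := by
      rw [← zd_lft, zd_le] at h1
      rw [zd_le]
      fin_cases i <;> simp [G.ez] <;> omega
    have e2 : lft (u + uv M i - z) = lft (u - z) + G.ez i := by
      rw [e1]; exact lft_eq z b (by omega)
    rw [e2]
    refine hg _ _ (by rwa [zd_lft]) (by rwa [← e2, zd_lft])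
      (by beta_reduce; rwa [G.add_prj_lft]) (by beta_reduce; rwa [← e1]) ?_
    fin_cases i <;> simp [G.ez]
  have con : ∀ f f', tdist f z ≤ s → tdist f' z ≤ s → f ∉ I → f' ∉ I →
      g (lft (f' - z)) = g (lft (f - z)) := by
    intro f f' h1 h2 h3 h4
    have k := h f f' h1 h2 h3 h4
    clear h2 h4
    induction k with
    | refl => rfl
    | tail _ hb ih =>
      obtain ⟨k1, k2, k3, k4, i, rfl | rfl⟩ := hb
      · rw [step _ i k1 k2 k3 k4, ih]
      · rw [← step _ i k2 k1 k4 k3, ih]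
  by_cases ex : ∃ v, zd v 0 ≤ s ∧ z + prj M v ∉ I
  · obtain ⟨v₀, a1, a2⟩ := ex
    refine ⟨g v₀, fun v b1 b2 => ?_⟩
    have := con _ _ (td_le z a1) (td_le z b1) a2 b2
    rwa [lft_eq z a1 (by omega), lft_eq z b1 (by omega)] at this
  · exact ⟨0, fun v b1 b2 => (ex ⟨v, b1, b2⟩).elim⟩

theorem dat {P B : Gauge M} (hB : IsSign B) {z : Tor M} {ρ : ℕ} (hF : Flat B z (ρ + 2))
    {φ : Tor M × Fin 4 → ℝ} (h : Hom (P * B) z (ρ + 2) φ) :
    ∃ Hv Hf, Dat ρ (fun v i => P (z + prj M v, i)) (fun v i => B (z + prj M v, i))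
      (fun v => chi φ (z + prj M v)) Hv Hf := by
  have e0 : ∀ v, z + prj M (v + (1, 0)) = z + prj M v + uv M 0 := fun v => by
    rw [G.prj_add, G.uv_zero, add_assoc]
  have e1 : ∀ v, z + prj M (v + (0, 1)) = z + prj M v + uv M 1 := fun v => by
    rw [G.prj_add, G.uv_one, add_assoc]
  have hE : ∀ v, zd v 0 ≤ ρ + 2 → zd (v + (1, 0)) 0 ≤ ρ + 2 →
      Ed (tc * (P (z + prj M v, 0) * B (z + prj M v, 0))) (-chi φ (z + prj M v) 3)
        (chi φ (z + prj M v) 0) (chi φ (z + prj M (v + (1, 0))) 1)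
        (chi φ (z + prj M (v + (1, 0))) 2) := fun v h1 h2 => by
    rw [e0]
    exact edE (A := P * B) (h _ (td_le z h1)) (h _ (by rw [← e0]; exact td_le z h2))
  have hN : ∀ v, zd v 0 ≤ ρ + 2 → zd (v + (0, 1)) 0 ≤ ρ + 2 →
      Ed (tc * (P (z + prj M v, 1) * B (z + prj M v, 1))) (chi φ (z + prj M v) 0)
        (chi φ (z + prj M v) 1) (chi φ (z + prj M (v + (0, 1))) 2)
        (chi φ (z + prj M (v + (0, 1))) 3) := fun v h1 h2 => by
    rw [e1]
    exact edN (A := P * B) (h _ (td_le z h1)) (h _ (by rw [← e1]; exact td_le z h2))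
  obtain ⟨Hv, Hf, hp⟩ := exists_pot (ρ + 1) (fun v k => chi φ (z + prj M v) k ^ 2)
    (fun v h1 h2 => by linarith [(hE v h1 h2).closed]) fun v h1 h2 => (hN v h1 h2).closed
  refine ⟨Hv, Hf, fun v i => G.sign_sq hB _, fun f hf => ?_,
    fun v hv => hE v (by omega) (zd_cn hv 1).2, fun v hv => hN v (by omega) (zd_cn hv 3).2, hp⟩
  rw [e0, e1]
  exact hF _ (td_le z (by omega))

end B2a

open B2a

/-- The pair of a homogeneous solution. -/
theorem exists_pair : ∃ C : ℝ, 1 ≤ C ∧ ∀ (M : ℕ) [NeZero M] (R : Reg M) (B : Gauge M), IsSign B →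
    ∀ (z : Tor M) (s ρ : ℕ), s + 2 ≤ ρ → 2 * ρ + 9 ≤ M → Flat B z (ρ + 2) →
    ConnB R.In z (s + 2) ρ → ∀ φ, Hom (R.pw * B) z (ρ + 2) φ →
      ∃ u w, IsPair s u w (R.pr z) (R.out z) ∧
        (∀ v k, zd v 0 ≤ s → u v - w (v - cn k) = chi φ (R.vx z v k) k ^ 2) ∧
        ∀ v, zd v 0 + 1 ≤ s → ∑ k, chi φ (R.vx z v k) k ^ 2 ≤ C * ∑ a, |GG u (R.pr z) v a| := by
  refine ⟨7, by norm_num, fun M _ R B hB z s ρ hs hM hF hc φ hφ => ?_⟩
  obtain ⟨Hv, Hf, hd⟩ := dat hB hF hφ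
  have hc' := cst hs hM hc
  have e0 : ∀ v, oth (z + prj M v, 0) = z + prj M (v - (0, 1)) := fun v => by
    rw [G.prj_sub, ← G.uv_one, ← add_sub_assoc]; rfl
  have e1 : ∀ v, oth (z + prj M v, 1) = z + prj M (v - (1, 0)) := fun v => by
    rw [G.prj_sub, ← G.uv_zero, ← add_sub_assoc]; rfl
  have en : ∀ v, z - prj M v = z + prj M (-v) := fun v => by
    rw [← zero_sub v, G.prj_sub, G.prj_zero, zero_sub, sub_eq_add_neg]
  obtain ⟨I, _ | _⟩ := R
  · exact pair_plus hd hs hc' (fun v => by simp [Reg.pw, e0]) (fun v => by simp [Reg.pw, e1])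
      (fun v a => by simp [Reg.pr]) fun v => by simp [Reg.out]
  · simp only [Reg.vx, if_true, en]
    exact pair_free hd hs hc' (fun v => by simp [Reg.pw, e0]) (fun v => by simp [Reg.pw, e1])
      (fun v a => by simp only [Reg.pr, if_true, en]) fun v => by simp only [Reg.out, if_true, en]

/-- The field and its corner values have comparable sizes. -/
theorem chi_cmp : ∃ C : ℝ, 1 ≤ C ∧ ∀ (M : ℕ) (φ : Tor M × Fin 4 → ℝ) (x : Tor M),
    ∑ a, φ (x, a) ^ 2 ≤ C * ∑ k, chi φ x k ^ 2 ∧ ∑ k, chi φ x k ^ 2 ≤ C * ∑ a, φ (x, a) ^ 2 := by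
  refine ⟨16, by norm_num, fun M φ x => ?_⟩
  simp only [Fin.sum_univ_four, chi0, chi1, chi2, chi3]
  generalize φ (x, 0) = a
  generalize φ (x, 1) = b
  generalize φ (x, 2) = c
  generalize φ (x, 3) = d
  have k : ∀ p q : ℝ, (p - q) ^ 2 ≤ 2 * (p ^ 2 + q ^ 2) := fun p q => by
    nlinarith [sq_nonneg (p + q)]
  have l : ∀ p q r s : ℝ, (p + q + r + s) ^ 2 ≤ 4 * (p ^ 2 + q ^ 2 + r ^ 2 + s ^ 2) :=
    fun p q r s => by
      nlinarith [sq_nonneg (p - q), sq_nonneg (p - r), sq_nonneg (p - s), sq_nonneg (q - r),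
        sq_nonneg (q - s), sq_nonneg (r - s)]
  constructor
  · nlinarith [k (-a + b + c + d) (-a - b + c + d), k (-a - b + c + d) (-a - b - c + d),
      k (-a - b - c + d) (-a - b - c - d), k (-(-a - b - c - d)) (-a + b + c + d),
      sq_nonneg (-a + b + c + d), sq_nonneg (-a - b + c + d), sq_nonneg (-a - b - c + d),
      sq_nonneg (-a - b - c - d)]
  · nlinarith [l (-a) b c d, l (-a) (-b) c d, l (-a) (-b) (-c) d, l (-a) (-b) (-c) (-d)]

end Vale.Agent.P144Z
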