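import Vale.Agent.P144D.B.Sup
import Vale.Agent.P144D.B.FH
import Vale.Agent.P144D.B.Dec
import Vale.Agent.P144D.B.Pair

/-!
Decay of the homogeneous solutions near an outer half-plane.
-/

namespace Vale.Agent.P144Z

open Finset Matrix Filter Topology

namespace HomDec

/-- The square of radius `s` in the plane lattice. -/
noncomputable abbrev box (s : ℕ) : Finset (ℤ × ℤ) := Finset.Icc (-(s : ℤ)) s ×ˢ Finset.Icc (-(s : ℤ)) s

theorem mem_box {s : ℕ} {v : ℤ × ℤ} : v ∈ box s ↔ zd v 0 ≤ s := by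
  simp only [box, mem_product, mem_Icc, zd, Prod.fst_zero, Prod.snd_zero, sub_zero]
  omega

theorem cn_cases (k : Fin 4) :
    ((cn k).1 = 0 ∨ (cn k).1 = 1) ∧ ((cn k).2 = 0 ∨ (cn k).2 = 1) := by
  fin_cases k <;> simp [cn]

theorem cn_zero : cn 0 = 0 := rfl

theorem zd_sub_cn (v : ℤ × ℤ) (k : Fin 4) : zd (v - cn k) 0 ≤ zd v 0 + 1 := by
  have := cn_cases k
  simp only [zd, Prod.fst_zero, Prod.snd_zero, sub_zero, Prod.fst_sub, Prod.snd_sub]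
  omega

theorem zd_neg (v : ℤ × ℤ) : zd (-v) 0 = zd v 0 := by
  simp [zd]

theorem ht_neg (ν : ℂ) (v : ℤ × ℤ) : ht ν (-v) = ht (-ν) v := by
  simp [ht]

theorem ht_sub (ν : ℂ) (u v : ℤ × ℤ) : ht ν (u - v) = ht ν u - ht ν v := by
  simp only [ht, Prod.fst_sub, Prod.snd_sub, Int.cast_sub]
  ring

theorem abs_ht_le {ν : ℂ} (hν : ‖ν‖ = 1) (v : ℤ × ℤ) : |ht ν v| ≤ 2 * zd v 0 := by
  have h1 : |ν.re| ≤ 1 := hν ▸ Complex.abs_re_le_norm ν
  have h2 : |ν.im| ≤ 1 := hν ▸ Complex.abs_im_le_norm ν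
  have h3 : |(v.1 : ℝ)| ≤ zd v 0 := by
    have : |v.1| ≤ (zd v 0 : ℤ) := by
      simp only [zd, Prod.fst_zero, Prod.snd_zero, sub_zero]
      cases abs_cases v.1 <;> omega
    exact_mod_cast this
  have h4 : |(v.2 : ℝ)| ≤ zd v 0 := by
    have : |v.2| ≤ (zd v 0 : ℤ) := by
      simp only [zd, Prod.fst_zero, Prod.snd_zero, sub_zero]
      cases abs_cases v.2 <;> omega
    exact_mod_cast this
  have h5 : |(v.1 : ℝ) * ν.re| ≤ zd v 0 := by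
    rw [abs_mul]
    exact (mul_le_of_le_one_right (abs_nonneg _) h1).trans h3
  have h6 : |(v.2 : ℝ) * ν.im| ≤ zd v 0 := by
    rw [abs_mul]
    exact (mul_le_of_le_one_right (abs_nonneg _) h2).trans h4
  have := abs_add_le ((v.1 : ℝ) * ν.re) (v.2 * ν.im)
  unfold ht
  linarith

theorem zd_cn (k : Fin 4) : zd (cn k) 0 ≤ 1 := by
  have := cn_cases k
  simp only [zd, Prod.fst_zero, Prod.snd_zero, sub_zero]
  omega

/-- Every contour has a point of low height. -/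
theorem exists_low {ν : ℂ} (hν : ‖ν‖ = 1) (s : ℕ) : ∃ v : ℤ × ℤ, zd v 0 = s ∧ ht ν v ≤ -s := by
  have h1 : 1 ≤ |ν.re| + |ν.im| := hν ▸ Complex.norm_le_abs_re_add_abs_im ν
  have hs : (0 : ℝ) ≤ s := Nat.cast_nonneg s
  refine ⟨(if 0 ≤ ν.re then -(s : ℤ) else s, if 0 ≤ ν.im then -(s : ℤ) else s), ?_, ?_⟩
  · simp only [zd, Prod.fst_zero, Prod.snd_zero, sub_zero]
    split_ifs <;> simp
  · simp only [ht]
    split_ifs with ha hb hb
    · rw [abs_of_nonneg ha, abs_of_nonneg hb] at h1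
      push_cast
      nlinarith
    · rw [abs_of_nonneg ha, abs_of_neg (not_le.1 hb)] at h1
      push_cast
      nlinarith
    · rw [abs_of_neg (not_le.1 ha), abs_of_nonneg hb] at h1
      push_cast
      nlinarith
    · rw [abs_of_neg (not_le.1 ha), abs_of_neg (not_le.1 hb)] at h1
      push_cast
      nlinarith

theorem pair_mono {ρ ρ' : ℕ} {u w : ℤ × ℤ → ℝ} {pr : ℤ × ℤ → Fin 4 → Prop}
    {out : ℤ × ℤ → Prop} (h : IsPair ρ u w pr out) (hρ : ρ' ≤ ρ) : IsPair ρ' u w pr out where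
  le v k hv := h.le v k (hv.trans hρ)
  zero v hv := h.zero v (by omega)
  rem := h.rem
  symm := h.symm
  sub v hv := h.sub v (hv.trans hρ)
  sup v hv := h.sup v (hv.trans hρ)

variable {M : ℕ}

/-- The inner normal in the coordinates of the pair. -/
def dir (R : Reg M) (ν : ℂ) : ℂ := if R.fr then -ν else ν

theorem norm_dir (R : Reg M) (ν : ℂ) : ‖dir R ν‖ = ‖ν‖ := by
  unfold dir
  split_ifs <;> simp

theorem prj_neg (v : ℤ × ℤ) : prj M (-v) = -prj M v := by simp [prj]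

/-- The low sites are outer sites and all their edges are removed. -/
theorem out_of_ht {R : Reg M} {z : Tor M} {ν : ℂ} (hν : ‖ν‖ = 1) {ρ : ℕ} {w₀ : ℝ}
    (h : OutH R.In z ν ρ w₀) {v : ℤ × ℤ} (hv : zd v 0 + 1 ≤ ρ)
    (ht' : ht (dir R ν) v ≤ -(w₀ + 2)) : R.out z v ∧ ∀ a, ¬ R.pr z v a := by
  unfold dir at ht'
  unfold Reg.out Reg.pr
  split_ifs at ht' ⊢ with hfr
  · have h1 : z - prj M v ∉ R.In := by
      rw [sub_eq_add_neg, ← prj_neg]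
      refine h _ (by rw [zd_neg]; omega) ?_
      rw [ht_neg]
      linarith
    exact ⟨⟨0, by rwa [cn_zero, add_zero]⟩, fun a ha => h1 ha.1⟩
  · have h1 : ∀ k, z + prj M (v - cn k) ∉ R.In := fun k => by
      refine h _ ((zd_sub_cn v k).trans hv) ?_
      have h2 := abs_ht_le hν (cn k)
      have h3 : (zd (cn k) 0 : ℝ) ≤ 1 := by exact_mod_cast zd_cn k
      have := neg_abs_le (ht ν (cn k))
      rw [ht_sub]
      linarith
    refine ⟨h _ (by omega) (by linarith), fun a ha => ?_⟩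
    rcases ha with ha | ha
    · exact h1 _ ha
    · exact h1 _ ha

variable [NeZero M]

theorem prj_inj {u v : ℤ × ℤ} {s : ℕ} (hu : zd u 0 ≤ s) (hv : zd v 0 ≤ s) (hM : 2 * s < M)
    (h : prj M u = prj M v) : u = v := by
  simp only [zd, Prod.fst_zero, Prod.snd_zero, sub_zero] at hu hv
  have h1 : lft (prj M u) = u :=
    lft_prj (by cases abs_cases u.1 <;> omega) (by cases abs_cases u.2 <;> omega)
  have h2 : lft (prj M v) = v :=
    lft_prj (by cases abs_cases v.1 <;> omega) (by cases abs_cases v.2 <;> omega)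
  rw [← h1, h, h2]

theorem vx_inj (R : Reg M) (z : Tor M) (k : Fin 4) {s : ℕ} (hM : 2 * s < M) {u v : ℤ × ℤ}
    (hu : zd u 0 ≤ s) (hv : zd v 0 ≤ s) (h : R.vx z u k = R.vx z v k) : u = v := by
  unfold Reg.vx at h
  split_ifs at h
  · rw [sub_right_inj, G.prj_sub, G.prj_sub, sub_left_inj] at h
    exact prj_inj hu hv hM h
  · exact prj_inj hu hv hM (add_left_cancel h)

theorem tdist_vx (R : Reg M) (z : Tor M) (v : ℤ × ℤ) (k : Fin 4) :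
    tdist (R.vx z v k) z ≤ zd v 0 + 1 := by
  unfold Reg.vx
  split_ifs
  · rw [sub_eq_add_neg, ← prj_neg]
    have h1 := G.tdist_add_prj_le z (-(v - cn k))
    have h2 := zd_sub_cn v k
    rw [← zd_neg] at h2
    simp only [zd, Prod.fst_zero, Prod.snd_zero, sub_zero] at h1 h2 ⊢
    omega
  · have h1 := G.tdist_add_prj_le z v
    simp only [zd, Prod.fst_zero, Prod.snd_zero, sub_zero] at h1 ⊢
    omega

theorem exists_vx (R : Reg M) {z y : Tor M} (k : Fin 4) {s : ℕ} (hy : tdist y z ≤ s) :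
    ∃ v, zd v 0 ≤ s + 1 ∧ R.vx z v k = y := by
  have h1 := G.add_prj_lft y z
  rw [G.tdist_def] at hy
  have h2 := cn_cases k
  unfold Reg.vx
  split_ifs
  · refine ⟨cn k - lft (y - z), ?_, ?_⟩
    · simp only [zd, Prod.fst_zero, Prod.snd_zero, sub_zero, Prod.fst_sub, Prod.snd_sub]
      omega
    · rw [sub_sub_cancel_left, prj_neg, sub_neg_eq_add, h1]
  · refine ⟨lft (y - z), ?_, h1⟩
    simp only [zd, Prod.fst_zero, Prod.snd_zero, sub_zero]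
    omega

/-- The corners of the sites of a square are corners of the vertices of a ball. -/
theorem sum_box_le (R : Reg M) (z : Tor M) {s : ℕ} (hM : 2 * s < M) (f : Tor M → Fin 4 → ℝ)
    (hf : ∀ y k, 0 ≤ f y k) :
    ∑ v ∈ box s, ∑ k, f (R.vx z v k) k ≤ ∑ y ∈ ball z (s + 1), ∑ k, f y k := by
  rw [sum_comm, sum_comm (s := ball z (s + 1))]
  refine sum_le_sum fun k _ => ?_
  rw [← sum_image (s := box s) (g := fun v => R.vx z v k) (f := fun y => f y k)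
    fun u hu v hv h => vx_inj R z k hM (mem_box.1 hu) (mem_box.1 hv) h]
  refine sum_le_sum_of_subset_of_nonneg (fun y hy => ?_) fun y _ _ => hf y k
  obtain ⟨v, hv, rfl⟩ := mem_image.1 hy
  have := tdist_vx R z v k
  have := mem_box.1 hv
  exact G.mem_ball.2 (by omega)

/-- The converse inequality. -/
theorem sum_ball_le (R : Reg M) (z : Tor M) (s : ℕ) (f : Tor M → Fin 4 → ℝ)
    (hf : ∀ y k, 0 ≤ f y k) :
    ∑ y ∈ ball z s, ∑ k, f y k ≤ ∑ v ∈ box (s + 1), ∑ k, f (R.vx z v k) k := by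
  rw [sum_comm, sum_comm (s := box (s + 1))]
  refine sum_le_sum fun k _ => ?_
  refine le_trans ?_ (sum_image_le_of_nonneg (s := box (s + 1)) (g := fun v => R.vx z v k)
    (f := fun y => f y k) fun y _ => hf y k)
  refine sum_le_sum_of_subset_of_nonneg (fun y hy => ?_) fun y _ _ => hf y k
  obtain ⟨v, hv, rfl⟩ := exists_vx R k (G.mem_ball.1 hy)
  exact mem_image.2 ⟨v, mem_box.2 hv, rfl⟩

omit [NeZero M] in
theorem l2sq_nonneg (X : Finset (Tor M)) (φ : Tor M × Fin 4 → ℝ) : 0 ≤ l2sq X φ :=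
  sum_nonneg fun _ _ => sum_nonneg fun _ _ => sq_nonneg _

theorem l2sq_mono (z : Tor M) {s s' : ℕ} (h : s ≤ s') (φ : Tor M × Fin 4 → ℝ) :
    l2sq (ball z s) φ ≤ l2sq (ball z s') φ :=
  sum_le_sum_of_subset_of_nonneg (fun _ hy => G.mem_ball.2 ((G.mem_ball.1 hy).trans h))
    fun _ _ _ => sum_nonneg fun _ _ => sq_nonneg _

/-- The pair of a homogeneous solution vanishes linearly at an outer half-plane. -/
theorem pair_bound : ∃ C : ℝ, 1 ≤ C ∧ ∀ (M : ℕ) [NeZero M] (R : Reg M) (B : Gauge M), IsSign B →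
    ∀ (z : Tor M) (ν : ℂ) (w₀ : ℝ) (s₁ ρ : ℕ), ‖ν‖ = 1 → 0 ≤ w₀ → 2 * (w₀ + 2) ≤ s₁ → 8 ≤ s₁ →
    s₁ + 2 ≤ ρ → 2 * ρ + 9 ≤ M → Flat B z (ρ + 2) → ConnB R.In z (s₁ + 2) ρ →
    OutH R.In z ν (s₁ + 2) w₀ → ∀ φ, Hom (R.pw * B) z (ρ + 2) φ →
      ∃ u w, IsPair s₁ u w (R.pr z) (R.out z) ∧
        (∀ v k, zd v 0 ≤ s₁ → u v - w (v - cn k) = chi φ (R.vx z v k) k ^ 2) ∧
        (∀ v, zd v 0 + 1 ≤ s₁ →
          ∑ k, chi φ (R.vx z v k) k ^ 2 ≤ C * ∑ a, |GG u (R.pr z) v a|) ∧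
        (∀ v, 2 * zd v 0 ≤ s₁ → |u v| * s₁ ≤ C * l2sq (ball z (s₁ + 1)) φ ∧
          |w v| * s₁ ≤ C * l2sq (ball z (s₁ + 1)) φ) ∧
        ∀ v, 8 * zd v 0 ≤ s₁ →
          |u v| * s₁ ^ 2 ≤ C * l2sq (ball z (s₁ + 1)) φ * (max (ht (dir R ν) v) 0 + w₀ + 1) ∧
          |w v| * s₁ ^ 2 ≤ C * l2sq (ball z (s₁ + 1)) φ * (max (ht (dir R ν) v) 0 + w₀ + 1) := by
  obtain ⟨C₁, hC₁, H₁⟩ := exists_pair
  obtain ⟨C₂, hC₂, H₂⟩ := chi_cmp
  obtain ⟨C₃, hC₃, H₃⟩ := pair_sup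
  obtain ⟨C₅, hC₅, H₅⟩ := pair_decay
  have h23 : 1 ≤ C₃ * C₂ := one_le_mul_of_one_le_of_one_le hC₃ hC₂
  have h235 : C₃ * C₂ ≤ 9 * C₅ * (C₃ * C₂) := by nlinarith
  refine ⟨C₁ + 9 * C₅ * (C₃ * C₂), by linarith, ?_⟩
  intro M _ R B hB z ν w₀ s₁ ρ hν hw hw₁ h8 hρ hM hF hc ho φ hφ
  obtain ⟨u, w, hp, he, hl⟩ := H₁ M R B hB z s₁ ρ hρ hM hF hc φ hφ
  set N := l2sq (ball z (s₁ + 1)) φ with hN
  have hN0 : 0 ≤ N := l2sq_nonneg _ _
  have hν' : ‖dir R ν‖ = 1 := by rw [norm_dir, hν]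
  have hs₁ : (8 : ℝ) ≤ s₁ := by exact_mod_cast h8
  have hmass : ∑ x ∈ box s₁, ∑ k, (u x - w (x - cn k)) ≤ C₂ * N := by
    rw [sum_congr rfl fun x hx => sum_congr rfl fun k _ => he x k (mem_box.1 hx)]
    refine (sum_box_le R z (by omega) (fun y k => chi φ y k ^ 2) fun _ _ => sq_nonneg _).trans ?_
    rw [hN, l2sq, mul_sum]
    exact sum_le_sum fun y _ => (H₂ M φ y).2
  have hsup : ∀ v, 2 * zd v 0 ≤ s₁ →
      |u v| * s₁ ≤ C₃ * C₂ * N ∧ |w v| * s₁ ≤ C₃ * C₂ * N := fun v hv => by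
    rw [mul_assoc]
    refine H₃ s₁ u w _ _ hp h8 (fun s h1 h2 => ?_) v hv _ hmass
    obtain ⟨x, hx, hx'⟩ := exists_low hν' s
    refine ⟨x, 0, hx, ?_⟩
    rw [cn_zero, sub_zero]
    have : (s₁ : ℝ) ≤ 2 * s := by exact_mod_cast h1
    exact (out_of_ht hν ho (by omega) (by linarith)).1
  refine ⟨u, w, hp, he, fun v hv => ?_, fun v hv => ?_, fun v hv => ?_⟩
  · refine (hl v hv).trans (mul_le_mul_of_nonneg_right (by linarith) ?_)
    exact sum_nonneg fun _ _ => abs_nonneg _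
  · have h1 : C₃ * C₂ * N ≤ (C₁ + 9 * C₅ * (C₃ * C₂)) * N :=
      mul_le_mul_of_nonneg_right (by linarith) hN0
    exact ⟨(hsup v hv).1.trans h1, (hsup v hv).2.trans h1⟩
  · have hpos : (0 : ℝ) < s₁ := by linarith
    have h1 := H₅ (s₁ / 2) u w _ _ (pair_mono hp (Nat.div_le_self _ _)) (dir R ν) (w₀ + 2)
      (C₃ * C₂ * N / s₁) hν' (by linarith) (fun x hx hx' => out_of_ht hν ho (by omega) hx')
      (fun x hx => by
        rw [le_div_iff₀ hpos, le_div_iff₀ hpos]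
        exact hsup x (by omega)) v (by omega)
    have h2 : (s₁ : ℝ) ≤ 3 * (s₁ / 2 : ℕ) := by exact_mod_cast (by omega : s₁ ≤ 3 * (s₁ / 2))
    have hm : 0 ≤ max (ht (dir R ν) v) 0 := le_max_right _ _
    have key : ∀ a : ℝ, 0 ≤ a → a * (s₁ / 2 : ℕ) ≤
        C₅ * (C₃ * C₂ * N / s₁) * (max (ht (dir R ν) v) 0 + (w₀ + 2) + 1) →
        a * s₁ ^ 2 ≤ (C₁ + 9 * C₅ * (C₃ * C₂)) * N * (max (ht (dir R ν) v) 0 + w₀ + 1) := by
      intro a ha h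
      set m := max (ht (dir R ν) v) 0
      have hD : 0 ≤ C₅ * (C₃ * C₂ * N) := by positivity
      have h3 : a * (s₁ / 2 : ℕ) * s₁ ≤ C₅ * (C₃ * C₂ * N) * (m + (w₀ + 2) + 1) := by
        refine (mul_le_mul_of_nonneg_right h hpos.le).trans (le_of_eq ?_)
        field_simp
      have h4 : a * s₁ ^ 2 ≤ 3 * (a * (s₁ / 2 : ℕ) * s₁) := by
        have := mul_le_mul_of_nonneg_left h2 (mul_nonneg ha hpos.le)
        nlinarith
      have h5 : C₅ * (C₃ * C₂ * N) * (m + (w₀ + 2) + 1) ≤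
          C₅ * (C₃ * C₂ * N) * (3 * (m + w₀ + 1)) :=
        mul_le_mul_of_nonneg_left (by linarith) hD
      have h6 : 0 ≤ C₁ * N * (m + w₀ + 1) := by positivity
      nlinarith
    exact ⟨key _ (abs_nonneg _) h1.1, key _ (abs_nonneg _) h1.2⟩

/-- The mass of the field is bounded by the supremum of the pair. -/
theorem l2_of_sup (C₀ : ℝ) (hC₀ : 0 ≤ C₀) : ∃ C : ℝ, 1 ≤ C ∧ ∀ (M : ℕ) [NeZero M] (R : Reg M)
    (z : Tor M) (φ : Tor M × Fin 4 → ℝ) (u w : ℤ × ℤ → ℝ) (s s₁ : ℕ) (S : ℝ),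
    IsPair s₁ u w (R.pr z) (R.out z) → 2 * s + 3 ≤ s₁ →
    (∀ v, zd v 0 + 1 ≤ s₁ → ∑ k, chi φ (R.vx z v k) k ^ 2 ≤ C₀ * ∑ a, |GG u (R.pr z) v a|) →
    (∀ v, zd v 0 ≤ 2 * s + 3 → |u v| ≤ S) → l2sq (ball z s) φ ≤ C * (s + 1) * S := by
  obtain ⟨C₂, hC₂, H₂⟩ := chi_cmp
  obtain ⟨C₄, hC₄, H₄⟩ := pair_FH
  have h0 : 0 ≤ C₂ * C₀ * C₄ := by positivity
  refine ⟨C₂ * C₀ * C₄ + 1, by linarith, ?_⟩
  intro M _ R z φ u w s s₁ S hp hs hl hu
  have hS : 0 ≤ S := (abs_nonneg _).trans (hu 0 (by simp [zd]))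
  have h1 : l2sq (ball z s) φ ≤ C₂ * ∑ y ∈ ball z s, ∑ k, chi φ y k ^ 2 := by
    rw [l2sq, mul_sum]
    exact sum_le_sum fun y _ => (H₂ M φ y).1
  have h2 := sum_ball_le R z s (fun y k => chi φ y k ^ 2) fun _ _ => sq_nonneg _
  have h3 : ∑ v ∈ box (s + 1), ∑ k, chi φ (R.vx z v k) k ^ 2 ≤
      C₀ * ∑ v ∈ box (s + 1), ∑ a, |GG u (R.pr z) v a| := by
    rw [mul_sum]
    exact sum_le_sum fun v hv => hl v (by have := mem_box.1 hv; omega)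
  have h4 := H₄ s₁ (s + 1) u w _ _ hp (by omega) (by omega) S fun v hv => hu v (by omega)
  have h5 := mul_le_mul_of_nonneg_left ((h2.trans h3).trans (mul_le_mul_of_nonneg_left h4 hC₀))
    (zero_le_one.trans hC₂)
  have h6 : 0 ≤ ((s : ℝ) + 1) * S := by positivity
  push_cast at h5
  nlinarith

end HomDec

open HomDec in
/-- The form of `HomDec.pair_bound` used for the rank-one property. -/
theorem B2b1.pair_bound : ∃ C : ℝ, 1 ≤ C ∧ ∀ (M : ℕ) [NeZero M] (R : Reg M) (B : Gauge M), IsSign B →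
    ∀ (z : Tor M) (ν : ℂ) (w₀ : ℝ) (s₁ ρ : ℕ), ‖ν‖ = 1 → 0 ≤ w₀ → 64 * (w₀ + 1) ≤ s₁ →
    s₁ + 2 ≤ ρ → 2 * ρ + 9 ≤ M → Flat B z (ρ + 2) → ConnB R.In z (s₁ + 2) ρ →
    OutH R.In z ν (s₁ + 2) w₀ → ∀ φ, Hom (R.pw * B) z (ρ + 2) φ →
      ∃ u w, IsPair s₁ u w (R.pr z) (R.out z) ∧
        (∀ v k, zd v 0 ≤ s₁ → u v - w (v - cn k) = chi φ (R.vx z v k) k ^ 2) ∧
        (∀ v, zd v 0 + 1 ≤ s₁ → ∑ k, chi φ (R.vx z v k) k ^ 2 ≤ C * ∑ a, |GG u (R.pr z) v a|) ∧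
        ∀ v, 8 * zd v 0 ≤ s₁ →
          |u v| * s₁ ^ 2 ≤ C * l2sq (ball z (ρ + 2)) φ *
            (max (ht (if R.fr then -ν else ν) v) 0 + w₀ + 1) ∧
          |w v| * s₁ ^ 2 ≤ C * l2sq (ball z (ρ + 2)) φ *
            (max (ht (if R.fr then -ν else ν) v) 0 + w₀ + 1) := by
  obtain ⟨C, hC, H⟩ := HomDec.pair_bound
  refine ⟨C, hC, ?_⟩
  intro M _ R B hB z ν w₀ s₁ ρ hν hw hw₁ hρ hM hF hc ho φ hφ
  have h8 : 8 ≤ s₁ := by
    have : ((8 : ℕ) : ℝ) ≤ s₁ := by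
      push_cast
      linarith
    exact_mod_cast this
  obtain ⟨u, w, hp, he, hl, -, hu⟩ := H M R B hB z ν w₀ s₁ ρ hν hw (by linarith) h8 hρ hM hF hc ho
    φ hφ
  refine ⟨u, w, hp, he, hl, fun v hv => ?_⟩
  have h1 : C * l2sq (ball z (s₁ + 1)) φ * (max (ht (dir R ν) v) 0 + w₀ + 1) ≤
      C * l2sq (ball z (ρ + 2)) φ * (max (ht (dir R ν) v) 0 + w₀ + 1) := by
    have := le_max_right (ht (dir R ν) v) 0
    exact mul_le_mul_of_nonneg_right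
      (mul_le_mul_of_nonneg_left (l2sq_mono z (by omega) φ) (by linarith)) (by linarith)
  exact ⟨(hu v hv).1.trans h1, (hu v hv).2.trans h1⟩

open HomDec in
/-- Decay of the homogeneous solutions near an outer half-plane. -/
theorem hom_decay : ∃ C : ℕ, 1 ≤ C ∧ ∀ (M : ℕ) [NeZero M] (R : Reg M) (B : Gauge M), IsSign B →
    ∀ (z : Tor M) (ν : ℂ) (w₀ : ℝ) (s s₁ ρ : ℕ), ‖ν‖ = 1 → 0 ≤ w₀ → w₀ ≤ s → 1 ≤ s → C * s ≤ s₁ →
    s₁ + 2 ≤ ρ → 2 * ρ + 9 ≤ M → Flat B z (ρ + 2) → ConnB R.In z (s₁ + 2) ρ →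
    OutH R.In z ν (s₁ + 2) w₀ → ∀ φ, Hom (R.pw * B) z (ρ + 2) φ →
      l2sq (ball z s) φ * s₁ ^ 2 ≤ C * s ^ 2 * l2sq (ball z (ρ + 2)) φ := by
  obtain ⟨C₁, hC₁, H₁⟩ := pair_bound
  obtain ⟨C₂, hC₂, H₂⟩ := l2_of_sup C₁ (by linarith)
  refine ⟨⌈24 * C₂ * C₁⌉₊ + 40, by omega, ?_⟩
  intro M _ R B hB z ν w₀ s s₁ ρ hν hw hws hs hC hρ hM hF hc ho φ hφ
  have h40 : 40 * s ≤ s₁ := le_trans (Nat.mul_le_mul_right s (by omega)) hC
  have hs' : (1 : ℝ) ≤ s := by exact_mod_cast hs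
  have h40' : (40 : ℝ) * s ≤ s₁ := by exact_mod_cast h40
  have hpos : (0 : ℝ) < s₁ := by linarith
  obtain ⟨u, w, hp, -, hl, -, hu⟩ := H₁ M R B hB z ν w₀ s₁ ρ hν hw (by linarith) (by omega) hρ hM
    hF hc ho φ hφ
  set N := l2sq (ball z (s₁ + 1)) φ with hN
  have hN0 : 0 ≤ N := l2sq_nonneg _ _
  have hN1 : N ≤ l2sq (ball z (ρ + 2)) φ := l2sq_mono z (by omega) φ
  have h1 := H₂ M R z φ u w s s₁ (C₁ * N * (12 * s) / s₁ ^ 2) hp (by omega) hl fun v hv => by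
    rw [le_div_iff₀ (by positivity)]
    refine (hu v (by omega)).1.trans (mul_le_mul_of_nonneg_left ?_ (by positivity))
    have h2 := abs_ht_le (ν := dir R ν) (by rw [norm_dir, hν]) v
    have h3 : (zd v 0 : ℝ) ≤ 2 * s + 3 := by exact_mod_cast hv
    have h4 : max (ht (dir R ν) v) 0 ≤ |ht (dir R ν) v| := max_le (le_abs_self _) (abs_nonneg _)
    linarith
  rw [← mul_div_assoc, le_div_iff₀ (by positivity)] at h1
  have h2 : 24 * C₂ * C₁ ≤ ((⌈24 * C₂ * C₁⌉₊ + 40 : ℕ) : ℝ) := by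
    have := Nat.le_ceil (24 * C₂ * C₁)
    push_cast
    linarith
  have h3 : C₂ * (s + 1) * (C₁ * N * (12 * s)) ≤ 24 * C₂ * C₁ * s ^ 2 * N := by
    have : 0 ≤ C₂ * C₁ * N * s * (s - 1) :=
      mul_nonneg (by positivity) (by linarith)
    nlinarith
  refine (h1.trans h3).trans ?_
  exact mul_le_mul (mul_le_mul_of_nonneg_right h2 (by positivity)) hN1 hN0 (by positivity)

end Vale.Agent.P144Z
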