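import Mathlib

/-!
Two linear forms with a small product: after removing one direction both are small.
-/

namespace Vale.Agent.P144Z.B2b2

variable {V : Type} [AddCommGroup V] [Module ℝ V] {S : Submodule ℝ V} {μ : V → ℝ} {C e : ℝ}

theorem kill (h0 : ∀ φ, 0 ≤ μ φ) (hadd : ∀ φ ψ, μ (φ + ψ) ≤ 2 * μ φ + 2 * μ ψ)
    (hs : ∀ (t : ℝ) φ, μ (t • φ) = t ^ 2 * μ φ) (L : V →ₗ[ℝ] ℝ)
    (h1 : ∀ φ ∈ S, L φ ^ 2 ≤ C * μ φ) :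
    ∃ u ∈ S, ∀ φ ∈ S, ∃ t : ℝ, μ (φ - t • u) ≤ 10 * μ φ ∧ L (φ - t • u) = 0 := by
  have bdd : BddAbove ((fun φ => L φ ^ 2 / μ φ) '' S) := by
    refine ⟨|C|, ?_⟩
    rintro _ ⟨φ, hφ, rfl⟩
    exact div_le_of_le_mul₀ (h0 φ) (abs_nonneg C)
      ((h1 φ hφ).trans (mul_le_mul_of_nonneg_right (le_abs_self C) (h0 φ)))
  have key : ∀ φ ∈ S, L φ ^ 2 ≤ sSup ((fun φ => L φ ^ 2 / μ φ) '' S) * μ φ := fun φ hφ => by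
    rcases (h0 φ).eq_or_lt with h | h
    · have := h1 φ hφ
      rwa [← h, mul_zero] at this ⊢
    · exact (div_le_iff₀ h).1 (le_csSup bdd ⟨φ, hφ, rfl⟩)
  have ne : ((fun φ => L φ ^ 2 / μ φ) '' S).Nonempty := ⟨_, 0, S.zero_mem, rfl⟩
  rcases le_or_gt (sSup ((fun φ => L φ ^ 2 / μ φ) '' S)) 0 with h | h
  · refine ⟨0, S.zero_mem, fun φ hφ => ⟨0, ?_, ?_⟩⟩ <;> rw [zero_smul, sub_zero]
    · linarith [h0 φ]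
    · exact pow_eq_zero_iff two_ne_zero |>.1 (le_antisymm
        ((key φ hφ).trans (mul_nonpos_of_nonpos_of_nonneg h (h0 φ))) (sq_nonneg _))
  · obtain ⟨_, ⟨u, hu, rfl⟩, h2⟩ := exists_lt_of_lt_csSup ne (div_lt_self h (by norm_num : 1 < (4 : ℝ)))
    generalize sSup ((fun φ => L φ ^ 2 / μ φ) '' S) = T at key h h2
    have h3 : T / 4 * μ u ≤ L u ^ 2 := by
      rcases (h0 u).eq_or_lt with h3 | h3
      · rw [← h3, mul_zero]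
        exact sq_nonneg _
      · exact (le_div_iff₀ h3).1 h2.le
    have h4 : L u ≠ 0 := fun h4 => by
      simp only [h4, ne_eq, OfNat.ofNat_ne_zero, not_false_eq_true, zero_pow, zero_div] at h2
      linarith
    refine ⟨u, hu, fun φ hφ => ⟨L φ / L u, ?_, ?_⟩⟩
    · have h5 := hadd φ ((-(L φ / L u)) • u)
      rw [hs, neg_smul, ← sub_eq_add_neg, neg_sq] at h5
      have h6 : (L φ / L u) ^ 2 * L u ^ 2 = L φ ^ 2 := by field_simp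
      have h7 := mul_le_mul_of_nonneg_left h3 (sq_nonneg (L φ / L u))
      have h8 : (L φ / L u) ^ 2 * μ u ≤ 4 * μ φ :=
        le_of_mul_le_mul_left (by nlinarith [key φ hφ]) h
      linarith
    · rw [map_sub, map_smul, smul_eq_mul, div_mul_cancel₀ _ h4, sub_self]

theorem dich (he : 0 ≤ e) (h0 : ∀ φ, 0 ≤ μ φ) (hadd : ∀ φ ψ, μ (φ + ψ) ≤ 2 * μ φ + 2 * μ ψ)
    (hs : ∀ (t : ℝ) φ, μ (t • φ) = t ^ 2 * μ φ) (L₁ L₂ : V →ₗ[ℝ] ℝ)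
    (h1 : ∀ φ ∈ S, L₁ φ ^ 2 + L₂ φ ^ 2 ≤ C * μ φ) (h2 : ∀ φ ∈ S, |L₁ φ * L₂ φ| ≤ e * μ φ) :
    (∀ φ ∈ S, L₁ φ ^ 2 ≤ 5 * e * μ φ) ∨ ∀ φ ∈ S, L₂ φ ^ 2 ≤ 5 * e * μ φ := by
  have eqv : ∀ φ ∈ S, ∀ ψ ∈ S, μ φ = μ ψ → (L₁ φ * L₂ ψ) ^ 2 ≤ 25 * (e * μ ψ) ^ 2 := by
    intro φ hφ ψ hψ h
    have a1 := abs_le.1 (h2 _ (S.add_mem hφ hψ))
    have a2 := abs_le.1 (h2 _ (S.add_mem hφ (S.smul_mem (-1) hψ)))
    have a3 := mul_le_mul_of_nonneg_left (hadd φ ψ) he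
    have a4 := mul_le_mul_of_nonneg_left (hadd φ ((-1 : ℝ) • ψ)) he
    have a5 := mul_le_mul (h2 φ hφ) (h2 ψ hψ) (abs_nonneg _) (mul_nonneg he (h0 _))
    rw [← abs_mul, h] at a5
    rw [hs, h] at a4
    rw [h] at a3
    simp only [map_add, map_smul, smul_eq_mul] at a1 a2
    have a6 : (L₁ φ * L₂ ψ + L₁ ψ * L₂ φ) ^ 2 ≤ (4 * (e * μ ψ)) ^ 2 :=
      sq_le_sq' (by linarith [a1.1, a2.2]) (by linarith [a1.2, a2.1])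
    nlinarith [(abs_le.1 a5).1, sq_nonneg (L₁ ψ * L₂ φ), sq_nonneg (e * μ ψ)]
  by_contra hc
  simp only [not_or, not_forall, not_le] at hc
  obtain ⟨⟨φ, hφ, p1⟩, ψ, hψ, p2⟩ := hc
  have pos : ∀ φ ∈ S, ∀ t, t ≤ L₁ φ ^ 2 + L₂ φ ^ 2 → 5 * e * μ φ < t → 0 < μ φ := by
    intro φ hφ t ht ht'
    refine (h0 φ).lt_of_ne fun h => ?_
    have := h1 φ hφ
    rw [← h, mul_zero] at this ht'
    linarith
  have q1 := pos φ hφ _ (le_add_of_nonneg_right (sq_nonneg _)) p1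
  have q2 := pos ψ hψ _ (le_add_of_nonneg_left (sq_nonneg _)) p2
  have q3 : √(μ ψ / μ φ) ^ 2 * μ φ = μ ψ := by
    rw [Real.sq_sqrt (by positivity), div_mul_cancel₀ _ q1.ne']
  have q4 := eqv _ (S.smul_mem √(μ ψ / μ φ) hφ) ψ hψ (by rw [hs, q3])
  have q5 := mul_lt_mul'' p1 p2 (by positivity) (by positivity)
  have q6 : 0 < √(μ ψ / μ φ) ^ 2 := by positivity
  rw [map_smul, smul_eq_mul] at q4
  generalize √(μ ψ / μ φ) = τ at q3 q4 q6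
  have q7 := mul_lt_mul_of_pos_left q5 q6
  rw [← q3] at q4 q7
  nlinarith

theorem rank_one (he : 0 ≤ e) (h0 : ∀ φ, 0 ≤ μ φ) (hadd : ∀ φ ψ, μ (φ + ψ) ≤ 2 * μ φ + 2 * μ ψ)
    (hs : ∀ (t : ℝ) φ, μ (t • φ) = t ^ 2 * μ φ) (L₁ L₂ : V →ₗ[ℝ] ℝ)
    (h1 : ∀ φ ∈ S, L₁ φ ^ 2 + L₂ φ ^ 2 ≤ C * μ φ) (h2 : ∀ φ ∈ S, |L₁ φ * L₂ φ| ≤ e * μ φ) :
    ∃ u ∈ S, ∀ φ ∈ S, ∃ t : ℝ, μ (φ - t • u) ≤ 10 * μ φ ∧
      L₁ (φ - t • u) ^ 2 + L₂ (φ - t • u) ^ 2 ≤ 50 * e * μ φ := by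
  rcases dich he h0 hadd hs L₁ L₂ h1 h2 with h | h
  · obtain ⟨u, hu, k⟩ := kill h0 hadd hs L₂ fun φ hφ =>
      (le_add_of_nonneg_left (sq_nonneg _)).trans (h1 φ hφ)
    refine ⟨u, hu, fun φ hφ => (k φ hφ).imp fun t ht => ⟨ht.1, ?_⟩⟩
    have := h _ (S.sub_mem hφ (S.smul_mem t hu))
    rw [ht.2]
    nlinarith [mul_le_mul_of_nonneg_left ht.1 he]
  · obtain ⟨u, hu, k⟩ := kill h0 hadd hs L₁ fun φ hφ =>
      (le_add_of_nonneg_right (sq_nonneg _)).trans (h1 φ hφ)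
    refine ⟨u, hu, fun φ hφ => (k φ hφ).imp fun t ht => ⟨ht.1, ?_⟩⟩
    have := h _ (S.sub_mem hφ (S.smul_mem t hu))
    rw [ht.2]
    nlinarith [mul_le_mul_of_nonneg_left ht.1 he]

end Vale.Agent.P144Z.B2b2
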