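import Vale.Agent.P144D.B.RkMain
import Vale.Agent.P144D.B.RkAbs
import Vale.Agent.P144D.B.HomDec

/-!
The homogeneous solutions are of rank one near a flat piece of the boundary.
-/

namespace Vale.Agent.P144Z

open Finset Matrix Filter Topology

namespace B2b2

theorem exists_half {n : ℂ} (hn : ‖n‖ = 1) :
    ∃ p q : ℝ, p ^ 2 + q ^ 2 = 1 ∧ n.re = p ^ 2 - q ^ 2 ∧ n.im = 2 * p * q := by
  obtain ⟨ω, rfl⟩ := IsAlgClosed.exists_pow_nat_eq n two_pos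
  rw [norm_pow, Complex.sq_norm, Complex.normSq_apply] at hn
  exact ⟨ω.re, ω.im, by linarith, by simp [sq], by simp [sq]; ring⟩

theorem alg {p q a₀ a₁ lam e : ℝ} (h : p ^ 2 + q ^ 2 = 1)
    (h1 : |tc * (a₁ ^ 2 - a₀ ^ 2) - lam * (p ^ 2 - q ^ 2)| ≤ e)
    (h2 : |2 * tc * a₀ * a₁ - lam * (2 * p * q)| ≤ e) :
    |(p * a₁ + q * a₀) * (q * a₁ - p * a₀)| ≤ 3 * e ∧
      (p * a₁ + q * a₀) ^ 2 + (q * a₁ - p * a₀) ^ 2 ≤ 3 * |lam| + 12 * e ∧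
      |lam| ≤ (p * a₁ + q * a₀) ^ 2 + (q * a₁ - p * a₀) ^ 2 + 2 * e := by
  have t1 : 2 / 5 ≤ tc := by
    have : (7 / 5 : ℝ) ≤ √2 := Real.le_sqrt_of_sq_le (by norm_num)
    unfold tc
    linarith
  have t2 := E3.tc_le
  have e0 : 0 ≤ e := (abs_nonneg _).trans h1
  have c1 : |p ^ 2 - q ^ 2| ≤ 1 := abs_le.2 ⟨by nlinarith, by nlinarith⟩
  have c2 : |2 * p * q| ≤ 1 :=
    abs_le.2 ⟨by nlinarith [sq_nonneg (p + q)], by nlinarith [sq_nonneg (p - q)]⟩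
  have k : ∀ {x y : ℝ}, |x| ≤ e → |y| ≤ 1 → |x * y| ≤ e := fun hx hy => by
    rw [abs_mul]
    exact (mul_le_of_le_one_right (abs_nonneg _) hy).trans hx
  have a1 : |tc * ((p * a₁ + q * a₀) ^ 2 - (q * a₁ - p * a₀) ^ 2) - lam| ≤ e + e :=
    le_of_eq_of_le (congrArg _ (by linear_combination lam * (p ^ 2 + q ^ 2 + 1) * h))
      ((abs_add_le _ _).trans (add_le_add (k h1 c1) (k h2 c2)))
  have a2 : |2 * tc * ((p * a₁ + q * a₀) * (q * a₁ - p * a₀))| ≤ e + e :=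
    le_of_eq_of_le (congrArg _ (by ring)) ((abs_sub _ _).trans (add_le_add (k h1 c2) (k h2 c1)))
  generalize p * a₁ + q * a₀ = x at a1 a2 ⊢
  generalize q * a₁ - p * a₀ = y at a1 a2 ⊢
  rw [abs_mul, abs_of_nonneg (by linarith)] at a2
  have a3 := mul_le_mul_of_nonneg_right t1 (abs_nonneg (x * y))
  have a4 := mul_le_mul_of_nonneg_right t1 (abs_nonneg (x ^ 2 - y ^ 2))
  have a5 := mul_le_mul_of_nonneg_right t2 (abs_nonneg (x ^ 2 - y ^ 2))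
  have a6 := abs_le.1 ((abs_abs_sub_abs_le_abs_sub _ _).trans a1)
  rw [abs_mul, abs_of_nonneg (by linarith : 0 ≤ tc)] at a6
  have a7 : |x ^ 2 - y ^ 2| ≤ x ^ 2 + y ^ 2 :=
    abs_le.2 ⟨by linarith [sq_nonneg x], by linarith [sq_nonneg y]⟩
  have a8 : x ^ 2 + y ^ 2 ≤ |x ^ 2 - y ^ 2| + 2 * |x * y| := by
    refine abs_le_of_sq_le_sq' ?_ (by positivity) |>.2
    nlinarith [sq_abs (x ^ 2 - y ^ 2), sq_abs (x * y),
      mul_nonneg (abs_nonneg (x ^ 2 - y ^ 2)) (abs_nonneg (x * y))]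
  exact ⟨by linarith, by linarith [abs_nonneg lam], by linarith⟩

/-- The homogeneous solutions. -/
def homS {M : ℕ} [NeZero M] (A : Gauge M) (z : Tor M) (ρ : ℕ) :
    Submodule ℝ (Tor M × Fin 4 → ℝ) where
  carrier := {φ | Hom A z ρ φ}
  add_mem' h h' s hs := by rw [mulVec_add, Pi.add_apply, h s hs, h' s hs, add_zero]
  zero_mem' s _ := by rw [mulVec_zero, Pi.zero_apply]
  smul_mem' t φ h s hs := by rw [mulVec_smul, Pi.smul_apply, h s hs, smul_zero]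

end B2b2

open B2b2 in
/-- Rank one near a flat piece of the boundary. -/
theorem hom_rank (η : ℝ) (hη : 0 < η) : ∃ K : ℕ, 1 ≤ K ∧ ∀ (M : ℕ) [NeZero M] (R : Reg M)
    (B : Gauge M), IsSign B → ∀ (z : Tor M) (ν : ℂ) (w₀ : ℝ) (s s₁ ρ : ℕ), ‖ν‖ = 1 → 0 ≤ w₀ →
    K * (w₀ + 1) ≤ s → K * s ≤ s₁ → s₁ + 2 ≤ ρ → 2 * ρ + 9 ≤ M → Flat B z (ρ + 2) →
    ConnB R.In z (s₁ + 2) ρ → OutH R.In z ν (s₁ + 2) w₀ → InH R.In z ν (s₁ + 2) w₀ →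
      ∃ u, Hom (R.pw * B) z (ρ + 2) u ∧ ∀ φ, Hom (R.pw * B) z (ρ + 2) φ → ∃ t : ℝ,
        l2sq (ball z s) (φ - t • u) * s₁ ^ 2 ≤ η ^ 2 * s ^ 2 * l2sq (ball z (ρ + 2)) φ := by
  obtain ⟨C₀, hC₀, h₀⟩ := B2b1.pair_bound
  obtain ⟨C, hC, h⟩ := ctx_main C₀ hC₀
  obtain ⟨P, hP, hP'⟩ : ∃ P : ℕ, 32 ≤ P ∧ 180 * C ^ 2 * C₀ / η ^ 2 ≤ P :=
    ⟨max 32 _, le_max_left _ _, (Nat.le_ceil _).trans (Nat.cast_le.2 (le_max_right _ _))⟩
  have K1 : 1 ≤ P ^ 3 := Nat.pow_pos (by omega)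
  refine ⟨512 * P ^ 3, by omega,
    fun M _ R B hB z ν w₀ s s₁ ρ hν hw hs hs₁ hρ hM hF hc ho hi => ?_⟩
  have P1 : (32 : ℝ) ≤ P := by exact_mod_cast hP
  have K2 : ((64 : ℕ) : ℝ) ≤ (512 * P ^ 3 : ℕ) := Nat.cast_le.2 (by omega)
  have s1 : (s : ℝ) ≤ s₁ := Nat.cast_le.2 ((Nat.le_mul_of_pos_left _ (by omega)).trans hs₁)
  have s2 : 64 * (w₀ + 1) ≤ s₁ :=
    ((mul_le_mul_of_nonneg_right K2 (by linarith)).trans hs).trans s1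
  have s0 : (0 : ℝ) < s₁ := by linarith
  have hn : ‖if R.fr then -ν else ν‖ = 1 := by split_ifs <;> simp [hν]
  obtain ⟨c, c1, c2⟩ := exists_ref hn s
  obtain ⟨p, q, e0, e1, e2⟩ := exists_half hn
  obtain ⟨μ, hμ⟩ : ∃ μ : (Tor M × Fin 4 → ℝ) → ℝ,
      ∀ φ, μ φ = C₀ * l2sq (ball z (ρ + 2)) φ / s₁ ^ 2 := ⟨_, fun _ => rfl⟩
  have μ0 : ∀ φ, 0 ≤ μ φ := fun φ => by
    have := E3.l2sq_nonneg (ball z (ρ + 2)) φ
    rw [hμ]
    positivity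
  obtain ⟨L₁, hL₁⟩ : ∃ L : (Tor M × Fin 4 → ℝ) →ₗ[ℝ] ℝ,
      ∀ φ, L φ = p * aL (R.vx z c 0) 1 φ + q * aL (R.vx z c 0) 0 φ :=
    ⟨p • aL _ 1 + q • aL _ 0, fun _ => rfl⟩
  obtain ⟨L₂, hL₂⟩ : ∃ L : (Tor M × Fin 4 → ℝ) →ₗ[ℝ] ℝ,
      ∀ φ, L φ = q * aL (R.vx z c 0) 1 φ - p * aL (R.vx z c 0) 0 φ :=
    ⟨q • aL _ 1 - p • aL _ 0, fun _ => rfl⟩
  have key : ∀ φ ∈ homS (R.pw * B) z (ρ + 2), |L₁ φ * L₂ φ| ≤ 3 * C / P * μ φ ∧
      L₁ φ ^ 2 + L₂ φ ^ 2 ≤ 15 * C * μ φ ∧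
      l2sq (ball z s) φ ≤ C * s ^ 2 * (L₁ φ ^ 2 + L₂ φ ^ 2 + 3 * C / P * μ φ) := fun φ hφ => by
    obtain ⟨u, w, a1, a2, a3, a4⟩ := h₀ M R B hB z ν w₀ s₁ ρ hν hw s2 hρ hM hF hc ho φ hφ
    obtain ⟨lam, l1, l2, l3, l4⟩ := h M R B z _ w₀ s₁ φ (μ φ) u w ⟨hB, hn, hw, by omega,
      W.flat_mono hF (by omega), fun v => vx_mem hi, fun t ht => hφ t (by omega), μ0 φ, a1, a2, a3,
      fun v hv => by
        rw [hμ, div_mul_eq_mul_div, le_div_iff₀ (by positivity), le_div_iff₀ (by positivity)]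
        exact a4 v hv⟩ P s hP hs hs₁ c c1 c2
    rw [e1] at l2
    rw [e2] at l3
    obtain ⟨b1, b2, b3⟩ := alg e0 l2 l3
    rw [← hL₁, ← hL₂] at b1 b2 b3
    have b4 : μ φ / P ≤ μ φ := div_le_self (μ0 φ) (by linarith)
    have b5 : μ φ / P ≤ C * (μ φ / P) :=
      le_mul_of_one_le_left (div_nonneg (μ0 φ) (by linarith)) hC
    have e : 3 * C / P * μ φ = 3 * (C * (μ φ / P)) := by ring
    rw [e]
    exact ⟨b1, by linarith [mul_le_mul_of_nonneg_left b4 (by linarith : 0 ≤ C)],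
      l4.trans (mul_le_mul_of_nonneg_left (by linarith) (by positivity))⟩
  obtain ⟨u, hu, hk⟩ := rank_one (by positivity) μ0 (fun φ ψ => by
      have := mul_le_mul_of_nonneg_left (E4.l2sq_add_le (ball z (ρ + 2)) φ ψ) (by linarith : 0 ≤ C₀)
      rw [hμ, hμ, hμ, ← mul_div_assoc, ← mul_div_assoc, ← add_div]
      exact div_le_div_of_nonneg_right (by linarith) (by positivity))
    (fun t φ => by rw [hμ, hμ, E4.l2sq_smul]; ring) L₁ L₂ (fun φ hφ => (key φ hφ).2.1)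
    fun φ hφ => (key φ hφ).1
  refine ⟨u, hu, fun φ hφ => (hk φ hφ).imp fun t ht => ?_⟩
  have a1 := (key _ (sub_mem hφ (Submodule.smul_mem _ t hu))).2.2
  have a2 := mul_le_mul_of_nonneg_left ht.1 (by positivity : 0 ≤ 3 * C / P)
  have a3 : l2sq (ball z s) (φ - t • u) ≤ C * s ^ 2 * (180 * C / P * μ φ) :=
    a1.trans (mul_le_mul_of_nonneg_left ((add_le_add ht.2 a2).trans_eq (by ring)) (by positivity))
  have a4 : 180 * C ^ 2 * C₀ / P ≤ η ^ 2 := by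
    rwa [div_le_iff₀ (by linarith), ← div_le_iff₀' (by positivity)]
  refine (mul_le_mul_of_nonneg_right a3 (by positivity)).trans (le_trans (le_of_eq ?_)
    (mul_le_mul_of_nonneg_right (mul_le_mul_of_nonneg_right a4 (by positivity))
      (E3.l2sq_nonneg _ _)))
  rw [hμ]
  field_simp

end Vale.Agent.P144Z
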