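import Vale.Agent.P144D.B.Ext

/-!
The Rellich inequality.
-/

namespace Vale.Agent.P144Z

open Finset Matrix

namespace B3a

/-- The two forms of an edge, free boundary condition. -/
theorem edge_free {B P : ℝ} (hB : B * B = 1) (hP : P = 1 ∨ P = tT) (F G p q : ℝ) :
    ((F - tc * (P * B * q) - p) ^ 2 + (G + tc * (P * B * p) + q) ^ 2 +
        2 * √2 * B * (F - tc * (P * B * q) - p) * (G + tc * (P * B * p) + q)) +
      ((-(F - tc * (P * B * q) + p)) ^ 2 + (G + tc * (P * B * p) - q) ^ 2 +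
        2 * √2 * B * -(F - tc * (P * B * q) + p) * (G + tc * (P * B * p) - q)) +
      ((tc * ((B - P * B) * q)) ^ 2 + (tc * ((B - P * B) * p)) ^ 2) ≤
      2 * (F ^ 2 + G ^ 2) + 4 * ((√2 - tc * P) * B * (F * q - G * p)) := by
  have r2 : √2 * √2 = 2 := Real.mul_self_sqrt (by norm_num)
  obtain ⟨c, hc, h⟩ : ∃ c, tc * P = c ∧ 2 * (c ^ 2 + 1 - 2 * √2 * c) + (tc - c) ^ 2 ≤ 0 := by
    rcases hP with rfl | rfl
    · exact ⟨tc, mul_one _, by unfold tc; nlinarith⟩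
    · exact ⟨1, tc_mul_tT, by unfold tc; nlinarith [lt_sqrt_two]⟩
  have e1 : tc * (P * B * q) = c * B * q := by rw [← hc]; ring
  have e2 : tc * (P * B * p) = c * B * p := by rw [← hc]; ring
  have e3 : tc * ((B - P * B) * q) = (tc - c) * B * q := by rw [← hc]; ring
  have e4 : tc * ((B - P * B) * p) = (tc - c) * B * p := by rw [← hc]; ring
  rw [e1, e2, e3, e4, hc]
  have h1 := mul_nonpos_of_nonpos_of_nonneg h (add_nonneg (sq_nonneg p) (sq_nonneg q))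
  refine le_of_sub_nonpos (le_of_eq_of_le ?_ h1)
  linear_combination (2 * c ^ 2 - 4 * √2 * c + (tc - c) ^ 2) * (p ^ 2 + q ^ 2) * hB

/-- The energy of an edge, plus boundary condition. -/
theorem edge_plus {B P : ℝ} (hB : B * B = 1) (hP : P = 1 ∨ P = 0) (F G p q : ℝ) :
    (F - tc * (P * B * q)) ^ 2 + (G + tc * (P * B * p)) ^ 2 +
      ((tc * ((B - P * B) * q)) ^ 2 + (tc * ((B - P * B) * p)) ^ 2) =
      F ^ 2 + G ^ 2 + 2 * (-(tc * P) * B * (F * q - G * p)) + tc ^ 2 * (p ^ 2 + q ^ 2) := by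
  rcases hP with rfl | rfl <;> linear_combination tc ^ 2 * (p ^ 2 + q ^ 2) * hB

theorem site_plus (a b c d : ℝ) : tc ^ 2 * (a ^ 2 + b ^ 2 + c ^ 2 + d ^ 2) ≤
    (b + c + d) ^ 2 + (-a + c + d) ^ 2 + (-a - b + d) ^ 2 + (-a - b - c) ^ 2 := by
  have r2 : √2 * √2 = 2 := Real.mul_self_sqrt (by norm_num)
  have h : (b + c + d) ^ 2 + (-a + c + d) ^ 2 + (-a - b + d) ^ 2 + (-a - b - c) ^ 2 -
      tc ^ 2 * (a ^ 2 + b ^ 2 + c ^ 2 + d ^ 2) = √2 / 2 * ((√2 * a + b - d) ^ 2 +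
        (√2 * b + a + c) ^ 2 + (√2 * c + b + d) ^ 2 + (√2 * d + c - a) ^ 2) := by
    unfold tc
    linear_combination (-(a ^ 2 + b ^ 2 + c ^ 2 + d ^ 2) * (1 + √2 / 2) -
      2 * (a * b + b * c + c * d - d * a)) * r2
  have h1 : 0 ≤ √2 / 2 * ((√2 * a + b - d) ^ 2 +
      (√2 * b + a + c) ^ 2 + (√2 * c + b + d) ^ 2 + (√2 * d + c - a) ^ 2) := by positivity
  linarith

theorem cyc_le (a b c d : ℝ) : a ^ 2 ≤ 4 * ((√2 * a + b + d) ^ 2 + (√2 * b + a + c) ^ 2 +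
    (√2 * c + b + d) ^ 2 + (√2 * d + a + c) ^ 2) := by
  have r2 : √2 * √2 = 2 := Real.mul_self_sqrt (by norm_num)
  have h0 : √2 < (10 / 7 : ℝ) := by
    rw [Real.sqrt_lt' (by norm_num)]
    norm_num
  have h : (√2 * a + b + d) ^ 2 + (√2 * b + a + c) ^ 2 + (√2 * c + b + d) ^ 2 +
      (√2 * d + a + c) ^ 2 = (3 - 2 * √2) * ((a + c) ^ 2 + (b + d) ^ 2) +
        2 * √2 * (a + c + (b + d)) ^ 2 + (a - c) ^ 2 + (b - d) ^ 2 := by
    linear_combination (a ^ 2 + b ^ 2 + c ^ 2 + d ^ 2) * r2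
  have h1 : 0 ≤ 2 * √2 * (a + c + (b + d)) ^ 2 := by positivity
  have h2 : 1 / 7 * ((a + c) ^ 2 + (b + d) ^ 2) ≤ (3 - 2 * √2) * ((a + c) ^ 2 + (b + d) ^ 2) :=
    mul_le_mul_of_nonneg_right (by linarith) (by positivity)
  rw [h]
  nlinarith [sq_nonneg (a + c), sq_nonneg (b + d), sq_nonneg (a - c), sq_nonneg (b - d),
    sq_nonneg c]

theorem rest_le {s s' : ℝ} (hs : s * s = 1) (hs' : s' * s' = 1) (d G G' F F' : ℝ) :
    (s * G + s' * G' + tT * F + tT * F' - d) ^ 2 ≤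
      50 * (G ^ 2 + G' ^ 2 + F ^ 2 + F' ^ 2) + 2 * d ^ 2 := by
  have h1 : (s * G) ^ 2 = G ^ 2 := by linear_combination G ^ 2 * hs
  have h2 : (s' * G') ^ 2 = G' ^ 2 := by linear_combination G' ^ 2 * hs'
  have h3 : tT ^ 2 ≤ 25 / 4 := by nlinarith [tT_le, two_le_tT]
  have h4 : (tT * F) ^ 2 ≤ 25 / 4 * F ^ 2 := by
    rw [mul_pow]
    exact mul_le_mul_of_nonneg_right h3 (sq_nonneg _)
  have h5 : (tT * F') ^ 2 ≤ 25 / 4 * F' ^ 2 := by
    rw [mul_pow]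
    exact mul_le_mul_of_nonneg_right h3 (sq_nonneg _)
  generalize s * G = x at *
  generalize s' * G' = y at *
  generalize tT * F = z at *
  generalize tT * F' = w at *
  nlinarith [sq_nonneg (x + y + z + w + d), sq_nonneg (x - y), sq_nonneg (x - z), sq_nonneg (x - w),
    sq_nonneg (y - z), sq_nonneg (y - w), sq_nonneg (z - w), sq_nonneg G, sq_nonneg G']

/-- The source at a flux is controlled by the defects. -/
theorem src_le {B0 B1 B2 B3 p0 p1 p2 p3 q0 q1 q2 q3 t F0 F1 F2 F3 : ℝ} (G0 G1 G2 G3 : ℝ)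
    (b0 : B0 * B0 = 1) (b1 : B1 * B1 = 1) (b2 : B2 * B2 = 1) (b3 : B3 * B3 = 1)
    (h : -p0 + p1 + p2 + p3 = 0) (h0 : F0 = p1 + p2 + p3 + tc * (B0 * q0) + t)
    (h1 : F1 = -p0 + p2 + p3 + tc * (B1 * q1) - t) (h2 : F2 = -p0 - p1 + p3 - tc * (B2 * q2) - t)
    (h3 : F3 = -p0 - p1 - p2 - tc * (B3 * q3) - t) :
    t ^ 2 ≤ 400 * (F0 ^ 2 + F1 ^ 2 + F2 ^ 2 + F3 ^ 2 + (G0 ^ 2 + G1 ^ 2 + G2 ^ 2 + G3 ^ 2)) +
      8 * ((√2 * -t - B0 * (G0 + tc * (B0 * p0) + q0) - B1 * (G1 + tc * (B1 * p1) - q1)) ^ 2 +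
        (√2 * (-p0 - p1 + p2 + p3 - t) + B2 * (G2 - tc * (B2 * p2) - q2) +
          B1 * (G1 + tc * (B1 * p1) + q1)) ^ 2 +
        (√2 * (-p0 - p1 - p2 + p3 - t) + B3 * (G3 - tc * (B3 * p3) - q3) -
          B2 * (G2 - tc * (B2 * p2) + q2)) ^ 2 +
        (√2 * (-p0 - p1 - p2 - p3 - t) + B0 * (G0 + tc * (B0 * p0) - q0) -
          B3 * (G3 - tc * (B3 * p3) + q3)) ^ 2) := by
  have r2 : √2 * √2 = 2 := Real.mul_self_sqrt (by norm_num)
  have k := cyc_le (-t) (-p0 - p1 + p2 + p3 - t) (-p0 - p1 - p2 + p3 - t) (-p0 - p1 - p2 - p3 - t)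
  have n0 : -B0 * -B0 = 1 := by linear_combination b0
  have n1 : -B1 * -B1 = 1 := by linear_combination b1
  have n2 : -B2 * -B2 = 1 := by linear_combination b2
  have n3 : -B3 * -B3 = 1 := by linear_combination b3
  have k0 := rest_le n0 n1
    (√2 * -t - B0 * (G0 + tc * (B0 * p0) + q0) - B1 * (G1 + tc * (B1 * p1) - q1)) G0 G1 (-F0) F1
  have k1 := rest_le b2 b1 (√2 * (-p0 - p1 + p2 + p3 - t) + B2 * (G2 - tc * (B2 * p2) - q2) +
    B1 * (G1 + tc * (B1 * p1) + q1)) G2 G1 F2 F1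
  have k2 := rest_le b3 n2 (√2 * (-p0 - p1 - p2 + p3 - t) + B3 * (G3 - tc * (B3 * p3) - q3) -
    B2 * (G2 - tc * (B2 * p2) + q2)) G3 G2 F3 F2
  have k3 := rest_le b0 n3 (√2 * (-p0 - p1 - p2 - p3 - t) + B0 * (G0 + tc * (B0 * p0) - q0) -
    B3 * (G3 - tc * (B3 * p3) + q3)) G0 G3 (-F0) F3
  have e0 : -B0 * G0 + -B1 * G1 + tT * -F0 + tT * F1 -
      (√2 * -t - B0 * (G0 + tc * (B0 * p0) + q0) - B1 * (G1 + tc * (B1 * p1) - q1)) =
      √2 * -t + (-p0 - p1 + p2 + p3 - t) + (-p0 - p1 - p2 - p3 - t) := by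
    rw [h0, h1]
    unfold tc tT
    linear_combination (B1 * q1 - B0 * q0) * r2 + (√2 - 1) * p0 * b0 + (√2 - 1) * p1 * b1
  have e1 : B2 * G2 + B1 * G1 + tT * F2 + tT * F1 -
      (√2 * (-p0 - p1 + p2 + p3 - t) + B2 * (G2 - tc * (B2 * p2) - q2) +
        B1 * (G1 + tc * (B1 * p1) + q1)) =
      √2 * (-p0 - p1 + p2 + p3 - t) + -t + (-p0 - p1 - p2 + p3 - t) := by
    rw [h1, h2]
    unfold tc tT
    linear_combination (B1 * q1 - B2 * q2) * r2 + (√2 - 1) * p2 * b2 - (√2 - 1) * p1 * b1 + h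
  have e2 : B3 * G3 + -B2 * G2 + tT * F3 + tT * F2 -
      (√2 * (-p0 - p1 - p2 + p3 - t) + B3 * (G3 - tc * (B3 * p3) - q3) -
        B2 * (G2 - tc * (B2 * p2) + q2)) =
      √2 * (-p0 - p1 - p2 + p3 - t) + (-p0 - p1 + p2 + p3 - t) + (-p0 - p1 - p2 - p3 - t) := by
    rw [h2, h3]
    unfold tc tT
    linear_combination (-B3 * q3 - B2 * q2) * r2 + (√2 - 1) * p3 * b3 - (√2 - 1) * p2 * b2
  have e3 : B0 * G0 + -B3 * G3 + tT * -F0 + tT * F3 -
      (√2 * (-p0 - p1 - p2 - p3 - t) + B0 * (G0 + tc * (B0 * p0) - q0) -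
        B3 * (G3 - tc * (B3 * p3) + q3)) =
      √2 * (-p0 - p1 - p2 - p3 - t) + -t + (-p0 - p1 - p2 + p3 - t) := by
    rw [h0, h3]
    unfold tc tT
    linear_combination (-B3 * q3 - B0 * q0) * r2 - (√2 - 1) * p0 * b0 - (√2 - 1) * p3 * b3 - h
  rw [e0] at k0
  rw [e1] at k1
  rw [e2] at k2
  rw [e3] at k3
  rw [neg_sq] at k k0 k3
  linarith

variable {M : ℕ} [NeZero M]

theorem sum_shift (v : Tor M) (g : Tor M → ℝ) : ∑ x, g (x + v) = ∑ x, g x :=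
  Equiv.sum_comp (Equiv.addRight v) g

theorem sum_shift' (v : Tor M) (g : Tor M → ℝ) : ∑ x, g (x - v) = ∑ x, g x :=
  Equiv.sum_comp (Equiv.subRight v) g

/-- The norm as a sum over the edges. -/
theorem l2_edges (g : Tor M × Fin 4 → ℝ) : l2sq univ g = ∑ x, (g (x, 0) ^ 2 + g (x + uv M 0, 2) ^ 2 +
    (g (x, 1) ^ 2 + g (x + uv M 1, 3) ^ 2)) := by
  simp only [l2sq, Fin.sum_univ_four, sum_add_distrib]
  rw [sum_shift (uv M 0) fun x => g (x, 2) ^ 2, sum_shift (uv M 1) fun x => g (x, 3) ^ 2]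
  ring

/-- Cauchy-Schwarz along the edges. -/
theorem cs_edges {w : Gauge M} (hw : ∀ e, w e ^ 2 ≤ 1) (F φ : Tor M × Fin 4 → ℝ) :
    ∑ x, (w (x, 0) * (F (x, 0) * φ (x + uv M 0, 2) - F (x + uv M 0, 2) * φ (x, 0)) +
      w (x, 1) * (F (x, 1) * φ (x + uv M 1, 3) - F (x + uv M 1, 3) * φ (x, 1))) ≤
      √(l2sq univ φ) * √(l2sq univ F) := by
  have h := Real.sum_mul_le_sqrt_mul_sqrt univ
    (fun s : Tor M × Fin 4 => ![w (s.1, 0) * φ (s.1 + uv M 0, 2), -(w (s.1, 0) * φ (s.1, 0)),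
      w (s.1, 1) * φ (s.1 + uv M 1, 3), -(w (s.1, 1) * φ (s.1, 1))] s.2)
    (fun s : Tor M × Fin 4 => ![F (s.1, 0), F (s.1 + uv M 0, 2), F (s.1, 1),
      F (s.1 + uv M 1, 3)] s.2)
  simp only [Fintype.sum_prod_type (α₂ := Fin 4), Fin.sum_univ_four, Matrix.cons_val_zero,
    Matrix.cons_val_one, Matrix.cons_val] at h
  refine le_trans (le_of_eq (sum_congr rfl fun x _ => by ring)) (h.trans ?_)
  rw [l2_edges φ, l2_edges F]
  refine mul_le_mul (Real.sqrt_le_sqrt (sum_le_sum fun x _ => ?_))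
    (Real.sqrt_le_sqrt (le_of_eq (sum_congr rfl fun x _ => by ring))) (Real.sqrt_nonneg _)
    (Real.sqrt_nonneg _)
  nlinarith [mul_le_of_le_one_left (sq_nonneg (φ (x, 0))) (hw (x, 0)),
    mul_le_of_le_one_left (sq_nonneg (φ (x + uv M 0, 2))) (hw (x, 0)),
    mul_le_of_le_one_left (sq_nonneg (φ (x, 1))) (hw (x, 1)),
    mul_le_of_le_one_left (sq_nonneg (φ (x + uv M 1, 3))) (hw (x, 1))]

/-- The boundary term as a sum over the edges. -/
theorem l2_bdry (A B : Gauge M) (φ : Tor M × Fin 4 → ℝ) :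
    l2sq univ (Dm B *ᵥ φ - Dm A *ᵥ φ) = ∑ x,
      ((tc * ((B (x, 0) - A (x, 0)) * φ (x + uv M 0, 2))) ^ 2 +
        (tc * ((B (x, 0) - A (x, 0)) * φ (x, 0))) ^ 2 +
        ((tc * ((B (x, 1) - A (x, 1)) * φ (x + uv M 1, 3))) ^ 2 +
          (tc * ((B (x, 1) - A (x, 1)) * φ (x, 1))) ^ 2)) := by
  rw [l2_edges]
  refine sum_congr rfl fun x _ => ?_
  simp only [Pi.sub_apply, E4.Dm0, E4.Dm1, E4.Dm2, E4.Dm3, add_sub_cancel_right]
  ring

theorem sum_cnr (t : Tor M → ℝ) (x : Tor M) (a : Fin 4) :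
    (∑ f, t f • cnr f) (x, a) = t x * if a = 0 then -1 else 1 := by
  rw [Finset.sum_apply, sum_eq_single x]
  · simp [cnr]
  · intro y _ hy
    simp [cnr, Ne.symm hy]
  · simp

theorem rel_plus {R : Reg M} (hR : ¬ R.fr = true) {B : Gauge M} (hB : IsSign B)
    (φ : Tor M × Fin 4 → ℝ) : l2sq univ (Dm B *ᵥ φ - Dm (R.pw * B) *ᵥ φ) ≤
      2 * (√(l2sq univ φ) * √(l2sq univ (Dm (R.pw * B) *ᵥ φ))) + l2sq univ (Dm (R.pw * B) *ᵥ φ) := by
  have hP : ∀ e, R.pw e = 1 ∨ R.pw e = 0 := fun e => by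
    rw [Reg.pw, if_neg hR]
    split_ifs
    exacts [Or.inl rfl, Or.inr rfl]
  have h1 := cs_edges (w := fun e => -(tc * R.pw e) * B e) (fun e => by
    have q := E4.sign_sq hB e
    have h2 : tc ^ 2 ≤ 1 := by unfold tc; nlinarith [sqrt_two_lt, lt_sqrt_two]
    rcases hP e with h | h <;> rw [h] <;> nlinarith) (Dm (R.pw * B) *ᵥ φ) φ
  have h2 : tc ^ 2 * l2sq univ φ ≤ l2sq univ (Dm 0 *ᵥ φ) := by
    rw [l2sq, l2sq, mul_sum]
    refine sum_le_sum fun x _ => ?_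
    simp only [Fin.sum_univ_four, E4.Dm0, E4.Dm1, E4.Dm2, E4.Dm3, Pi.zero_apply, zero_mul, mul_zero,
      add_zero, sub_zero]
    exact site_plus _ _ _ _
  have h3 : l2sq univ (Dm 0 *ᵥ φ) + l2sq univ (Dm B *ᵥ φ - Dm (R.pw * B) *ᵥ φ) =
      l2sq univ (Dm (R.pw * B) *ᵥ φ) + 2 * ∑ x, (-(tc * R.pw (x, 0)) * B (x, 0) *
        ((Dm (R.pw * B) *ᵥ φ) (x, 0) * φ (x + uv M 0, 2) -
          (Dm (R.pw * B) *ᵥ φ) (x + uv M 0, 2) * φ (x, 0)) + -(tc * R.pw (x, 1)) * B (x, 1) *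
        ((Dm (R.pw * B) *ᵥ φ) (x, 1) * φ (x + uv M 1, 3) -
          (Dm (R.pw * B) *ᵥ φ) (x + uv M 1, 3) * φ (x, 1))) + tc ^ 2 * l2sq univ φ := by
    rw [l2_bdry, l2_edges (Dm 0 *ᵥ φ), l2_edges (Dm (R.pw * B) *ᵥ φ), l2_edges φ, mul_sum, mul_sum,
      ← sum_add_distrib, ← sum_add_distrib, ← sum_add_distrib]
    refine sum_congr rfl fun x _ => ?_
    have k0 := edge_plus (E4.sign_sq hB (x, 0)) (hP (x, 0)) ((Dm (R.pw * B) *ᵥ φ) (x, 0))
      ((Dm (R.pw * B) *ᵥ φ) (x + uv M 0, 2)) (φ (x, 0)) (φ (x + uv M 0, 2))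
    have k1 := edge_plus (E4.sign_sq hB (x, 1)) (hP (x, 1)) ((Dm (R.pw * B) *ᵥ φ) (x, 1))
      ((Dm (R.pw * B) *ᵥ φ) (x + uv M 1, 3)) (φ (x, 1)) (φ (x + uv M 1, 3))
    simp only [E4.Dm0, E4.Dm1, E4.Dm2, E4.Dm3, add_sub_cancel_right, Pi.mul_apply,
      Pi.zero_apply] at k0 k1 ⊢
    linear_combination k0 + k1
  linarith

/-- The four edge forms of the corner values `c`. -/
noncomputable def g0 (B : Gauge M) (c : Tor M → Fin 4 → ℝ) (x : Tor M) : ℝ :=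
  (flux B x * c x 0) ^ 2 + c (x + uv M 0) 1 ^ 2 +
    2 * √2 * B (x, 0) * (flux B x * c x 0) * c (x + uv M 0) 1

/-- see `g0` -/
noncomputable def g1 (B : Gauge M) (c : Tor M → Fin 4 → ℝ) (x : Tor M) : ℝ :=
  c x 1 ^ 2 + c (x + uv M 1) 2 ^ 2 + 2 * √2 * B (x, 1) * c x 1 * c (x + uv M 1) 2

/-- see `g0` -/
noncomputable def g2 (B : Gauge M) (c : Tor M → Fin 4 → ℝ) (x : Tor M) : ℝ :=
  c x 3 ^ 2 + c (x + uv M 0) 2 ^ 2 + 2 * √2 * B (x, 0) * c x 3 * c (x + uv M 0) 2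

/-- see `g0` -/
noncomputable def g3 (B : Gauge M) (c : Tor M → Fin 4 → ℝ) (x : Tor M) : ℝ :=
  (-c x 0) ^ 2 + c (x + uv M 1) 3 ^ 2 + 2 * √2 * B (x, 1) * -c x 0 * c (x + uv M 1) 3

/-- The form of a face. -/
noncomputable def Qf (B : Gauge M) (c : Tor M → Fin 4 → ℝ) (y : Tor M) : ℝ :=
  g0 B c y + g1 B c (y + uv M 0) + g2 B c (y + uv M 1) + g3 B c y

theorem sum_Qf (B : Gauge M) (c : Tor M → Fin 4 → ℝ) :
    ∑ y, Qf B c y = ∑ x, (g0 B c x + g2 B c x + (g1 B c x + g3 B c x)) := by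
  simp only [Qf, sum_add_distrib]
  rw [sum_shift (uv M 0) (g1 B c), sum_shift (uv M 1) (g2 B c)]
  ring

omit [NeZero M] in
theorem Qf_eq {B : Gauge M} (hB : IsSign B) (c : Tor M → Fin 4 → ℝ) (y : Tor M) :
    (√2 * c y 0 + B (y, 0) * flux B y * c (y + uv M 0) 1 - B (y, 1) * c (y + uv M 1) 3) ^ 2 +
      (√2 * c (y + uv M 0) 1 + B (y, 0) * (flux B y * c y 0) +
        B (y + uv M 0, 1) * c (y + uv M 0 + uv M 1) 2) ^ 2 +
      (√2 * c (y + uv M 0 + uv M 1) 2 + B (y + uv M 0, 1) * c (y + uv M 0) 1 +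
        B (y + uv M 1, 0) * c (y + uv M 1) 3) ^ 2 +
      (√2 * c (y + uv M 1) 3 + B (y + uv M 1, 0) * c (y + uv M 0 + uv M 1) 2 -
        B (y, 1) * c y 0) ^ 2 = 2 * Qf B c y := by
  have q0 := E4.sign_sq hB (y, 0)
  have q1 := E4.sign_sq hB (y + uv M 0, 1)
  have q2 := E4.sign_sq hB (y + uv M 1, 0)
  have q3 := E4.sign_sq hB (y, 1)
  have q : flux B y * flux B y = 1 := by
    unfold flux
    linear_combination (B (y + uv M 0, 1) * B (y + uv M 1, 0) * B (y, 1)) ^ 2 * q0 +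
      (B (y + uv M 1, 0) * B (y, 1)) ^ 2 * q1 + B (y, 1) ^ 2 * q2 + q3
  have k := face_eq (s0 := -(B (y, 0) * flux B y)) (s1 := -B (y + uv M 0, 1))
    (s2 := -B (y + uv M 1, 0)) (s3 := B (y, 1)) (by linear_combination flux B y ^ 2 * q0 + q)
    (by linear_combination q1) (by linear_combination q2) q3
    (by
      have h : B (y, 0) * B (y + uv M 0, 1) * B (y + uv M 1, 0) * B (y, 1) = flux B y := rfl
      linear_combination -flux B y * h - q)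
    (c y 0) (c (y + uv M 0) 1) (c (y + uv M 0 + uv M 1) 2) (c (y + uv M 1) 3)
  simp only [Qf, g0, g1, g2, g3, add_right_comm y (uv M 1) (uv M 0)]
  linear_combination k - 2 * c y 0 ^ 2 * q

theorem rel_free {R : Reg M} (hR : R.fr = true) {B : Gauge M} (hB : IsSign B)
    (hI : ∀ f, flux B f = -1 → ∀ f', tdist f' f ≤ 1 → f' ∈ R.In)
    {φ F : Tor M × Fin 4 → ℝ} {t : Tor M → ℝ} (hφ : ∀ f, flux B f = -1 → cnr f ⬝ᵥ φ = 0)
    (ht : ∀ f, t f ≠ 0 → flux B f = -1) (hF : F = Dm (R.pw * B) *ᵥ φ - ∑ f, t f • cnr f) :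
    l2sq univ (Dm B *ᵥ φ - Dm (R.pw * B) *ᵥ φ) + ∑ f, t f ^ 2 ≤
      256 * (√(l2sq univ φ) * √(l2sq univ F)) + 928 * l2sq univ F := by
  have hP : ∀ e, R.pw e = 1 ∨ R.pw e = tT := fun e => by
    rw [Reg.pw, if_pos hR]
    split_ifs
    exacts [Or.inl rfl, Or.inr rfl]
  have F0 : ∀ x, F (x, 0) = φ (x, 1) + φ (x, 2) + φ (x, 3) +
      tc * (R.pw (x, 0) * B (x, 0) * φ (x + uv M 0, 2)) + t x := fun x => by
    rw [hF, Pi.sub_apply, E4.Dm0, sum_cnr, if_pos rfl, Pi.mul_apply]; ring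
  have F1 : ∀ x, F (x, 1) = -φ (x, 0) + φ (x, 2) + φ (x, 3) +
      tc * (R.pw (x, 1) * B (x, 1) * φ (x + uv M 1, 3)) - t x := fun x => by
    rw [hF, Pi.sub_apply, E4.Dm1, sum_cnr, if_neg (by decide), Pi.mul_apply, mul_one]
  have F2 : ∀ x, F (x, 2) = -φ (x, 0) - φ (x, 1) + φ (x, 3) -
      tc * (R.pw (x - uv M 0, 0) * B (x - uv M 0, 0) * φ (x - uv M 0, 0)) - t x := fun x => by
    rw [hF, Pi.sub_apply, E4.Dm2, sum_cnr, if_neg (by decide), Pi.mul_apply, mul_one]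
  have F3 : ∀ x, F (x, 3) = -φ (x, 0) - φ (x, 1) - φ (x, 2) -
      tc * (R.pw (x - uv M 1, 1) * B (x - uv M 1, 1) * φ (x - uv M 1, 1)) - t x := fun x => by
    rw [hF, Pi.sub_apply, E4.Dm3, sum_cnr, if_neg (by decide), Pi.mul_apply, mul_one]
  obtain ⟨c, hc⟩ : ∃ c : Tor M → Fin 4 → ℝ, ∀ x k, c x k = chi φ x k - t x := ⟨_, fun _ _ => rfl⟩
  have c0 : ∀ x, flux B x * c x 0 =
      F (x, 0) - tc * (R.pw (x, 0) * B (x, 0) * φ (x + uv M 0, 2)) - φ (x, 0) := fun x => by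
    rw [hc, chi0, F0]
    by_cases h : flux B x = -1
    · have h1 := hφ x h
      rw [E4.cnr_dot] at h1
      rw [h]
      linear_combination -2 * h1
    · have h1 : t x = 0 := by_contra fun h1 => h (ht x h1)
      have h2 : flux B x = 1 := by
        revert h
        unfold flux
        rcases hB (x, 0) with h1 | h1 <;> rcases hB (x + uv M 0, 1) with h2 | h2 <;>
          rcases hB (x + uv M 1, 0) with h3 | h3 <;> rcases hB (x, 1) with h4 | h4 <;>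
          rw [h1, h2, h3, h4] <;> norm_num
      rw [h1, h2]
      ring
  have c0' : ∀ x, c x 3 =
      -(F (x, 0) - tc * (R.pw (x, 0) * B (x, 0) * φ (x + uv M 0, 2)) + φ (x, 0)) := fun x => by
    rw [hc, chi3, F0]; ring
  have c1 : ∀ x, c x 1 =
      F (x, 1) - tc * (R.pw (x, 1) * B (x, 1) * φ (x + uv M 1, 3)) - φ (x, 1) := fun x => by
    rw [hc, chi1, F1]; ring
  have c1' : ∀ x, c x 0 =
      F (x, 1) - tc * (R.pw (x, 1) * B (x, 1) * φ (x + uv M 1, 3)) + φ (x, 1) := fun x => by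
    rw [hc, chi0, F1]; ring
  have c2 : ∀ x, c (x + uv M 0) 1 =
      F (x + uv M 0, 2) + tc * (R.pw (x, 0) * B (x, 0) * φ (x, 0)) + φ (x + uv M 0, 2) := fun x => by
    rw [hc, chi1, F2, add_sub_cancel_right]; ring
  have c2' : ∀ x, c (x + uv M 0) 2 =
      F (x + uv M 0, 2) + tc * (R.pw (x, 0) * B (x, 0) * φ (x, 0)) - φ (x + uv M 0, 2) := fun x => by
    rw [hc, chi2, F2, add_sub_cancel_right]; ring
  have c3 : ∀ x, c (x + uv M 1) 2 =
      F (x + uv M 1, 3) + tc * (R.pw (x, 1) * B (x, 1) * φ (x, 1)) + φ (x + uv M 1, 3) := fun x => by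
    rw [hc, chi2, F3, add_sub_cancel_right]; ring
  have c3' : ∀ x, c (x + uv M 1) 3 =
      F (x + uv M 1, 3) + tc * (R.pw (x, 1) * B (x, 1) * φ (x, 1)) - φ (x + uv M 1, 3) := fun x => by
    rw [hc, chi3, F3, add_sub_cancel_right]; ring
  have h1 := cs_edges (w := fun e => (√2 - tc * R.pw e) * B e) (fun e => by
    have q := E4.sign_sq hB e
    have h2 : (√2 - tc * R.pw e) ^ 2 ≤ 1 := by
      rcases hP e with h | h <;> rw [h]
      · unfold tc; norm_num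
      · rw [tc_mul_tT]; nlinarith [sqrt_two_lt, lt_sqrt_two]
    nlinarith) F φ
  have h2 : ∑ y, Qf B c y + l2sq univ (Dm B *ᵥ φ - Dm (R.pw * B) *ᵥ φ) ≤
      2 * l2sq univ F + 4 * (√(l2sq univ φ) * √(l2sq univ F)) := by
    refine le_trans ?_ (add_le_add le_rfl (mul_le_mul_of_nonneg_left h1 (by norm_num)))
    rw [sum_Qf, l2_bdry, l2_edges F, mul_sum, mul_sum, ← sum_add_distrib, ← sum_add_distrib]
    refine sum_le_sum fun x _ => ?_
    have k0 := edge_free (E4.sign_sq hB (x, 0)) (hP (x, 0)) (F (x, 0)) (F (x + uv M 0, 2))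
      (φ (x, 0)) (φ (x + uv M 0, 2))
    have k1 := edge_free (E4.sign_sq hB (x, 1)) (hP (x, 1)) (F (x, 1)) (F (x + uv M 1, 3))
      (φ (x, 1)) (φ (x + uv M 1, 3))
    rw [← c0, ← c0', ← c2, ← c2'] at k0
    rw [← c1, ← c1', ← c3, ← c3'] at k1
    simp only [g0, g1, g2, g3, Pi.mul_apply]
    linarith
  have hQ : ∀ y, 0 ≤ Qf B c y := fun y => by
    have h := Qf_eq hB c y
    have h0 : 0 ≤ 2 * Qf B c y := h ▸ by positivity
    linarith
  have h3 : ∀ f, t f ^ 2 ≤ 400 * (F (f, 0) ^ 2 + F (f, 1) ^ 2 + F (f, 2) ^ 2 + F (f, 3) ^ 2 +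
      (F (f + uv M 0, 2) ^ 2 + F (f + uv M 1, 3) ^ 2 + F (f - uv M 0, 0) ^ 2 +
        F (f - uv M 1, 1) ^ 2)) + 16 * (Qf B c f + Qf B c (f - uv M 0) +
          Qf B c (f - (uv M 0 + uv M 1)) + Qf B c (f - uv M 1)) := by
    intro f
    by_cases h0 : t f = 0
    · have := hQ f
      have := hQ (f - uv M 0)
      have := hQ (f - (uv M 0 + uv M 1))
      have := hQ (f - uv M 1)
      rw [h0, zero_pow two_ne_zero]
      positivity
    have hf := ht f h0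
    have i0 := hI f hf f (by rw [tdist_self]; exact zero_le_one)
    have i1 := hI f hf _ (E3.tdist_sub_uv f 0)
    have i3 := hI f hf _ (E3.tdist_sub_uv f 1)
    have i2 := hI f hf (f - uv M 0 - uv M 1) (tdist_near f (-1, -1) le_rfl le_rfl
      (by ext <;> simp [prj, uv, sub_eq_add_neg]))
    have p0 : R.pw (f, 0) = 1 := by rw [Reg.pw, if_pos hR, if_pos ⟨i0, by rwa [oth0]⟩]
    have p1 : R.pw (f, 1) = 1 := by rw [Reg.pw, if_pos hR, if_pos ⟨i0, by rwa [oth1]⟩]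
    have p2 : R.pw (f - uv M 0, 0) = 1 := by rw [Reg.pw, if_pos hR, if_pos ⟨i1, by rwa [oth0]⟩]
    have p3 : R.pw (f - uv M 1, 1) = 1 := by
      rw [Reg.pw, if_pos hR, if_pos ⟨i3, by rwa [oth1, sub_right_comm]⟩]
    have hχ := hφ f hf
    rw [E4.cnr_dot] at hχ
    have f0 := F0 f
    have f1 := F1 f
    have f2 := F2 f
    have f3 := F3 f
    rw [p0, one_mul] at f0
    rw [p1, one_mul] at f1
    rw [p2, one_mul] at f2
    rw [p3, one_mul] at f3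
    have k := src_le (F (f + uv M 0, 2)) (F (f + uv M 1, 3)) (F (f - uv M 0, 0)) (F (f - uv M 1, 1))
      (E4.sign_sq hB (f, 0)) (E4.sign_sq hB (f, 1)) (E4.sign_sq hB (f - uv M 0, 0))
      (E4.sign_sq hB (f - uv M 1, 1)) hχ f0 f1 f2 f3
    have a0 := Qf_eq hB c f
    have a1 := Qf_eq hB c (f - uv M 0)
    have a2 := Qf_eq hB c (f - (uv M 0 + uv M 1))
    have a3 := Qf_eq hB c (f - uv M 1)
    have e1 : f - (uv M 0 + uv M 1) + uv M 0 = f - uv M 1 := by abel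
    have e2 : f - (uv M 0 + uv M 1) + uv M 1 = f - uv M 0 := by abel
    have e3 : f - uv M 1 + uv M 0 + uv M 1 = f + uv M 0 := by abel
    rw [sub_add_cancel] at a1
    rw [e1, e2, sub_add_cancel] at a2
    rw [e3, sub_add_cancel] at a3
    have b0 : √2 * c f 0 + B (f, 0) * flux B f * c (f + uv M 0) 1 - B (f, 1) * c (f + uv M 1) 3 =
        √2 * -t f - B (f, 0) * (F (f + uv M 0, 2) + tc * (B (f, 0) * φ (f, 0)) + φ (f + uv M 0, 2)) -
          B (f, 1) * (F (f + uv M 1, 3) + tc * (B (f, 1) * φ (f, 1)) - φ (f + uv M 1, 3)) := by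
      rw [c2, c3', hf, p0, p1, hc, chi0, hχ]; ring
    have b1 : √2 * c f 1 + B (f - uv M 0, 0) * (flux B (f - uv M 0) * c (f - uv M 0) 0) +
        B (f, 1) * c (f + uv M 1) 2 = √2 * (-φ (f, 0) - φ (f, 1) + φ (f, 2) + φ (f, 3) - t f) +
        B (f - uv M 0, 0) * (F (f - uv M 0, 0) - tc * (B (f - uv M 0, 0) * φ (f, 2)) -
          φ (f - uv M 0, 0)) +
        B (f, 1) * (F (f + uv M 1, 3) + tc * (B (f, 1) * φ (f, 1)) + φ (f + uv M 1, 3)) := by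
      rw [c0, c3, p1, p2, hc, chi1, sub_add_cancel]; ring
    have b2 : √2 * c f 2 + B (f - uv M 1, 1) * c (f - uv M 1) 1 +
        B (f - uv M 0, 0) * c (f - uv M 0) 3 =
        √2 * (-φ (f, 0) - φ (f, 1) - φ (f, 2) + φ (f, 3) - t f) +
        B (f - uv M 1, 1) * (F (f - uv M 1, 1) - tc * (B (f - uv M 1, 1) * φ (f, 3)) -
          φ (f - uv M 1, 1)) -
        B (f - uv M 0, 0) * (F (f - uv M 0, 0) - tc * (B (f - uv M 0, 0) * φ (f, 2)) +
          φ (f - uv M 0, 0)) := by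
      rw [c1, c0', p2, p3, hc, chi2, sub_add_cancel, sub_add_cancel]; ring
    have b3 : √2 * c f 3 + B (f, 0) * c (f + uv M 0) 2 - B (f - uv M 1, 1) * c (f - uv M 1) 0 =
        √2 * (-φ (f, 0) - φ (f, 1) - φ (f, 2) - φ (f, 3) - t f) +
        B (f, 0) * (F (f + uv M 0, 2) + tc * (B (f, 0) * φ (f, 0)) - φ (f + uv M 0, 2)) -
        B (f - uv M 1, 1) * (F (f - uv M 1, 1) - tc * (B (f - uv M 1, 1) * φ (f, 3)) +
          φ (f - uv M 1, 1)) := by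
      rw [c2', c1', p0, p3, hc, chi3, sub_add_cancel]; ring
    rw [← b0, ← b1, ← b2, ← b3] at k
    have sq4 : ∀ a b c d X : ℝ, a ^ 2 + b ^ 2 + c ^ 2 + d ^ 2 = X →
        a ^ 2 ≤ X ∧ b ^ 2 ≤ X ∧ c ^ 2 ≤ X ∧ d ^ 2 ≤ X := fun a b c d X h => by
      have := sq_nonneg a
      have := sq_nonneg b
      have := sq_nonneg c
      have := sq_nonneg d
      exact ⟨by linarith, by linarith, by linarith, by linarith⟩
    linarith [(sq4 _ _ _ _ _ a0).1, (sq4 _ _ _ _ _ a1).2.1, (sq4 _ _ _ _ _ a2).2.2.1,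
      (sq4 _ _ _ _ _ a3).2.2.2]
  have h4 : ∑ f, t f ^ 2 ≤ 800 * l2sq univ F + 64 * ∑ y, Qf B c y := by
    refine (sum_le_sum fun f _ => h3 f).trans_eq ?_
    simp only [l2sq, Fin.sum_univ_four, sum_add_distrib, ← mul_sum]
    rw [sum_shift (uv M 0) fun x => F (x, 2) ^ 2, sum_shift (uv M 1) fun x => F (x, 3) ^ 2,
      sum_shift' (uv M 0) fun x => F (x, 0) ^ 2, sum_shift' (uv M 1) fun x => F (x, 1) ^ 2,
      sum_shift' (uv M 0) (Qf B c), sum_shift' (uv M 1) (Qf B c),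
      sum_shift' (uv M 0 + uv M 1) (Qf B c)]
    ring
  linarith [E3.l2sq_nonneg univ (Dm B *ᵥ φ - Dm (R.pw * B) *ᵥ φ)]

end B3a

/-- The Rellich inequality: the boundary term and the corner sources are small. -/
theorem rellich : ∃ C : ℝ, 1 ≤ C ∧ ∀ (M : ℕ) [NeZero M] (R : Reg M) (B : Gauge M), IsSign B →
    4 ≤ M → (R.fr = true → ∀ f, flux B f = -1 → ∀ f', tdist f' f ≤ 2 →
      f' ∈ R.In ∧ (f' ≠ f → flux B f' = 1)) →
    ∀ (φ F : Tor M × Fin 4 → ℝ) (t : Tor M → ℝ),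
      (R.fr = true → ∀ f, flux B f = -1 → cnr f ⬝ᵥ φ = 0) →
      (∀ f, t f ≠ 0 → R.fr = true ∧ flux B f = -1) →
      F = Dm (R.pw * B) *ᵥ φ - ∑ f, t f • cnr f →
        l2sq univ (Dm B *ᵥ φ - Dm (R.pw * B) *ᵥ φ) + ∑ f, t f ^ 2 ≤
          C * (√(l2sq univ φ) * √(l2sq univ F) + l2sq univ F) := by
  refine ⟨1000, by norm_num, fun M _ R B hB _ hI φ F t hφ ht hF => ?_⟩
  have n1 := E3.l2sq_nonneg univ F
  have n2 : 0 ≤ √(l2sq univ φ) * √(l2sq univ F) := by positivity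
  by_cases hR : R.fr = true
  · linarith [B3a.rel_free hR hB (fun f hf f' h => (hI hR f hf f' (by omega)).1) (hφ hR)
      (fun f h => (ht f h).2) hF]
  · have h0 : t = 0 := funext fun f => by_contra fun h => hR (ht f h).1
    subst h0
    simp only [Pi.zero_apply, zero_smul, sum_const_zero, sub_zero] at hF
    subst hF
    have h1 := B3a.rel_plus hR hB φ
    simp only [Pi.zero_apply, ne_eq, OfNat.ofNat_ne_zero, not_false_eq_true, zero_pow,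
      sum_const_zero, add_zero]
    linarith

end Vale.Agent.P144Z
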