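import Vale.Agent.P144D.DefsB

/-!
From the homogeneous to the inhomogeneous estimates at the boundary.
-/

namespace Vale.Agent.P144Z

open Finset Matrix

namespace Tele

variable {M : ℕ}

/-- The norm on a finite set. -/
noncomputable def nr (B : Finset (Tor M)) (g : Tor M × Fin 4 → ℝ) : ℝ := √(l2sq B g)

theorem nr_nonneg (B : Finset (Tor M)) (g : Tor M × Fin 4 → ℝ) : 0 ≤ nr B g := Real.sqrt_nonneg _

theorem nr_sq (B : Finset (Tor M)) (g : Tor M × Fin 4 → ℝ) : nr B g ^ 2 = l2sq B g :=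
  Real.sq_sqrt (E4.l2sq_nonneg _ _)

theorem nr_mono {B B' : Finset (Tor M)} (h : B ⊆ B') (g : Tor M × Fin 4 → ℝ) :
    nr B g ≤ nr B' g := Real.sqrt_le_sqrt (E4.l2sq_mono h g)

theorem le_of_sq {a b : ℝ} (hb : 0 ≤ b) (h : a ^ 2 ≤ b ^ 2) : a ≤ b :=
  (le_abs_self a).trans (abs_le_of_sq_le_sq h hb)

theorem nr_add (B : Finset (Tor M)) (g g' : Tor M × Fin 4 → ℝ) :
    nr B (g + g') ≤ nr B g + nr B g' := by
  have h0 : ∀ u : Tor M × Fin 4 → ℝ, l2sq B u = ∑ s ∈ B ×ˢ (univ : Finset (Fin 4)), u s ^ 2 :=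
    fun u => by rw [l2sq, sum_product]
  refine le_of_sq (add_nonneg (nr_nonneg _ _) (nr_nonneg _ _)) ?_
  have h1 := Real.sum_mul_le_sqrt_mul_sqrt (B ×ˢ (univ : Finset (Fin 4))) g g'
  rw [← h0, ← h0] at h1
  have h2 : l2sq B (g + g') =
      l2sq B g + 2 * ∑ s ∈ B ×ˢ (univ : Finset (Fin 4)), g s * g' s + l2sq B g' := by
    rw [h0, h0, h0, mul_sum, ← sum_add_distrib, ← sum_add_distrib]
    exact sum_congr rfl fun s _ => by rw [Pi.add_apply]; ring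
  rw [add_sq, nr_sq, nr_sq, nr_sq, h2]
  unfold nr
  linarith

theorem nr_sub (B : Finset (Tor M)) (g g' : Tor M × Fin 4 → ℝ) :
    nr B (g - g') ≤ nr B g + nr B g' := by
  have h : nr B (-g') = nr B g' := by
    unfold nr
    rw [← neg_one_smul ℝ g', E4.l2sq_smul]
    norm_num
  rw [sub_eq_add_neg, ← h]
  exact nr_add _ _ _

variable [NeZero M] {A : Gauge M} {z : Tor M} {s₀ ρ : ℕ} {c : ℝ}

theorem dec (h : HomDec A z s₀ ρ c) (hc : 0 ≤ c) {s r : ℕ} (h1 : s₀ ≤ s) (h2 : s ≤ r) (h3 : r ≤ ρ)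
    {φ : Tor M × Fin 4 → ℝ} (hφ : Hom A z r φ) :
    nr (ball z s) φ * r ≤ c * s * nr (ball z r) φ := by
  refine le_of_sq (mul_nonneg (by positivity) (nr_nonneg _ _)) ?_
  rw [mul_pow, mul_pow, mul_pow, nr_sq, nr_sq]
  exact h s r h1 h2 h3 φ hφ

theorem solv (h : Solv A z s₀ ρ c) (hc : 0 ≤ c) {r : ℕ} (h1 : s₀ ≤ r) (h3 : r ≤ ρ)
    (w : Tor M × Fin 4 → ℝ) : ∃ v, nr univ v ≤ c * r * nr (ball z r) (Dm A *ᵥ w) ∧
      Hom A z r (w - v) := by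
  obtain ⟨v, hv1, hv2⟩ := h r h1 h3 (Dm A *ᵥ w)
  refine ⟨v, le_of_sq (mul_nonneg (by positivity) (nr_nonneg _ _)) ?_, fun t ht => ?_⟩
  · rw [mul_pow, mul_pow, nr_sq, nr_sq]; exact hv1
  · rw [mulVec_sub, Pi.sub_apply, hv2 t ht, sub_self]

theorem step (hd : HomDec A z s₀ ρ c) (hs : Solv A z s₀ ρ c) (hc : 1 ≤ c) {s : ℕ} (hs1 : 1 ≤ s)
    (h1 : s₀ ≤ s) {w : Tor M × Fin 4 → ℝ} {G : ℝ} (hG0 : 0 ≤ G)
    (hG : ∀ r : ℕ, s ≤ r → r ≤ ρ → nr (ball z r) (Dm A *ᵥ w) ≤ G * √r) (r : ℕ) :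
    s ≤ r → r ≤ ρ → ∀ v, nr univ v ≤ c * r * nr (ball z r) (Dm A *ᵥ w) → Hom A z r (w - v) →
      nr (ball z s) w ≤ nr (ball z s) (w - v) + 16 * c ^ 2 * s * (G * √r) := by
  induction r using Nat.strong_induction_on with
  | _ r ih =>
  intro h2 h3 v hv hh
  have hc0 : 0 ≤ c := by linarith
  have hcc : c ≤ c ^ 2 := by nlinarith
  have hs0 : (0 : ℝ) < s := by exact_mod_cast hs1
  have hg := hG r h2 h3
  have hg0 : 0 ≤ G * √r := by positivity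
  have hv' : nr univ v ≤ c * r * (G * √r) :=
    hv.trans (mul_le_mul_of_nonneg_left hg (by positivity))
  by_cases hr : r < 2 * s
  · have h4 := nr_add (ball z s) (w - v) v
    rw [sub_add_cancel] at h4
    have h5 := nr_mono (subset_univ (ball z s)) v
    have h6 : (r : ℝ) ≤ 2 * s := by exact_mod_cast hr.le
    have h7 : c * r * (G * √r) ≤ c ^ 2 * (2 * s) * (G * √r) := by gcongr
    nlinarith [mul_nonneg (mul_nonneg (sq_nonneg c) hs0.le) hg0]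
  · obtain ⟨v', hv1, hv2⟩ := solv hs hc0 (r := r / 2) (by omega) (by omega) w
    have h4 := ih (r / 2) (by omega) (by omega) (by omega) v' hv1 hv2
    have h5 : Hom A z (r / 2) (v - v') := fun t ht => by
      have e : v - v' = (w - v') - (w - v) := by abel
      rw [e, mulVec_sub, Pi.sub_apply, hv2 t ht, hh t (ht.trans (Nat.div_le_self _ _)), sub_self]
    have h6 := dec hd hc0 h1 (r := r / 2) (by omega) (by omega) h5
    have h7 := nr_add (ball z s) (w - v) (v - v')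
    rw [sub_add_sub_cancel] at h7
    have hr0 : (0 : ℝ) < (r / 2 : ℕ) := by exact_mod_cast (by omega : 0 < r / 2)
    have hr3 : (r : ℝ) ≤ 3 * (r / 2 : ℕ) := by exact_mod_cast (by omega : r ≤ 3 * (r / 2))
    have hr2 : 2 * ((r / 2 : ℕ) : ℝ) ≤ r := by exact_mod_cast (by omega : 2 * (r / 2) ≤ r)
    have h8 : nr univ v' ≤ c * (r / 2 : ℕ) * (G * √r) := hv1.trans (mul_le_mul_of_nonneg_left
      ((nr_mono (E3.ball_mono z (Nat.div_le_self _ _)) _).trans hg) (by positivity))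
    have h9 : nr (ball z (r / 2)) (v - v') ≤ 4 * c * (r / 2 : ℕ) * (G * √r) := by
      have := (nr_mono (subset_univ (ball z (r / 2))) (v - v')).trans (nr_sub _ v v')
      have h10 : c * r * (G * √r) ≤ c * (3 * (r / 2 : ℕ)) * (G * √r) := by gcongr
      linarith
    have h10 : nr (ball z s) (v - v') ≤ 4 * c ^ 2 * s * (G * √r) := by
      refine le_of_mul_le_mul_right (h6.trans ?_) hr0
      refine (mul_le_mul_of_nonneg_left h9 (by positivity)).trans (le_of_eq (by ring))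
    have h11 : √((r / 2 : ℕ) : ℝ) ≤ 3 / 4 * √r := by
      refine le_of_sq (by positivity) ?_
      rw [mul_pow, Real.sq_sqrt hr0.le, Real.sq_sqrt (by positivity)]
      linarith
    have h12 : 16 * c ^ 2 * s * (G * √((r / 2 : ℕ) : ℝ)) ≤ 16 * c ^ 2 * s * (G * (3 / 4 * √r)) := by
      gcongr
    linarith

theorem main (hd : HomDec A z s₀ ρ c) (hs : Solv A z s₀ ρ c) (hc : 1 ≤ c) {s : ℕ} (hs1 : 1 ≤ s)
    (h1 : s₀ ≤ s) (h2 : s ≤ ρ) {w : Tor M × Fin 4 → ℝ} {G : ℝ} (hG0 : 0 ≤ G)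
    (hG : ∀ r : ℕ, s ≤ r → r ≤ ρ → nr (ball z r) (Dm A *ᵥ w) ≤ G * √r) :
    nr (ball z s) w * ρ ≤ c * s * nr (ball z ρ) w + 17 * c ^ 2 * s * ρ * (G * √ρ) := by
  have hc0 : 0 ≤ c := by linarith
  obtain ⟨v, hv1, hv2⟩ := solv hs hc0 (h1.trans h2) le_rfl w
  have h3 := step hd hs hc hs1 h1 hG0 hG ρ h2 le_rfl v hv1 hv2
  have h4 := dec hd hc0 h1 h2 le_rfl hv2
  have h5 := nr_sub (ball z ρ) w v
  have h6 := (nr_mono (subset_univ (ball z ρ)) v).trans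
    (hv1.trans (mul_le_mul_of_nonneg_left (hG ρ h2 le_rfl) (by positivity)))
  have h7 : c * s * nr (ball z ρ) (w - v) ≤ c * s * (nr (ball z ρ) w + c * ρ * (G * √ρ)) :=
    mul_le_mul_of_nonneg_left (by linarith) (by positivity)
  have h8 := mul_le_mul_of_nonneg_right h3 (Nat.cast_nonneg (α := ℝ) ρ)
  linarith

theorem term_le (A : Gauge M) (ρ : ℝ) (B : Finset (Tor M)) (g : Tor M × Fin 4 → ℝ) {k : ℕ}
    (hk : k < 5) : ρ ^ (2 * k) * l2sq B ((Dm A ^ k) *ᵥ g) ≤ hsq A ρ B g :=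
  single_le_sum (s := range 5) (f := fun k => ρ ^ (2 * k) * l2sq B ((Dm A ^ k) *ᵥ g))
    (fun k _ => mul_nonneg (by rw [pow_mul']; positivity) (E4.l2sq_nonneg _ _)) (mem_range.2 hk)

end Tele

open Tele

/-- From the homogeneous to the inhomogeneous decay. -/
theorem tele (c : ℝ) (hc : 1 ≤ c) : ∃ c' : ℝ, 1 ≤ c' ∧ ∀ (M : ℕ) [NeZero M] (A : Gauge M)
    (z : Tor M) (s₀ ρ : ℕ), 1 ≤ s₀ → HomDec A z s₀ ρ c → Solv A z s₀ ρ c → ∀ s : ℕ, s₀ ≤ s →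
    s ≤ ρ → ∀ w, l2sq (ball z s) w * ρ ^ 2 ≤ c' ^ 2 * s ^ 2 * hsq A ρ (ball z ρ) w ∧
      l2sq (ball z s) (Dm A *ᵥ w) * ρ ^ 3 ≤ c' ^ 2 * s * hsq A ρ (ball z ρ) w := by
  have hc2 : c ≤ c ^ 2 := by nlinarith
  have hc4 : c ^ 2 ≤ c ^ 4 := pow_le_pow_right₀ hc (by norm_num)
  refine ⟨307 * c ^ 4, by linarith, fun M _ A z s₀ ρ hs₀ hd hs s h1 h2 w => ?_⟩
  set H := √(hsq A ρ (ball z ρ) w) with hH
  have hH0 : 0 ≤ H := Real.sqrt_nonneg _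
  have hH2 : H ^ 2 = hsq A ρ (ball z ρ) w := Real.sq_sqrt (RN.hsq_nonneg _ _ _ _)
  have hρ : (0 : ℝ) < ρ := by exact_mod_cast (by omega : 0 < ρ)
  have hq : √(ρ : ℝ) * √ρ = ρ := Real.mul_self_sqrt hρ.le
  have a0 : nr (ball z ρ) w ≤ H := Real.sqrt_le_sqrt (E4.l2sq_le_hsq _ _ _ _)
  have a1 : ρ * nr (ball z ρ) (Dm A *ᵥ w) ≤ H := le_of_sq hH0 (by
    rw [mul_pow, nr_sq, hH2]; exact E4.l2sq_D_le_hsq _ _ _ _)
  have a2 : ρ ^ 2 * nr (ball z ρ) (Dm A *ᵥ (Dm A *ᵥ w)) ≤ H := le_of_sq hH0 (by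
    have := term_le A ρ (ball z ρ) w (k := 2) (by norm_num)
    rw [pow_two (Dm A), ← mulVec_mulVec] at this
    rw [mul_pow, nr_sq, hH2, ← pow_mul]
    exact this)
  have key : ∀ r : ℕ, s₀ ≤ r → r ≤ ρ →
      nr (ball z r) (Dm A *ᵥ w) ≤ 18 * c ^ 2 * √ρ * H / ρ ^ 2 * √r := fun r h3 h4 => by
    have hr : (0 : ℝ) < r := by exact_mod_cast (by omega : 0 < r)
    have hr1 : 0 < √(r : ℝ) := Real.sqrt_pos.2 hr
    have hrq : √(r : ℝ) * √r = r := Real.mul_self_sqrt hr.le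
    have hrρ : √(r : ℝ) ≤ √ρ := Real.sqrt_le_sqrt (by exact_mod_cast h4)
    set a := nr (ball z ρ) (Dm A *ᵥ (Dm A *ᵥ w)) with ha
    have ha0 : 0 ≤ a := nr_nonneg _ _
    have h5 := Tele.main hd hs hc (s := r) (by omega) h3 h4 (w := Dm A *ᵥ w) (G := a / √r)
      (by positivity) fun t h6 h7 => by
        refine (nr_mono (E3.ball_mono z h7) _).trans ?_
        rw [div_mul_eq_mul_div, le_div_iff₀ hr1]
        exact mul_le_mul_of_nonneg_left (Real.sqrt_le_sqrt (by exact_mod_cast h6)) ha0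
    have h6 : 17 * c ^ 2 * r * ρ * (a / √r * √ρ) * ρ = 17 * c ^ 2 * (√r * √ρ) * (ρ ^ 2 * a) := by
      nth_rw 1 [← hrq]
      field_simp
    have h7 : c * r * (ρ * nr (ball z ρ) (Dm A *ᵥ w)) ≤ c ^ 2 * (√r * √ρ) * H := by
      have : (r : ℝ) ≤ √r * √ρ := by nlinarith
      have := nr_nonneg (ball z ρ) (Dm A *ᵥ w)
      gcongr
    have h8 : 17 * c ^ 2 * (√r * √ρ) * (ρ ^ 2 * a) ≤ 17 * c ^ 2 * (√r * √ρ) * H := by gcongr
    have h9 := mul_le_mul_of_nonneg_right h5 hρ.le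
    rw [div_mul_eq_mul_div, le_div_iff₀ (by positivity)]
    rw [add_mul, h6] at h9
    linarith
  have hs' : (0 : ℝ) < s := by exact_mod_cast (by omega : 0 < s)
  constructor
  · have h5 := Tele.main hd hs hc (by omega) h1 h2 (w := w) (by positivity)
      fun r h3 h4 => key r (h1.trans h3) h4
    have h6 : 17 * c ^ 2 * s * ρ * (18 * c ^ 2 * √ρ * H / ρ ^ 2 * √ρ) =
        306 * c ^ 4 * s * H := by
      have : 18 * c ^ 2 * √ρ * H / ρ ^ 2 * √ρ = 18 * c ^ 2 * H * (√ρ * √ρ) / ρ ^ 2 := by ring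
      rw [this, hq]
      field_simp
      ring
    have h7 : c * s * nr (ball z ρ) w ≤ c ^ 4 * s * H := by
      have := nr_nonneg (ball z ρ) w
      have : c ≤ c ^ 4 := hc2.trans hc4
      gcongr
    have h8 : nr (ball z s) w * ρ ≤ 307 * c ^ 4 * s * H := by linarith
    have h9 := pow_le_pow_left₀ (mul_nonneg (nr_nonneg _ _) hρ.le) h8 2
    rw [mul_pow, nr_sq, mul_pow, mul_pow, hH2] at h9
    exact h9
  · have h5 := pow_le_pow_left₀ (nr_nonneg _ _) (key s h1 h2) 2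
    rw [nr_sq, mul_pow, div_pow, mul_pow, mul_pow, Real.sq_sqrt hρ.le, Real.sq_sqrt hs'.le,
      div_mul_eq_mul_div, le_div_iff₀ (by positivity)] at h5
    have h6 : (18 * c ^ 2) ^ 2 ≤ (307 * c ^ 4) ^ 2 :=
      pow_le_pow_left₀ (by positivity) (by nlinarith [sq_nonneg c]) 2
    rw [← hH2]
    refine le_of_mul_le_mul_right ?_ hρ
    have h7 : (18 * c ^ 2) ^ 2 * (ρ * H ^ 2 * s) ≤ (307 * c ^ 4) ^ 2 * (ρ * H ^ 2 * s) := by gcongr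
    linarith

/-- From the homogeneous to the inhomogeneous rank-one property. -/
theorem rk_of (c : ℝ) (hc : 1 ≤ c) : ∃ c' : ℝ, 1 ≤ c' ∧ ∀ η > 0, ∀ K : ℕ, ∃ L₀ : ℕ,
    ∀ (M : ℕ) [NeZero M] (A : Gauge M) (b : Tor M) (ℓ ρ ℓ' : ℕ), 1 ≤ ℓ → 11 * ℓ + 4 ≤ ρ →
    ρ ≤ K * ℓ → L₀ * ℓ ≤ ℓ' → HomDec A b (11 * ℓ) ℓ' c → Solv A b (11 * ℓ) ℓ' c →
    HomRk A b (11 * ℓ) ρ η → RkA A ℓ ℓ' (11 * ℓ) c' (c' * η) b := by
  obtain ⟨c₁, hc₁, ht⟩ := tele c hc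
  have hcc : 1 ≤ c * c₁ := one_le_mul_of_one_le_of_one_le hc hc₁
  refine ⟨32 * (c * c₁), by linarith, fun η hη K => ?_⟩
  obtain ⟨L₁, hL₁⟩ := exists_nat_ge (((K : ℝ) ^ 3 + 1) / η ^ 2)
  refine ⟨L₁ + K + 11, fun M _ A b ℓ ρ ℓ' hℓ h1 h2 h3 hd hs ⟨u, hu, hrk⟩ => ⟨u, fun w => ?_⟩⟩
  have e1 : L₁ * ℓ ≤ ℓ' := le_trans (Nat.mul_le_mul_right _ (by omega)) h3
  have e2 : ρ ≤ ℓ' := h2.trans (le_trans (Nat.mul_le_mul_right _ (by omega)) h3)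
  have e3 : 11 * ℓ ≤ ℓ' := by omega
  have hl : (0 : ℝ) < ℓ := by exact_mod_cast hℓ
  have hl' : (0 : ℝ) < ℓ' := by exact_mod_cast (by omega : 0 < ℓ')
  have hρ : (0 : ℝ) < ρ := by exact_mod_cast (by omega : 0 < ρ)
  have r2 : (ρ : ℝ) ≤ ℓ' := by exact_mod_cast e2
  have r3 : 11 * (ℓ : ℝ) ≤ ℓ' := by exact_mod_cast e3
  have r4 : (ρ : ℝ) ≤ K * ℓ := by exact_mod_cast h2
  have r1 : ((K : ℝ) ^ 3 + 1) * ℓ ≤ η ^ 2 * ℓ' := by
    have : (L₁ : ℝ) * ℓ ≤ ℓ' := by exact_mod_cast e1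
    rw [div_le_iff₀ (by positivity)] at hL₁
    nlinarith [mul_le_mul_of_nonneg_left this (sq_nonneg η), mul_le_mul_of_nonneg_right hL₁ hl.le]
  have hK : (0 : ℝ) ≤ (K : ℝ) ^ 3 * ℓ := by positivity
  set H := hsq A ℓ' (ball b ℓ') w with hH
  have hH0 : 0 ≤ H := RN.hsq_nonneg _ _ _ _
  have hT := ht M A b (11 * ℓ) ℓ' (by omega) hd hs
  obtain ⟨t0, t1⟩ := hT (11 * ℓ) le_rfl e3 w
  obtain ⟨t2, t3⟩ := hT ρ (by omega) e2 w
  rw [← hH] at t0 t1 t2 t3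
  push_cast at t0 t1
  set P := c₁ ^ 2 * ℓ ^ 2 * H with hP
  have hP0 : 0 ≤ P := by positivity
  have hc₁2 : 1 ≤ c₁ ^ 2 := one_le_pow₀ hc₁
  have hc2 : 1 ≤ c ^ 2 := one_le_pow₀ hc
  have tk : ∀ k, 1 ≤ k → k < 4 → (ℓ : ℝ) ^ (2 * (k + 1)) *
      l2sq (ball b (11 * ℓ)) ((Dm A ^ (k + 1)) *ᵥ w) * ℓ' ^ 2 * ℓ' ≤ P * ℓ := fun k hk hk4 => by
    have f1 := term_le A ℓ' (ball b ℓ') w (k := k + 1) (by omega)
    have f2 := E4.l2sq_mono (E3.ball_mono b e3) ((Dm A ^ (k + 1)) *ᵥ w)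
    have f3 := E4.l2sq_nonneg (ball b (11 * ℓ)) ((Dm A ^ (k + 1)) *ᵥ w)
    obtain ⟨j, rfl⟩ : ∃ j, k = j + 1 := ⟨k - 1, by omega⟩
    have f4 : (ℓ : ℝ) ^ (2 * j + 1) ≤ ℓ' ^ (2 * j + 1) := pow_le_pow_left₀ hl.le (by linarith) _
    set X := l2sq (ball b (11 * ℓ)) ((Dm A ^ (j + 1 + 1)) *ᵥ w)
    have f5 : (ℓ' : ℝ) ^ (2 * (j + 1 + 1)) * X ≤ H :=
      (mul_le_mul_of_nonneg_left f2 (by positivity)).trans f1
    calc (ℓ : ℝ) ^ (2 * (j + 1 + 1)) * X * ℓ' ^ 2 * ℓ'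
        = ℓ ^ 3 * (ℓ ^ (2 * j + 1) * ℓ' ^ 3 * X) := by ring
      _ ≤ ℓ ^ 3 * (ℓ' ^ (2 * j + 1) * ℓ' ^ 3 * X) := by gcongr
      _ = ℓ ^ 3 * (ℓ' ^ (2 * (j + 1 + 1)) * X) := by ring
      _ ≤ ℓ ^ 3 * (c₁ ^ 2 * H) := by
        refine mul_le_mul_of_nonneg_left (f5.trans ?_) (by positivity)
        exact le_mul_of_one_le_left hH0 hc₁2
      _ = P * ℓ := by rw [hP]; ring
  have tail : (∑ k ∈ range 4, (ℓ : ℝ) ^ (2 * (k + 1)) *
      l2sq (ball b (11 * ℓ)) ((Dm A ^ (k + 1)) *ᵥ w)) * ℓ' ^ 2 * ℓ' ≤ 14 * (P * ℓ) := by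
    have f1 := tk 1 le_rfl (by norm_num)
    have f2 := tk 2 (by norm_num) (by norm_num)
    have f3 := tk 3 (by norm_num) (by norm_num)
    have f0 : (ℓ : ℝ) ^ (2 * (0 + 1)) * l2sq (ball b (11 * ℓ)) ((Dm A ^ (0 + 1)) *ᵥ w) * ℓ' ^ 2 * ℓ'
        ≤ 11 * (P * ℓ) := by
      have := mul_le_mul_of_nonneg_left t1 (sq_nonneg (ℓ : ℝ))
      rw [zero_add, pow_one, mul_one, hP]
      linarith
    simp only [sum_range_succ, sum_range_zero, zero_add, add_mul] at f0 ⊢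
    linarith
  set T := ∑ k ∈ range 4, (ℓ : ℝ) ^ (2 * (k + 1)) *
    l2sq (ball b (11 * ℓ)) ((Dm A ^ (k + 1)) *ᵥ w) with hTdef
  have tail1 : T * ℓ' ^ 2 ≤ 14 * P := le_of_mul_le_mul_right (tail.trans (by nlinarith)) hl'
  have tail2 : T * ℓ' ^ 2 ≤ 14 * (η ^ 2 * P) := le_of_mul_le_mul_right (tail.trans (by
    have : P * ℓ ≤ P * (η ^ 2 * ℓ') := mul_le_mul_of_nonneg_left (by nlinarith) hP0
    linarith)) hl'
  have hPc : P ≤ c ^ 2 * P := le_mul_of_one_le_left hP0 hc2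
  constructor
  · have f1 : hsq A ℓ (ball b (11 * ℓ)) w = T + l2sq (ball b (11 * ℓ)) w := by
      rw [hsq, sum_range_succ']; simp [hTdef]
    have f2 : (32 * (c * c₁)) ^ 2 * (ℓ : ℝ) ^ 2 * H = 1024 * (c ^ 2 * P) := by rw [hP]; ring
    have f3 : c₁ ^ 2 * (11 * (ℓ : ℝ)) ^ 2 * H = 121 * P := by rw [hP]; ring
    rw [f1, f2, add_mul]
    linarith
  · obtain ⟨v, hv1, hv2⟩ := hs ρ (by omega) e2 (Dm A *ᵥ w)
    have hφ : Hom A b ρ (w - v) := fun s hs => by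
      rw [mulVec_sub, Pi.sub_apply, hv2 s hs, sub_self]
    obtain ⟨t, ht⟩ := hrk _ hφ
    push_cast at ht
    refine ⟨t, ?_⟩
    have f1 : hsq A ℓ (ball b (11 * ℓ)) (w - t • u) = T + l2sq (ball b (11 * ℓ)) (w - t • u) := by
      rw [hsq, sum_range_succ']
      congr 1
      · refine sum_congr rfl fun k hk => ?_
        congr 1
        refine E4.l2sq_congr fun s hs => ?_
        have := mem_range.1 hk
        rw [pow_succ, ← mulVec_mulVec, ← mulVec_mulVec]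
        refine Dm_local A k (fun s' hs' => ?_) s (E3.mem_ball.1 hs)
        rw [mulVec_sub, mulVec_smul, Pi.sub_apply, Pi.smul_apply, hu s' (by omega), smul_zero,
          sub_zero]
      · simp
    have v0 := E4.l2sq_nonneg univ v
    have v1 : l2sq univ v * ℓ' ^ 3 ≤ c ^ 2 * ρ ^ 3 * (c₁ ^ 2 * H) := by
      have g1 := mul_le_mul_of_nonneg_right hv1 (by positivity : (0 : ℝ) ≤ ℓ' ^ 3)
      have g2 := mul_le_mul_of_nonneg_left t3 (by positivity : (0 : ℝ) ≤ c ^ 2 * ρ ^ 2)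
      linarith
    have v2 : l2sq univ v * ℓ' ^ 2 ≤ η ^ 2 * (c ^ 2 * P) := by
      refine le_of_mul_le_mul_right ?_ hl'
      have g1 : (ρ : ℝ) ^ 3 ≤ (K * ℓ) ^ 3 := pow_le_pow_left₀ hρ.le r4 3
      have g2 : c ^ 2 * ρ ^ 3 * (c₁ ^ 2 * H) ≤ c ^ 2 * (K * ℓ) ^ 3 * (c₁ ^ 2 * H) := by gcongr
      have g3 : c ^ 2 * P * (K ^ 3 * ℓ) ≤ c ^ 2 * P * (η ^ 2 * ℓ') :=
        mul_le_mul_of_nonneg_left (by linarith) (by positivity)
      have g4 : c ^ 2 * (K * ℓ) ^ 3 * (c₁ ^ 2 * H) = c ^ 2 * P * (K ^ 3 * ℓ) := by rw [hP]; ring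
      linarith
    have v3 : l2sq univ v * ℓ' ^ 2 ≤ c ^ 2 * ρ ^ 2 * (c₁ ^ 2 * H) := by
      refine le_of_mul_le_mul_right ?_ hl'
      have g1 : c ^ 2 * ρ ^ 2 * (c₁ ^ 2 * H) * ρ ≤ c ^ 2 * ρ ^ 2 * (c₁ ^ 2 * H) * ℓ' := by gcongr
      linarith
    have w1 : l2sq (ball b ρ) (w - v) * ℓ' ^ 2 ≤ 4 * (c ^ 2 * ρ ^ 2 * (c₁ ^ 2 * H)) := by
      have g1 := E4.l2sq_add_le (ball b ρ) w ((-1 : ℝ) • v)
      rw [E4.l2sq_smul, neg_one_smul, ← sub_eq_add_neg] at g1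
      have g2 := E4.l2sq_mono (subset_univ (ball b ρ)) v
      have g3 : l2sq (ball b ρ) (w - v) ≤ 2 * l2sq (ball b ρ) w + 2 * l2sq univ v := by linarith
      have g4 := mul_le_mul_of_nonneg_right g3 (sq_nonneg (ℓ' : ℝ))
      have g5 : c₁ ^ 2 * ρ ^ 2 * H ≤ c ^ 2 * (c₁ ^ 2 * ρ ^ 2 * H) :=
        le_mul_of_one_le_left (by positivity) hc2
      linarith
    have w2 : l2sq (ball b (11 * ℓ)) (w - v - t • u) * ℓ' ^ 2 ≤ 484 * (η ^ 2 * (c ^ 2 * P)) := by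
      refine le_of_mul_le_mul_right ?_ (pow_pos hρ 2)
      have g1 := mul_le_mul_of_nonneg_right ht (sq_nonneg (ℓ' : ℝ))
      have g2 := mul_le_mul_of_nonneg_left w1 (by positivity : 0 ≤ η ^ 2 * (11 * (ℓ : ℝ)) ^ 2)
      rw [hP]
      linarith
    have w3 : l2sq (ball b (11 * ℓ)) (w - t • u) ≤
        2 * l2sq (ball b (11 * ℓ)) (w - v - t • u) + 2 * l2sq univ v := by
      have g1 := E4.l2sq_add_le (ball b (11 * ℓ)) (w - v - t • u) v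
      have g2 : w - v - t • u + v = w - t • u := by abel
      rw [g2] at g1
      linarith [E4.l2sq_mono (subset_univ (ball b (11 * ℓ))) v]
    have w4 := mul_le_mul_of_nonneg_right w3 (sq_nonneg (ℓ' : ℝ))
    have f2 : (32 * (c * c₁) * η) ^ 2 * (ℓ : ℝ) ^ 2 * H = 1024 * (η ^ 2 * (c ^ 2 * P)) := by
      rw [hP]; ring
    have f3 : η ^ 2 * P ≤ η ^ 2 * (c ^ 2 * P) := mul_le_mul_of_nonneg_left hPc (sq_nonneg _)
    have f4 : 0 ≤ η ^ 2 * (c ^ 2 * P) := by positivity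
    rw [f1, f2, add_mul]
    linarith

end Vale.Agent.P144Z
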