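import Vale.Agent.P144D.B.GapOf
import Vale.Agent.P144D.B.Ext
import Vale.Agent.P144D.B.Rel
import Vale.Agent.P144D.B.HomDec
import Vale.Agent.P144D.B.Tele
import Vale.Agent.P144D.Geo.A
import Vale.Agent.P144D.Geo.B
import Vale.Agent.P144D.W.Est

/-!
The change of scale up to the boundary.
-/

namespace Vale.Agent.P144Z

open Finset Matrix

namespace B5c

variable {M : ℕ} [NeZero M]

omit [NeZero M] in
theorem shape_al {I : Finset (Tor M)} {α α' κ : ℝ} {r : ℕ} {z : Tor M} (h : ShapeAt I α κ r z)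
    (hα : α' ≤ α) : ShapeAt I α' κ r z := by
  obtain ⟨S₁, S₂, ν₁, ν₂, h1, h2, h3, h4⟩ := h
  exact ⟨S₁, S₂, ν₁, ν₂, h1, h2, hα.trans h3, h4⟩

/-- Only the order zero matters in a change of scale. -/
theorem hsq_of_zero (A : Gauge M) {ℓ ℓ' c : ℝ} (h0 : 0 ≤ ℓ) (h : ℓ ≤ ℓ') {X Y : Finset (Tor M)}
    (hXY : X ⊆ Y) (u : Tor M × Fin 4 → ℝ) (hc : l2sq X u * ℓ' ^ 2 ≤ c * ℓ ^ 2 * hsq A ℓ' Y u) :
    hsq A ℓ X u * ℓ' ^ 2 ≤ (c + 1) * ℓ ^ 2 * hsq A ℓ' Y u := by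
  have h1 : ∑ k ∈ range 4, ℓ ^ (2 * (k + 1)) * l2sq X ((Dm A ^ (k + 1)) *ᵥ u) * ℓ' ^ 2 ≤
      ℓ ^ 2 * hsq A ℓ' Y u := by
    rw [hsq, sum_range_succ' _ 4, mul_add, mul_sum]
    refine le_add_of_le_of_nonneg (sum_le_sum fun k _ => ?_)
      (mul_nonneg (sq_nonneg _) (mul_nonneg (pow_nonneg (h0.trans h) _) (E4.l2sq_nonneg _ _)))
    have h2 := mul_le_mul (pow_le_pow_left₀ h0 h (2 * k)) (E4.l2sq_mono hXY ((Dm A ^ (k + 1)) *ᵥ u))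
      (E4.l2sq_nonneg _ _) (pow_nonneg (h0.trans h) _)
    calc _ = ℓ ^ 2 * ℓ' ^ 2 * (ℓ ^ (2 * k) * l2sq X ((Dm A ^ (k + 1)) *ᵥ u)) := by ring
      _ ≤ ℓ ^ 2 * ℓ' ^ 2 * (ℓ' ^ (2 * k) * l2sq Y ((Dm A ^ (k + 1)) *ᵥ u)) :=
        mul_le_mul_of_nonneg_left h2 (by positivity)
      _ = _ := by ring
  rw [hsq, sum_range_succ', add_mul, sum_mul]
  simp only [mul_zero, pow_zero, one_mul, one_mulVec]
  linarith

theorem shr_of_sq {A : Gauge M} {ℓ ℓ' : ℕ} (h1 : 1 ≤ ℓ') {z : Tor M} {c : ℝ}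
    (h : ∀ u, hsq A ℓ (ball z (2 * ℓ)) u * (ℓ' : ℝ) ^ 2 ≤
      c ^ 2 * (ℓ : ℝ) ^ 2 * hsq A ℓ' (ball z (2 * ℓ')) u) :
    RN.Shr A ℓ ℓ' z (c * √((ℓ : ℝ) / ℓ')) := fun u => by
  have h2 : (0 : ℝ) < ℓ' := by exact_mod_cast h1
  rw [mul_pow, Real.sq_sqrt (by positivity)]
  refine le_of_mul_le_mul_right ?_ h2
  refine le_of_eq_of_le (by ring) ((h u).trans (le_of_eq ?_))
  field_simp

omit [NeZero M] in
theorem pw_nonneg (R : Reg M) (e : Tor M × Fin 2) : 0 ≤ R.pw e := by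
  have := two_le_tT
  unfold Reg.pw
  split_ifs <;> linarith

omit [NeZero M] in
theorem isW (R : Reg M) {B : Gauge M} (hB : IsSign B) : IsW (R.pw * B) := fun e => by
  have h1 : |B e| = 1 := by rcases hB e with h | h <;> simp [h]
  have h2 := two_le_tT
  rw [Pi.mul_apply, abs_mul, h1, mul_one, abs_of_nonneg (pw_nonneg R e)]
  unfold Reg.pw
  split_ifs <;> simp

theorem flux_in {R : Reg M} {B : Gauge M} (hB : IsSign B) {f : Tor M} (h1 : flux B f = 1)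
    (h2 : ∀ f', tdist f' f ≤ 1 → f' ∈ R.In) : flux (R.pw * B) f = 1 := by
  have h3 : |flux (R.pw * B) f| = 1 := by
    by_contra h
    obtain ⟨f', h4, h5⟩ := out_of_flux hB h
    exact h4 (h2 f' h5)
  have h4 : flux (R.pw * B) f = flux R.pw f * flux B f := by
    simp only [flux, Pi.mul_apply]
    ring
  rwa [abs_of_nonneg] at h3
  rw [h4, h1, mul_one]
  exact mul_nonneg (mul_nonneg (mul_nonneg (pw_nonneg R _) (pw_nonneg R _)) (pw_nonneg R _))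
    (pw_nonneg R _)

theorem flux_out {R : Reg M} {B : Gauge M} {r : ℕ} (hB : Str R.pw B r) {f : Tor M} (hf : f ∉ R.In)
    (hfr : R.fr = true) : flux B f = 1 := by
  refine E5.flux_one hB.sign fun h => ?_
  have h1 := two_le_tT
  have h2 : R.pw (f, 0) = tT := by simp [Reg.pw, hfr, hf]
  rcases hB.fl f h with h3 | h3 <;>
    linarith [h3 (f, 0) (by rw [tdist_self]; exact Nat.zero_le _)]

theorem dec (α : ℝ) (hα : 0 < α) : ∃ c : ℝ, 1 ≤ c ∧ ∀ L : ℕ, ∃ κ > 0, ∀ (M : ℕ) [NeZero M]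
    (R : Reg M) (B : Gauge M) (r : ℕ) (b : Tor M), IsSign B → ShapeAt R.In α κ r b → 4 * r ≤ M →
    (∃ f, f ∉ R.In ∧ tdist f b ≤ 1) → ∀ s ρ : ℕ, 8 ≤ s → ρ ≤ L * s → 2 * ρ + 16 ≤ r →
    Flat B b (2 * ρ + 8) → HomDec (R.pw * B) b s ρ c := by
  obtain ⟨C, hC, hdec⟩ := hom_decay
  obtain ⟨Cc, hCc, hconn⟩ := conn_of_shape
  set a := min α 1 with ha
  have ha0 : 0 < a := lt_min hα one_pos
  have ha1 : a ≤ 1 := min_le_right _ _
  obtain ⟨N, hN⟩ : ∃ N : ℕ, (Cc : ℝ) ≤ a * N :=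
    ⟨⌈Cc / a⌉₊, by rw [← div_le_iff₀' ha0]; exact Nat.le_ceil _⟩
  have hCc' : (1 : ℝ) ≤ Cc := by exact_mod_cast hCc
  have hN1 : 1 ≤ N := by
    have h1 : (1 : ℝ) ≤ N := by nlinarith [Nat.cast_nonneg (α := ℝ) N]
    exact_mod_cast h1
  have hN' : (1 : ℝ) ≤ N := by exact_mod_cast hN1
  have hC' : (1 : ℝ) ≤ C := by exact_mod_cast hC
  have hNC : 1 ≤ (N : ℝ) * C := one_le_mul_of_one_le_of_one_le hN' hC'
  refine ⟨16 * (N * C), by linarith, fun L => ⟨min (a / 16) (1 / (4 * (L + 1))),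
    by positivity, fun M _ R B r b hB hS hM ⟨f, hf, hfb⟩ s ρ hs hρ hr hF s' ρ' h1 h2 h3 φ hφ => ?_⟩⟩
  set κ := min (a / 16) (1 / (4 * ((L : ℝ) + 1))) with hκ
  have hκ0 : 0 < κ := by positivity
  have hκ1 : κ ≤ a / 16 := min_le_left _ _
  have hκ2 : κ * (4 * (L + 1)) ≤ 1 := (le_div_iff₀ (by positivity)).1 (min_le_right _ _)
  have n0 := E4.l2sq_nonneg (ball b s') φ
  have n1 := E4.l2sq_nonneg (ball b ρ') φ
  set s₁ := ρ' / (8 * N) with hs₁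
  have h4 : ρ' < 8 * N * (s₁ + 1) := Nat.lt_mul_div_succ _ (by omega)
  have h5 : 8 * N * s₁ ≤ ρ' := Nat.mul_div_le _ _
  by_cases h6 : C * s' ≤ s₁
  · have h7 : s' ≤ C * s' := Nat.le_mul_of_pos_left _ hC
    have h8 : N * (s₁ + 3) + 2 ≤ ρ' := by nlinarith
    have h9 : s₁ + 3 ≤ N * (s₁ + 3) := Nat.le_mul_of_pos_left _ hN1
    obtain ⟨ν, hν, hO⟩ := outH_of_shape hS hκ0.le (by omega) hf hfb (by omega)
    have e : ρ' - 2 + 2 = ρ' := by omega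
    have k1 : 2 * κ * ((s₁ + 2 : ℕ) + 1) + 2 ≤ s' := by
      have k2 : s₁ + 3 ≤ (L + 1) * s' := by nlinarith
      have k3 : (s₁ : ℝ) + 3 ≤ (L + 1) * s' := by exact_mod_cast k2
      have k4 : (8 : ℝ) ≤ s' := by exact_mod_cast hs.trans h1
      have k5 := mul_le_mul_of_nonneg_left k3 hκ0.le
      have k6 := mul_le_mul_of_nonneg_right hκ2 (by linarith : (0 : ℝ) ≤ s')
      push_cast
      nlinarith
    have k2 : (Cc : ℝ) * ((s₁ + 2 : ℕ) + 1) ≤ a * (ρ' - 2 : ℕ) := by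
      have k3 : ((N * (s₁ + 3) : ℕ) : ℝ) ≤ (ρ' - 2 : ℕ) := by exact_mod_cast (by omega)
      have k4 := mul_le_mul_of_nonneg_left k3 ha0.le
      have k5 := mul_le_mul_of_nonneg_right hN (by positivity : (0 : ℝ) ≤ s₁ + 3)
      push_cast at k4 ⊢
      linarith
    have k3 := hdec M R B hB b ν _ s' s₁ (ρ' - 2) hν (by positivity) k1 (by omega) h6 (by omega)
      (by omega) (W.flat_mono hF (by omega))
      (hconn M R.In a κ r b (shape_al hS (min_le_left _ _)) ha0 (by linarith) (by omega) _ _ k2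
        (by omega)) (hO _ (by omega)) φ (by rwa [e])
    rw [e] at k3
    have k4 : (ρ' : ℝ) ≤ 16 * N * s₁ := by exact_mod_cast (by nlinarith : ρ' ≤ 16 * N * s₁)
    have k5 : (ρ' : ℝ) ^ 2 ≤ (16 * N * s₁) ^ 2 := by gcongr
    have k6 : (C : ℝ) ≤ (C : ℝ) ^ 2 := by nlinarith
    calc _ ≤ l2sq (ball b s') φ * (16 * N * s₁) ^ 2 := by gcongr
      _ = (16 * N) ^ 2 * (l2sq (ball b s') φ * s₁ ^ 2) := by ring
      _ ≤ (16 * N) ^ 2 * ((C : ℝ) ^ 2 * s' ^ 2 * l2sq (ball b ρ') φ) :=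
        mul_le_mul_of_nonneg_left (k3.trans (by gcongr)) (sq_nonneg _)
      _ = _ := by ring
  · have k4 : (ρ' : ℝ) ≤ 16 * (N * C) * s' := by
      exact_mod_cast (by nlinarith : ρ' ≤ 16 * (N * C) * s')
    rw [← mul_pow, mul_comm]
    exact mul_le_mul (by gcongr) (E4.l2sq_mono (E3.ball_mono b h2) φ) n0 (sq_nonneg _)

theorem solv : ∃ c : ℝ, 1 ≤ c ∧ ∀ (M : ℕ) [NeZero M] (R : Reg M) (B : Gauge M) (α : ℝ) (r : ℕ)
    (b : Tor M), IsSign B → ShapeAt R.In α (1 / 8) r b → 4 * r ≤ M → ∀ s ρ : ℕ, 8 ≤ s →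
    2 * ρ + 16 ≤ r → Flat B b (2 * ρ + 8) → Solv (R.pw * B) b s ρ c := by
  obtain ⟨Ck, hCk, hco⟩ := B3b.coercive_of ext_est rellich
  refine ⟨25 * Ck, by linarith, fun M _ R B α r b hB hS hM s ρ hs hr hF ρ' h1 h2 σ => ?_⟩
  have n1 := E4.l2sq_nonneg (ball b ρ') σ
  obtain ⟨w, hw, hw'⟩ := exists_solve (R.pw * B) (ball b ρ') σ
    (c := (25 * Ck) ^ 2 * (ρ' : ℝ) ^ 2 * l2sq (ball b ρ') σ) (by positivity)
    fun ζ hζ => by
      have k1 := hco M R B hB b ρ' 24 (by omega) (by omega) (W.flat_mono hF (by omega))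
        (tr_of_shape hS (by omega) (by omega)) ζ
        fun t ht => hζ t fun h => by have := E4.mem_ball.1 h; omega
      rw [dotProduct_comm]
      refine (E5.dot_sq_le hζ σ).trans ((mul_le_mul_of_nonneg_right k1 n1).trans ?_)
      rw [mul_right_comm, ← mul_pow]
      refine mul_le_mul_of_nonneg_right (mul_le_mul_of_nonneg_right ?_ n1) (E4.l2sq_nonneg _ _)
      exact le_of_eq (by push_cast; ring)
  exact ⟨w, hw, fun t ht => hw' t (E4.mem_ball.2 ht)⟩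

end B5c

open B5c

/-- Decay and solvability at a point of the boundary. -/
theorem dec_solv (α : ℝ) (hα : 0 < α) : ∃ c : ℝ, 1 ≤ c ∧ ∀ L : ℕ, ∃ κ > 0, ∀ (M : ℕ) [NeZero M]
    (R : Reg M) (B : Gauge M) (r : ℕ) (b : Tor M), IsSign B → ShapeAt R.In α κ r b → 4 * r ≤ M →
    (∃ f, f ∉ R.In ∧ tdist f b ≤ 1) → ∀ s ρ : ℕ, 8 ≤ s → ρ ≤ L * s → 2 * ρ + 16 ≤ r →
    Flat B b (2 * ρ + 8) → HomDec (R.pw * B) b s ρ c ∧ Solv (R.pw * B) b s ρ c := by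
  obtain ⟨c, hc, h1⟩ := dec α hα
  obtain ⟨c', hc', h2⟩ := solv
  refine ⟨c + c', by linarith, fun L => ?_⟩
  obtain ⟨κ, hκ, h1⟩ := h1 L
  refine ⟨min κ (1 / 8), by positivity, fun M _ R B r b hB hS hM hf s ρ hs hρ hr hF =>
    ⟨fun s' ρ' a1 a2 a3 φ hφ => ?_, fun ρ' a1 a2 σ => ?_⟩⟩
  · have := E4.l2sq_nonneg (ball b ρ') φ
    refine (h1 M R B r b hB (hS.mono (min_le_left _ _) le_rfl) hM hf s ρ hs hρ hr hF s' ρ' a1 a2 a3
      φ hφ).trans ?_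
    gcongr
    linarith
  · have := E4.l2sq_nonneg (ball b ρ') σ
    obtain ⟨w, k1, k2⟩ := h2 M R B α r b hB (hS.mono (min_le_right _ _) le_rfl) hM s ρ hs hr hF ρ'
      a1 a2 σ
    refine ⟨w, k1.trans ?_, k2⟩
    gcongr
    linarith

theorem shrStmt : ShrStmt := by
  classical
  intro α hα
  obtain ⟨c, hc, hds⟩ := dec_solv α hα
  obtain ⟨c', hc', ht⟩ := tele c hc
  obtain ⟨Cd, hCd, hdeep⟩ := deep_est
  obtain ⟨Cb, hCb, hbulk⟩ := W.bulk_est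
  set K := Cb * (324 * c' ^ 2 + 1) + 8100 * c' ^ 2 + Cd ^ 2 + 65 with hK
  have hc2 : 1 ≤ c' ^ 2 := one_le_pow₀ hc'
  have hK0 : 0 ≤ Cb * (324 * c' ^ 2 + 1) := by positivity
  have hK1 : 1 ≤ K := by nlinarith [sq_nonneg Cd]
  refine ⟨K, hK1, fun L => ?_⟩
  obtain ⟨κ, hκ, hds⟩ := hds L
  refine ⟨min κ (1 / 8), by positivity, fun M _ R B r hS hB hM ℓ ℓ' h1 h2 h3 h4 z ⟨f, hf, hf'⟩ =>
    shr_of_sq (by omega) fun u => ?_⟩
  have l0 : (0 : ℝ) < ℓ := by exact_mod_cast h1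
  have l1 : (ℓ : ℝ) ≤ ℓ' := by exact_mod_cast h2
  set H := hsq (R.pw * B) ℓ' (ball z (2 * ℓ')) u with hH
  have H0 : 0 ≤ H := E4.hsq_nonneg _ _ _
  have HH : 0 ≤ (ℓ : ℝ) ^ 2 * H := by positivity
  suffices h : hsq (R.pw * B) ℓ (ball z (2 * ℓ)) u * (ℓ' : ℝ) ^ 2 ≤ K * (ℓ : ℝ) ^ 2 * H from
    h.trans (by gcongr; nlinarith)
  have hz := fun c => hsq_of_zero (c := c) (R.pw * B) l0.le l1
    (E3.ball_mono z (by omega : 2 * ℓ ≤ 2 * ℓ')) u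
  have hl : ∀ X ⊆ ball z (2 * ℓ'), l2sq X u ≤ H := fun X hX =>
    (E4.l2sq_mono hX u).trans (E4.l2sq_le_hsq _ _ _ _)
  by_cases h5 : ℓ' ≤ 8 * ℓ
  · have k1 : (ℓ' : ℝ) ≤ 8 * ℓ := by exact_mod_cast h5
    have k2 := hz 64 (by
      calc _ ≤ H * (8 * ℓ) ^ 2 := by
            gcongr
            exact hl _ (E3.ball_mono z (by omega))
        _ = _ := by ring)
    nlinarith [sq_nonneg Cd]
  by_cases h6 : ∀ f, tdist f z ≤ 2 * ℓ + 6 → f ∉ R.In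
  · have k1 := hdeep M R B hB.sign z ℓ ℓ' h1 (by omega)
      (fun f h => ⟨h6 f h, flux_out hB (h6 f h)⟩) u
    have k2 : (ℓ : ℝ) ^ 4 ≤ (ℓ' : ℝ) ^ 4 := by gcongr
    have k3 : (0 : ℝ) < (ℓ' : ℝ) ^ 4 := lt_of_lt_of_le (by positivity) k2
    have k4 : hsq (R.pw * B) ℓ (ball z (2 * ℓ)) u * (ℓ' : ℝ) ^ 2 ≤ Cd ^ 2 * (ℓ : ℝ) ^ 2 * H := by
      refine le_of_mul_le_mul_right ?_ k3
      calc _ = hsq (R.pw * B) ℓ (ball z (2 * ℓ)) u * (ℓ' : ℝ) ^ 6 := by ring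
        _ ≤ Cd ^ 2 * (ℓ : ℝ) ^ 2 * H * (ℓ : ℝ) ^ 4 := k1.trans (le_of_eq (by ring))
        _ ≤ _ := by gcongr
    nlinarith
  push Not at h6
  obtain ⟨f₁, hf₁, hf₁'⟩ := h6
  obtain ⟨f₀, hf₀, hf₀'⟩ := out_of_flux hB.sign hf'
  obtain ⟨b, hb, hmin⟩ := exists_min_image (univ.filter fun x => x ∉ R.In) (fun x => tdist x z)
    ⟨f₀, mem_filter.2 ⟨mem_univ _, hf₀⟩⟩
  replace hb := (mem_filter.1 hb).2
  have hd : tdist b z ≤ ℓ' + 1 := by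
    have := hmin f₀ (mem_filter.2 ⟨mem_univ _, hf₀⟩)
    have := tdist_triangle f₀ f z
    omega
  have hS8 : Shape R.In α (1 / 8) r := hS.mono (min_le_right _ _) le_rfl
  have hb0 : tdist b b = 0 := tdist_self b
  have hzb : tdist z b = tdist b z := tdist_comm _ _
  have hF : Flat B b (2 * (ℓ' / 2) + 8) := flat_near (d := ℓ' + 2 * ℓ + 7) hS8 hB (by omega)
    ⟨⟨f₁, hf₁', by have := tdist_triangle f₁ z b; omega⟩, b, hb, by omega⟩ (by omega)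
  have key : ∀ s : ℕ, ℓ + 8 ≤ s → ∀ X ⊆ ball z (2 * ℓ'), X ⊆ ball b s →
      l2sq X u * (ℓ' : ℝ) ^ 2 ≤ 9 * c' ^ 2 * (s : ℝ) ^ 2 * H := by
    intro s hs X hX hX'
    have k0 := E4.l2sq_nonneg X u
    have k1 : (ℓ' : ℝ) ≤ 3 * (ℓ' / 2 : ℕ) := by exact_mod_cast (by omega : ℓ' ≤ 3 * (ℓ' / 2))
    have k2 : l2sq X u * ((ℓ' / 2 : ℕ) : ℝ) ^ 2 ≤ c' ^ 2 * (s : ℝ) ^ 2 * H := by
      by_cases k3 : s ≤ ℓ' / 2
      · have k4 : L * ℓ ≤ L * (ℓ + 8) := Nat.mul_le_mul_left _ (by omega)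
        obtain ⟨d1, d2⟩ := hds M R B r b hB.sign ((hS b).mono (min_le_left _ _) le_rfl) hM
          ⟨b, hb, by omega⟩ (ℓ + 8) (ℓ' / 2) (by omega) (by omega) (by omega) hF
        refine (mul_le_mul_of_nonneg_right (E4.l2sq_mono hX' u) (sq_nonneg _)).trans
          ((ht M _ b _ _ (by omega) d1 d2 s hs k3 u).1.trans (mul_le_mul_of_nonneg_left
            (E4.hsq_mono _ (Nat.cast_nonneg _) (Nat.cast_le.2 (by omega))
              (E4.ball_sub (by omega)) u) (by positivity)))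
      · have k4 : ((ℓ' / 2 : ℕ) : ℝ) ≤ s := by exact_mod_cast (by omega : ℓ' / 2 ≤ s)
        calc _ ≤ H * (s : ℝ) ^ 2 := by
              gcongr
              exact hl X hX
          _ = 1 * (s : ℝ) ^ 2 * H := by ring
          _ ≤ _ := by gcongr
    calc _ ≤ l2sq X u * (3 * (ℓ' / 2 : ℕ)) ^ 2 := by gcongr
      _ = 9 * (l2sq X u * ((ℓ' / 2 : ℕ) : ℝ) ^ 2) := by ring
      _ ≤ _ := by linarith
  by_cases h7 : tdist b z ≤ 20 * ℓ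
  · have k1 := key (30 * ℓ) (by omega) _ (E3.ball_mono z (by omega : 2 * ℓ ≤ 2 * ℓ'))
      (E4.ball_sub (by omega))
    have k2 := hz (8100 * c' ^ 2) (k1.trans (le_of_eq (by push_cast; ring)))
    nlinarith [sq_nonneg Cd]
  · obtain ⟨ρ, hρ⟩ : ∃ ρ, tdist b z = ρ + 2 := ⟨tdist b z - 2, by omega⟩
    have hin : ∀ x, tdist x z ≤ ρ + 1 → x ∈ R.In := fun x hx => by
      by_contra h
      have := hmin x (mem_filter.2 ⟨mem_univ _, h⟩)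
      omega
    have hFz : Flat B z ρ := flat_near (d := ρ + 2) hS8 hB (by omega)
      ⟨⟨z, hin z (by rw [tdist_self]; omega), by rw [tdist_self]; omega⟩, b, hb, hρ.le⟩ (by omega)
    have k1 := hbulk M _ (isW R hB.sign) z ℓ ρ h1 (by omega) (by omega) (fun x hx =>
      flux_in hB.sign (hFz x hx) fun y hy => hin y (by have := tdist_triangle y x z; omega)) u
    have r0 : (0 : ℝ) < ρ := by exact_mod_cast (by omega : 0 < ρ)
    have k2 := key (6 * ρ) (by omega) (ball z ρ) (E3.ball_mono z (by omega))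
      (E4.ball_sub (by omega))
    have k3 := hsq_of_zero (R.pw * B) r0.le (ℓ' := ℓ') (by exact_mod_cast (by omega : ρ ≤ ℓ'))
      (E3.ball_mono z (by omega : ρ ≤ 2 * ℓ')) u (c := 324 * c' ^ 2)
      (k2.trans (le_of_eq (by push_cast; ring)))
    have k4 : hsq (R.pw * B) ℓ (ball z (2 * ℓ)) u * (ℓ' : ℝ) ^ 2 ≤
        Cb * (324 * c' ^ 2 + 1) * (ℓ : ℝ) ^ 2 * H := by
      calc _ ≤ Cb * ((ℓ : ℝ) / ρ) ^ 2 * hsq (R.pw * B) ρ (ball z ρ) u * (ℓ' : ℝ) ^ 2 := by gcongr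
        _ = Cb * ((ℓ : ℝ) / ρ) ^ 2 * (hsq (R.pw * B) ρ (ball z ρ) u * (ℓ' : ℝ) ^ 2) := by ring
        _ ≤ Cb * ((ℓ : ℝ) / ρ) ^ 2 * ((324 * c' ^ 2 + 1) * (ρ : ℝ) ^ 2 * H) := by gcongr
        _ = _ := by field_simp
    nlinarith [sq_nonneg Cd]

end Vale.Agent.P144Z
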