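import Vale.Agent.P144D.B.BdCore
import Vale.Agent.P144D.B.Ext
import Vale.Agent.P144D.B.HomRk
import Vale.Agent.P144D.B.Tele
import Vale.Agent.P144D.B.Shr
import Vale.Agent.P144D.Geo.A
import Vale.Agent.P144D.Geo.Cov

/-!
The boundary estimates.
-/

namespace Vale.Agent.P144Z

theorem bdStmt_of (h : ShrStmt) : BdStmt :=
  B5d.core h deep_est hom_rank rk_of conn_of_shape
    (fun _ _ _ _ _ hM _ _ hf hf' h1 h2 => exists_nearB hM hf hf' h1 h2)
    (fun _ _ _ _ hB _ hf => out_of_flux hB hf)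
    (fun _ _ _ _ _ _ _ h hB hM _ _ hz hρ => flat_near h hB hM hz hρ) cover_shape dec_solv

theorem bdStmt : BdStmt := bdStmt_of shrStmt

end Vale.Agent.P144Z
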