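import Vale.Agent.P144D.DefsB
import Vale.Agent.P144Z.G.Cover

/-!
The boundary estimates from the local statements.
-/

namespace Vale.Agent.P144Z

open Finset Matrix

namespace B5d

def DeepS : Prop := ∃ C : ℝ, 1 ≤ C ∧ ∀ (M : ℕ) [NeZero M] (R : Reg M) (B : Gauge M), IsSign B →
    ∀ (z : Tor M) (ℓ ℓ' : ℕ), 1 ≤ ℓ → ℓ + 2 ≤ ℓ' →
    (∀ f, tdist f z ≤ 2 * ℓ + 6 → f ∉ R.In ∧ (R.fr = true → flux B f = 1)) → ∀ w,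
      hsq (R.pw * B) ℓ (ball z (2 * ℓ)) w * ℓ' ^ 6 ≤
        C ^ 2 * ℓ ^ 6 * hsq (R.pw * B) ℓ' (ball z (2 * ℓ')) w

def RankS : Prop := ∀ η : ℝ, 0 < η → ∃ K : ℕ, 1 ≤ K ∧ ∀ (M : ℕ) [NeZero M] (R : Reg M)
    (B : Gauge M), IsSign B → ∀ (z : Tor M) (ν : ℂ) (w₀ : ℝ) (s s₁ ρ : ℕ), ‖ν‖ = 1 → 0 ≤ w₀ →
    K * (w₀ + 1) ≤ s → K * s ≤ s₁ → s₁ + 2 ≤ ρ → 2 * ρ + 9 ≤ M → Flat B z (ρ + 2) →
    ConnB R.In z (s₁ + 2) ρ → OutH R.In z ν (s₁ + 2) w₀ → InH R.In z ν (s₁ + 2) w₀ →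
      ∃ u, Hom (R.pw * B) z (ρ + 2) u ∧ ∀ φ, Hom (R.pw * B) z (ρ + 2) φ → ∃ t : ℝ,
        l2sq (ball z s) (φ - t • u) * s₁ ^ 2 ≤ η ^ 2 * s ^ 2 * l2sq (ball z (ρ + 2)) φ

def RkS : Prop := ∀ c : ℝ, 1 ≤ c → ∃ c' : ℝ, 1 ≤ c' ∧ ∀ η > 0, ∀ K : ℕ, ∃ L₀ : ℕ,
    ∀ (M : ℕ) [NeZero M] (A : Gauge M) (b : Tor M) (ℓ ρ ℓ' : ℕ), 1 ≤ ℓ → 11 * ℓ + 4 ≤ ρ →
    ρ ≤ K * ℓ → L₀ * ℓ ≤ ℓ' → HomDec A b (11 * ℓ) ℓ' c → Solv A b (11 * ℓ) ℓ' c →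
    HomRk A b (11 * ℓ) ρ η → RkA A ℓ ℓ' (11 * ℓ) c' (c' * η) b

def ConnS : Prop := ∃ C : ℕ, 1 ≤ C ∧ ∀ (M : ℕ) [NeZero M] (I : Finset (Tor M)) (α κ : ℝ)
    (r : ℕ) (z : Tor M), ShapeAt I α κ r z → 0 < α → 16 * κ ≤ α → 2 * r + 1 ≤ M → ∀ s ρ : ℕ,
    (C : ℝ) * (s + 1) ≤ α * ρ → ρ ≤ r → ConnB I z s ρ

def NearS : Prop := ∀ (M : ℕ) [NeZero M] (I : Finset (Tor M)) (z : Tor M) (ρ : ℕ),
    2 * ρ + 1 ≤ M → ∀ f f' : Tor M, f ∈ I → f' ∉ I → tdist f z ≤ ρ → tdist f' z ≤ ρ →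
    ∃ x, tdist x z ≤ ρ ∧ x ∉ I ∧ NearB I 1 x

def FluxS : Prop := ∀ (M : ℕ) [NeZero M] (R : Reg M) (B : Gauge M), IsSign B → ∀ f : Tor M,
    |flux (R.pw * B) f| ≠ 1 → ∃ f', f' ∉ R.In ∧ tdist f' f ≤ 1

def FlatS : Prop := ∀ (M : ℕ) [NeZero M] (α : ℝ) (r : ℕ) (z : Tor M) (R : Reg M) (B : Gauge M),
    Shape R.In α (1 / 8) r → Str R.pw B r → 2 * r + 1 ≤ M → ∀ d ρ : ℕ, NearB R.In d z →
    d + ρ + 4 ≤ r → Flat B z ρ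

def CovS : Prop := ∃ C : ℕ, ∀ α > 0, ∀ K : ℕ, ∃ n₂ L₀ : ℕ, ∀ L ≥ L₀, ∃ κ > 0,
    ∀ (M : ℕ) [NeZero M] (I : Finset (Tor M)) (r ℓ : ℕ), Shape I α κ r → 4 * r ≤ M → L ≤ ℓ →
    8 * (L * ℓ) ≤ r → ∀ z, ∃ Z₁ Z₂ : Finset (Tor M), Z₁.card ≤ C * L ∧ Z₂.card ≤ n₂ ∧
      (∀ b ∈ Z₁, NearB I 1 b ∧ ∃ (ν : ℂ) (w₀ : ℝ), ‖ν‖ = 1 ∧ 0 ≤ w₀ ∧ K * (w₀ + 1) ≤ ℓ ∧
        OutH I b ν (K * ℓ) w₀ ∧ InH I b ν (K * ℓ) w₀) ∧
      ∀ x, tdist x z ≤ 4 * (L * ℓ) → NearB I 1 x → ∃ y ∈ Z₁ ∪ Z₂, tdist x y ≤ ℓ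

def DecS : Prop := ∀ α : ℝ, 0 < α → ∃ c : ℝ, 1 ≤ c ∧ ∀ L : ℕ, ∃ κ > 0, ∀ (M : ℕ) [NeZero M]
    (R : Reg M) (B : Gauge M) (r : ℕ) (b : Tor M), IsSign B → ShapeAt R.In α κ r b → 4 * r ≤ M →
    (∃ f, f ∉ R.In ∧ tdist f b ≤ 1) → ∀ s ρ : ℕ, 8 ≤ s → ρ ≤ L * s → 2 * ρ + 16 ≤ r →
    Flat B b (2 * ρ + 8) → HomDec (R.pw * B) b s ρ c ∧ Solv (R.pw * B) b s ρ c

variable {M : ℕ} [NeZero M]

omit [NeZero M] in
theorem shape_mono {I : Finset (Tor M)} {α κ κ' : ℝ} {r : ℕ} (h : Shape I α κ r) (hκ : κ ≤ κ') :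
    Shape I α κ' r := fun z => by
  obtain ⟨S₁, S₂, ν₁, ν₂, h1, h2, h3, h4, h5, h6⟩ := h z
  have key : ∀ {S : Set (ℤ × ℤ)} {ν : ℂ}, Epi S ν κ → Epi S ν κ' := fun hS u hu v hv =>
    hS u hu v ((mul_le_mul_of_nonneg_right hκ (Real.sqrt_nonneg _)).trans hv)
  exact ⟨S₁, S₂, ν₁, ν₂, h1, h2, h3, key h4, key h5, h6⟩

theorem shr_mono {A : Gauge M} {ℓ ℓ' : ℕ} {z : Tor M} {κ κ' : ℝ}
    (h : RN.Shr A ℓ ℓ' z κ) (h0 : 0 ≤ κ) (h1 : κ ≤ κ') : RN.Shr A ℓ ℓ' z κ' := fun u =>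
  (h u).trans (mul_le_mul_of_nonneg_right (mul_le_mul_of_nonneg_right
    (pow_le_pow_left₀ h0 h1 2) (Nat.cast_nonneg ℓ)) (RN.hsq_nonneg A _ _ u))

theorem rk_mono {A : Gauge M} {ℓ ℓ' r : ℕ} {c c' η : ℝ} {y : Tor M} (h : RkA A ℓ ℓ' r c η y)
    (h0 : 0 ≤ c) (h1 : c ≤ c') : RkA A ℓ ℓ' r c' η y := by
  obtain ⟨u, hu⟩ := h
  refine ⟨u, fun w => ⟨(hu w).1.trans ?_, (hu w).2⟩⟩
  exact mul_le_mul_of_nonneg_right (mul_le_mul_of_nonneg_right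
    (pow_le_pow_left₀ h0 h1 2) (sq_nonneg _)) (RN.hsq_nonneg A _ _ w)

omit [NeZero M] in
/-- the strings of the free boundary condition have no flux at the outer faces -/
theorem flux_out {R : Reg M} {B : Gauge M} {r : ℕ} (hB : Str R.pw B r) {f : Tor M}
    (hf : f ∉ R.In) (hfr : R.fr = true) : flux B f = 1 := by
  have hp : R.pw (f, 0) = tT := by simp [Reg.pw, hfr, hf]
  have ht := two_le_tT
  have hd : tdist f f ≤ r := by simp [tdist, lft]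
  have h1 : flux B f = 1 ∨ flux B f = -1 := by
    unfold flux
    rcases hB.sign (f, 0) with a | a <;> rcases hB.sign (f + uv M 0, 1) with b | b <;>
      rcases hB.sign (f + uv M 1, 0) with c | c <;> rcases hB.sign (f, 1) with d | d <;>
      rw [a, b, c, d] <;> norm_num
  refine h1.resolve_right fun h => ?_
  rcases hB.fl f h with h2 | h2
  · have := h2 (f, 0) hd
    linarith
  · have := h2 (f, 0) hd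
    linarith

/-- deep in the outer part -/
theorem deep (h : DeepS) : ∃ C : ℝ, 1 ≤ C ∧ ∀ (M : ℕ) [NeZero M] (R : Reg M) (B : Gauge M)
    (r : ℕ), Str R.pw B r → ∀ (z : Tor M) (L ℓ : ℕ), 2 ≤ L → 2 ≤ ℓ →
    (∀ f, tdist f z ≤ 2 * ℓ + 6 → f ∉ R.In) →
      RN.Shr (R.pw * B) ℓ (L * ℓ) z (C / (L : ℝ) ^ 2) := by
  obtain ⟨C, hC, h⟩ := h
  refine ⟨C, hC, fun M _ R B r hB z L ℓ hL hℓ ho => ?_⟩
  have l0 : (0 : ℝ) < ℓ := by exact_mod_cast (show 0 < ℓ by omega)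
  have L1 : (1 : ℝ) ≤ L := by exact_mod_cast (show 1 ≤ L by omega)
  refine RN.shr_of (b := C ^ 2 / (L : ℝ) ^ 6) (fun u => ?_) ?_
  · have h1 := h M R B hB.sign z ℓ (L * ℓ) (by omega) (by nlinarith)
      (fun f hf => ⟨ho f hf, flux_out hB (ho f hf)⟩) u
    rw [div_mul_eq_mul_div, le_div_iff₀ (by positivity)]
    refine le_of_mul_le_mul_right ?_ (pow_pos l0 6)
    push_cast at h1 ⊢
    calc _ = hsq (R.pw * B) ℓ (ball z (2 * ℓ)) u * ((L : ℝ) * ℓ) ^ 6 := by ring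
      _ ≤ _ := h1
      _ = _ := by ring
  · push_cast
    have e : C ^ 2 / (L : ℝ) ^ 6 * (L * ℓ) = (C / (L : ℝ) ^ 2) ^ 2 * ℓ * (1 / L) := by
      field_simp
    rw [e]
    exact mul_le_of_le_one_right (by positivity) ((div_le_one (by positivity)).2 L1)

/-- rank one at a flat point -/
theorem rank (h1 : RankS) (h2 : ConnS) {α η : ℝ} (hα : 0 < α) (hη : 0 < η) :
    ∃ K K' : ℕ, ∀ (M : ℕ) [NeZero M] (R : Reg M) (B : Gauge M) (κ : ℝ) (r ℓ : ℕ) (b : Tor M)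
      (ν : ℂ) (w₀ : ℝ), IsSign B → ShapeAt R.In α κ r b → 16 * κ ≤ α → 4 * r ≤ M → 1 ≤ ℓ →
      8 * (K' * ℓ) ≤ r → Flat B b (K' * ℓ) → ‖ν‖ = 1 → 0 ≤ w₀ → K * (w₀ + 1) ≤ ℓ →
      OutH R.In b ν (K * ℓ) w₀ → InH R.In b ν (K * ℓ) w₀ →
      ∃ ρ, 11 * ℓ + 4 ≤ ρ ∧ ρ ≤ K' * ℓ ∧ HomRk (R.pw * B) b (11 * ℓ) ρ η := by
  obtain ⟨C, hC, h2⟩ := h2
  obtain ⟨Q, hQ1, hQ⟩ : ∃ Q : ℕ, 1 ≤ Q ∧ (C : ℝ) ≤ α * Q := by
    refine ⟨⌈C / α⌉₊ + 1, by omega, ?_⟩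
    have := Nat.le_ceil (C / α)
    rw [div_le_iff₀ hα] at this
    push_cast
    nlinarith
  have Q0 : (0 : ℝ) < Q := by exact_mod_cast hQ1
  obtain ⟨K, hK, h1⟩ := h1 (η / (6 * Q)) (by positivity)
  refine ⟨11 * K + 2, 66 * Q * K, fun M _ R B κ r ℓ b ν w₀ hB hS hκ hM hℓ hr hF hν hw hK' ho hi => ?_⟩
  obtain ⟨s₁, hs₁⟩ : ∃ s₁, s₁ = K * (11 * ℓ) := ⟨_, rfl⟩
  obtain ⟨ρ, hρ⟩ : ∃ ρ, ρ = Q * (s₁ + 3) := ⟨_, rfl⟩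
  have a1 : 11 * ℓ ≤ s₁ := by rw [hs₁]; exact Nat.le_mul_of_pos_left _ hK
  have a2 : s₁ + 3 ≤ ρ := by rw [hρ]; exact Nat.le_mul_of_pos_left _ hQ1
  have a3 : ρ + 2 ≤ 6 * Q * s₁ := by rw [hρ]; nlinarith
  have a4 : 6 * Q * s₁ = 66 * Q * K * ℓ := by rw [hs₁]; ring
  have a5 : s₁ + 2 ≤ (11 * K + 2) * ℓ := by rw [hs₁]; nlinarith
  have c1 : ConnB R.In b (s₁ + 2) ρ := by
    refine h2 M R.In α κ r b hS hα hκ (by omega) _ _ ?_ (by omega)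
    rw [hρ]
    push_cast
    have : (0 : ℝ) ≤ s₁ := Nat.cast_nonneg _
    nlinarith
  have c2 : (K : ℝ) * (w₀ + 1) ≤ (11 * ℓ : ℕ) := by
    push_cast at hK' ⊢
    have : (0 : ℝ) ≤ K := Nat.cast_nonneg _
    have : (0 : ℝ) ≤ ℓ := Nat.cast_nonneg _
    nlinarith
  obtain ⟨u, hu, H⟩ := h1 M R B hB b ν w₀ (11 * ℓ) s₁ ρ hν hw c2 hs₁.ge (by omega) (by omega)
    (fun f hf => hF f (by omega)) c1 (fun v hv => ho v (hv.trans a5))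
    (fun v hv => hi v (hv.trans a5))
  refine ⟨ρ + 2, by omega, by omega, u, hu, fun φ hφ => ?_⟩
  obtain ⟨t, ht⟩ := H φ hφ
  refine ⟨t, ?_⟩
  have b1 : ((ρ + 2 : ℕ) : ℝ) ≤ 6 * Q * s₁ := by exact_mod_cast a3
  have b2 : ((ρ + 2 : ℕ) : ℝ) ^ 2 ≤ (6 * Q * s₁) ^ 2 := pow_le_pow_left₀ (Nat.cast_nonneg _) b1 2
  calc _ ≤ l2sq (ball b (11 * ℓ)) (φ - t • u) * (6 * Q * s₁) ^ 2 :=
        mul_le_mul_of_nonneg_left b2 (E3.l2sq_nonneg _ _)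
    _ = l2sq (ball b (11 * ℓ)) (φ - t • u) * s₁ ^ 2 * (6 * Q) ^ 2 := by ring
    _ ≤ _ := mul_le_mul_of_nonneg_right ht (sq_nonneg _)
    _ = _ := by field_simp

theorem core (h : ShrStmt) (hD : DeepS) (hR : RankS) (hK : RkS) (hC : ConnS) (hN : NearS)
    (hX : FluxS) (hF : FlatS) (hV : CovS) (hS : DecS) : BdStmt := by
  intro α hα
  obtain ⟨c₀, hc₀, h⟩ := h α hα
  obtain ⟨c₁, hc₁, hD⟩ := deep hD
  obtain ⟨c₂, hc₂, hS⟩ := hS α hα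
  obtain ⟨c₃, hc₃, hK⟩ := hK c₂ hc₂
  obtain ⟨n₁, hV⟩ := hV
  refine ⟨c₀ + c₁ + c₃, by linarith, n₁, fun η hη => ?_⟩
  have hη' : 0 < η / c₃ := by positivity
  obtain ⟨K, K', hR⟩ := rank hR hC hα hη'
  obtain ⟨L₁, hK⟩ := hK _ hη' K'
  obtain ⟨n₂, L₂, hV⟩ := hV α hα K
  refine ⟨n₂, L₁ + L₂ + K' + 7, fun L hL => ?_⟩
  obtain ⟨κ₀, hκ₀, h⟩ := h L
  obtain ⟨κ₁, hκ₁, hS⟩ := hS L
  obtain ⟨κ₂, hκ₂, hV⟩ := hV L (by omega)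
  obtain ⟨κ, hκ, k0, k1, k2, k3, k4⟩ : ∃ κ > 0, κ ≤ κ₀ ∧ κ ≤ κ₁ ∧ κ ≤ κ₂ ∧ κ ≤ 1 / 8 ∧
      κ ≤ α / 16 := by
    refine ⟨min κ₀ (min κ₁ (min κ₂ (min (1 / 8) (α / 16)))), by positivity, ?_⟩
    simp only [← le_min_iff, le_refl]
  refine ⟨κ, hκ, fun M _ R B r J hI hB hM hJ hr => ?_⟩
  have L1 : 1 ≤ L := by omega
  have sch : ∀ ℓ, 1 ≤ ℓ → 8 * (L * ℓ) ≤ r → ∀ z,
      (∃ f, tdist f z ≤ L * ℓ ∧ |flux (R.pw * B) f| ≠ 1) →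
      RN.Shr (R.pw * B) ℓ (L * ℓ) z ((c₀ + c₁ + c₃) * √((ℓ : ℝ) / (L * ℓ : ℕ))) :=
    fun ℓ hℓ hr z hz => shr_mono (h M R B r (shape_mono hI k0) hB hM ℓ (L * ℓ) hℓ
      (Nat.le_mul_of_pos_left _ L1) le_rfl hr z hz) (by positivity)
      (mul_le_mul_of_nonneg_right (by linarith) (Real.sqrt_nonneg _))
  have hsc : ∀ j, j < J → 8 * (L * sc L j) ≤ r := fun j hj => by
    refine le_trans (Nat.mul_le_mul_left 8 ?_) hr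
    unfold sc
    calc L * (8 * L ^ j) = 8 * L ^ (j + 1) := by ring
      _ ≤ _ := Nat.mul_le_mul_left 8 (Nat.pow_le_pow_right L1 hj)
  refine ⟨⟨sch 8 (by norm_num) (by simpa [sc] using hsc 0 hJ), fun z => ?_⟩,
    fun j hj hjJ => ?_⟩
  · obtain ⟨Z, hZ, -, hZc⟩ := cover_ball z (3 * (L * 8)) (r := 8 * 8) (by norm_num)
    refine ⟨∅, Z, by simp, ?_, by simp, fun x hx _ => Or.inr (Or.inr (hZc x hx))⟩
    have : (Z.card : ℝ) ≤ ((6 * L + 1 : ℕ) : ℝ) ^ 2 := by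
      refine hZ.trans (pow_le_pow_left₀ (by positivity) ?_ 2)
      push_cast
      have : (0 : ℝ) ≤ L := Nat.cast_nonneg _
      linarith
    exact_mod_cast this
  · have hr' := hsc j hjJ
    have hl : 8 * L ≤ sc L j := by
      unfold sc
      exact Nat.mul_le_mul_left 8 (Nat.le_self_pow (by omega) L)
    generalize sc L j = ℓ at hr' hl
    have hl7 : 7 * ℓ ≤ L * ℓ := Nat.mul_le_mul_right _ (by omega)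
    have hl1 : L₁ * ℓ ≤ L * ℓ := Nat.mul_le_mul_right _ (by omega)
    have hlK : K' * ℓ ≤ L * ℓ := Nat.mul_le_mul_right _ (by omega)
    refine ⟨sch ℓ (by omega) hr', fun z => ?_⟩
    obtain ⟨Z₁, Z₂, z1, z2, z3, z4⟩ := hV M R.In r ℓ (shape_mono hI k2) hM (by omega) hr' z
    refine ⟨Z₁, Z₂, z1, z2, fun b hb => ?_, fun x hx ⟨f, hf, hf'⟩ => ?_⟩
    · obtain ⟨hnb, ν, w₀, hν, hw, hKw, ho, hi⟩ := z3 b hb
      have hfl : Flat B b (2 * (L * ℓ) + 8) :=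
        hF M α r b R B (shape_mono hI k3) hB (by omega) 1 _ hnb (by omega)
      obtain ⟨d1, d2⟩ := hS M R B r b hB.sign (shape_mono hI k1 b) hM hnb.2 (11 * ℓ) (L * ℓ)
        (by omega) (Nat.mul_le_mul_left _ (by omega)) (by omega) hfl
      obtain ⟨ρ, r1, r2, r3⟩ := hR M R B κ r ℓ b ν w₀ hB.sign (hI b) (by linarith) hM (by omega)
        (by omega) (fun g hg => hfl g (by omega)) hν hw hKw ho hi
      have := hK M (R.pw * B) b ℓ ρ (L * ℓ) (by omega) r1 r2 hl1 d1 d2 r3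
      rw [mul_div_cancel₀ _ (by positivity)] at this
      exact rk_mono this (by linarith) (by linarith)
    · obtain ⟨f', ho, hd⟩ := hX M R B hB.sign f hf'
      have t1 := tdist_triangle f' f x
      by_cases hin : ∀ g, tdist g x ≤ 2 * ℓ + 6 → g ∉ R.In
      · refine Or.inl (shr_mono (hD M R B r hB x L ℓ (by omega) (by omega) hin) (by positivity) ?_)
        exact div_le_div_of_nonneg_right (by linarith) (by positivity)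
      · push Not at hin
        obtain ⟨g, hg, hgI⟩ := hin
        obtain ⟨x', x1, -, x2⟩ := hN M R.In x (6 * ℓ + 1) (by omega) g f' hgI ho (by omega)
          (by omega)
        have t2 := tdist_triangle x' x z
        obtain ⟨y, hy, hxy⟩ := z4 x' (by omega) x2
        have t3 := tdist_triangle x x' y
        rw [tdist_comm x x'] at t3
        rcases mem_union.1 hy with hy | hy
        · exact Or.inr (Or.inl ⟨y, hy, by omega⟩)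
        · exact Or.inr (Or.inr ⟨y, hy, by omega⟩)

end B5d

end Vale.Agent.P144Z
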