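import Vale.Agent.P144D.B.Trace
import Vale.Agent.P144Z.E5.Main

/-! The duality argument behind the coercivity and the spectral gap. -/

namespace Vale.Agent.P144Z.B3b

open Finset Matrix

/-- The local inverse outside the region. -/
def ExtS : Prop := ∃ C : ℝ, 1 ≤ C ∧ ∀ (M : ℕ) [NeZero M] (R : Reg M) (B : Gauge M), IsSign B →
    ∀ x : Tor M, (∀ f, tdist f x ≤ 1 → f ∉ R.In ∧ (R.fr = true → flux B f = 1)) →
    ∀ φ, l2sq {x} φ ≤ C * l2sq (ball x 1) (Dm (R.pw * B) *ᵥ φ)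

/-- The Rellich inequality. -/
def RelS : Prop := ∃ C : ℝ, 1 ≤ C ∧ ∀ (M : ℕ) [NeZero M] (R : Reg M) (B : Gauge M), IsSign B →
    4 ≤ M → (R.fr = true → ∀ f, flux B f = -1 → ∀ f', tdist f' f ≤ 2 →
      f' ∈ R.In ∧ (f' ≠ f → flux B f' = 1)) →
    ∀ (φ F : Tor M × Fin 4 → ℝ) (t : Tor M → ℝ),
      (R.fr = true → ∀ f, flux B f = -1 → cnr f ⬝ᵥ φ = 0) →
      (∀ f, t f ≠ 0 → R.fr = true ∧ flux B f = -1) →
      F = Dm (R.pw * B) *ᵥ φ - ∑ f, t f • cnr f →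
        l2sq univ (Dm B *ᵥ φ - Dm (R.pw * B) *ᵥ φ) + ∑ f, t f ^ 2 ≤
          C * (√(l2sq univ φ) * √(l2sq univ F) + l2sq univ F)

variable {M : ℕ} [NeZero M]

omit [NeZero M] in
theorem pw_val (R : Reg M) (e : Tor M × Fin 2) : R.pw e = 0 ∨ R.pw e = 1 ∨ R.pw e = tT := by
  unfold Reg.pw
  split_ifs <;> simp

omit [NeZero M] in
theorem isW_mul (R : Reg M) {B : Gauge M} (hB : IsSign B) : IsW (R.pw * B) := by
  intro e
  have h1 := C.abs_sign hB e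
  have h2 := two_le_tT
  rw [Pi.mul_apply, abs_mul, h1, mul_one]
  rcases pw_val R e with h | h | h <;> rw [h]
  · simp
  · simp
  · exact Or.inr (Or.inr (abs_of_nonneg (by linarith)))

omit [NeZero M] in
theorem pw_out (R : Reg M) {e : Tor M × Fin 2} (h : R.pw e ≠ 1) : e.1 ∉ R.In ∨ oth e ∉ R.In := by
  by_contra hc
  rw [not_or, not_not, not_not] at hc
  apply h
  unfold Reg.pw
  simp [hc.1, hc.2]

theorem edge_bd (R : Reg M) {B : Gauge M} (hB : IsSign B) {x : Tor M} {e : Tor M × Fin 2}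
    (he : tdist e.1 x ≤ 1) (v u : ℝ) (hu : u ^ 2 = (tc * (1 - R.pw e) * (B e * v)) ^ 2) :
    u ^ 2 ≤ v ^ 2 ∧ (u ≠ 0 → ∃ f, f ∉ R.In ∧ tdist f x ≤ 2) := by
  constructor
  · have h1 : (tc * (1 - R.pw e)) ^ 2 ≤ 1 := by
      have h2 := E1.tc_sq
      have h3 := tc_mul_tT
      have h4 := C.tc_nonneg
      have h5 : tc ≤ 1 := by nlinarith
      rcases pw_val R e with h | h | h <;> rw [h]
      · linarith
      · simp
      · rw [mul_sub, h3]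
        nlinarith
    rw [hu, mul_pow, E1.sgn_sq (E4.sign_sq hB e)]
    exact mul_le_of_le_one_left (sq_nonneg _) h1
  · intro h0
    have h1 : R.pw e ≠ 1 := fun h => h0 (by
      rw [h, sub_self, mul_zero, zero_mul] at hu
      simpa using hu)
    rcases pw_out R h1 with h | h
    · exact ⟨_, h, by omega⟩
    · exact ⟨_, h, (E1.near_sub _ _ _).trans (by omega)⟩

theorem bb_pt (R : Reg M) {B : Gauge M} (hB : IsSign B) (φ : Tor M × Fin 4 → ℝ) (x : Tor M)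
    (a : Fin 4) : ∃ s : Tor M × Fin 4, tdist s.1 x ≤ 1 ∧
      (Dm B *ᵥ φ - Dm (R.pw * B) *ᵥ φ) (x, a) ^ 2 ≤ φ s ^ 2 ∧
      ((Dm B *ᵥ φ - Dm (R.pw * B) *ᵥ φ) (x, a) ≠ 0 → ∃ f, f ∉ R.In ∧ tdist f x ≤ 2) := by
  have h0 : tdist x x ≤ 1 := by rw [tdist_self]; omega
  have h1 : ∀ i, tdist (x - uv M i) x ≤ 1 := fun i => by
    simpa [tdist_self] using E1.near_sub x x i
  fin_cases a
  · refine ⟨(x + uv M 0, 2), tdist_uv _ _, edge_bd R hB (e := (x, 0)) h0 _ _ ?_⟩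
    simp only [Fin.zero_eta, Pi.sub_apply, E4.Dm0, Pi.mul_apply]
    ring
  · refine ⟨(x + uv M 1, 3), tdist_uv _ _, edge_bd R hB (e := (x, 1)) h0 _ _ ?_⟩
    simp only [Fin.mk_one, Pi.sub_apply, E4.Dm1, Pi.mul_apply]
    ring
  · refine ⟨(x - uv M 0, 0), h1 0, edge_bd R hB (e := (x - uv M 0, 0)) (h1 0) _ _ ?_⟩
    simp only [Fin.reduceFinMk, Pi.sub_apply, E4.Dm2, Pi.mul_apply]
    ring
  · refine ⟨(x - uv M 1, 1), h1 1, edge_bd R hB (e := (x - uv M 1, 1)) (h1 1) _ _ ?_⟩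
    simp only [Fin.reduceFinMk, Pi.sub_apply, E4.Dm3, Pi.mul_apply]
    ring

theorem sum_balls (k : ℕ) (F : Tor M × Fin 4 → ℝ) :
    ∑ x, l2sq (ball x k) F ≤ (2 * k + 1) ^ 2 * l2sq univ F := by
  unfold l2sq
  rw [sum_comm' (t' := univ) (s' := fun y => ball y k)
    (by intro x y; simp [E5.mem_ball, tdist_comm]), mul_sum]
  refine sum_le_sum fun y _ => ?_
  rw [sum_const, nsmul_eq_mul]
  exact mul_le_mul_of_nonneg_right (by exact_mod_cast card_ball_le y k)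
    (sum_nonneg fun _ _ => sq_nonneg _)

theorem src_apply (t : Tor M → ℝ) {s : Tor M × Fin 4} (h : t s.1 = 0) :
    (∑ f, t f • cnr f) s = 0 := by
  rw [Finset.sum_apply]
  refine sum_eq_zero fun f _ => ?_
  by_cases hf : s.1 = f
  · rw [← hf, h, zero_smul, Pi.zero_apply]
  · simp [cnr, hf]

theorem ext_F (hE : ExtS) : ∃ C : ℝ, 1 ≤ C ∧ ∀ (M : ℕ) [NeZero M] (R : Reg M) (B : Gauge M),
    IsSign B → (R.fr = true → ∀ f, flux B f = -1 → f ∈ R.In) →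
    ∀ (φ F : Tor M × Fin 4 → ℝ) (t : Tor M → ℝ),
      (∀ f, t f ≠ 0 → R.fr = true ∧ flux B f = -1) →
      F = Dm (R.pw * B) *ᵥ φ - ∑ f, t f • cnr f → ∀ x, (∀ f, tdist f x ≤ 1 → f ∉ R.In) →
        l2sq {x} φ ≤ C * l2sq (ball x 1) F := by
  obtain ⟨C, hC, h⟩ := hE
  refine ⟨C, hC, fun M _ R B hB hin φ F t ht hF x hx => ?_⟩
  refine (h M R B hB x (fun f hf => ⟨hx f hf, fun hfr =>
    E5.flux_one hB fun h' => hx f hf (hin hfr f h')⟩) φ).trans (le_of_eq ?_)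
  congr 1
  refine E5.l2sq_congr fun s hs => ?_
  rw [hF, Pi.sub_apply, src_apply, sub_zero]
  by_contra h0
  exact hx _ (E5.mem_ball.1 hs) (hin (ht _ h0).1 _ (ht _ h0).2)

omit [NeZero M] in
theorem sq_le_l2sq (φ : Tor M × Fin 4 → ℝ) (s : Tor M × Fin 4) : φ s ^ 2 ≤ l2sq {s.1} φ := by
  rw [l2sq, sum_singleton]
  exact single_le_sum (f := fun a => φ (s.1, a) ^ 2) (fun _ _ => sq_nonneg _) (mem_univ s.2)

open Classical in
theorem deep_le (R : Reg M) {B : Gauge M} (hB : IsSign B) {φ F : Tor M × Fin 4 → ℝ} {C : ℝ}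
    (hC : 0 ≤ C) (h : ∀ x, (∀ f, tdist f x ≤ 1 → f ∉ R.In) → l2sq {x} φ ≤ C * l2sq (ball x 1) F) :
    l2sq univ (fun s => if NearB R.In 2 s.1 then 0 else (Dm B *ᵥ φ - Dm (R.pw * B) *ᵥ φ) s) ≤
      100 * C * l2sq univ F := by
  have key : ∀ x a, (if NearB R.In 2 x then 0 else (Dm B *ᵥ φ - Dm (R.pw * B) *ᵥ φ) (x, a)) ^ 2 ≤
      C * l2sq (ball x 2) F := by
    intro x a
    have h0 : (0 : ℝ) ^ 2 ≤ C * l2sq (ball x 2) F := by
      simpa using mul_nonneg hC (E5.l2sq_nonneg _ _)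
    split_ifs with hx
    · exact h0
    · obtain ⟨s, hs, h1, h2⟩ := bb_pt R hB φ x a
      by_cases hz : (Dm B *ᵥ φ - Dm (R.pw * B) *ᵥ φ) (x, a) = 0
      · rwa [hz]
      · have h3 : ∀ f, tdist f s.1 ≤ 1 → tdist f x ≤ 2 := fun f hf =>
          (tdist_triangle f s.1 x).trans (by omega)
        refine h1.trans ((sq_le_l2sq φ s).trans ((h s.1 fun f hf hI =>
          hx ⟨⟨f, hI, h3 f hf⟩, h2 hz⟩).trans (mul_le_mul_of_nonneg_left ?_ hC)))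
        exact E5.l2sq_mono (fun f hf => E5.mem_ball.2 (h3 f (E5.mem_ball.1 hf))) F
  have h1 := mul_le_mul_of_nonneg_left (sum_balls 2 F) hC
  refine (sum_le_sum fun x _ => sum_le_sum fun a _ => key x a).trans ?_
  simp only [sum_const, card_univ, Fintype.card_fin, nsmul_eq_mul, ← mul_sum]
  push_cast at h1 ⊢
  linarith

theorem core_num {N E a Cr Cd W p₁ p₂ p₃ p₄ : ℝ} (hN : 0 ≤ N) (hE : 0 ≤ E) (ha : 1 ≤ a)
    (hr : 1 ≤ Cr) (hd : 1 ≤ Cd) (h : N = -(p₁ + p₂ + p₃ + p₄)) (h1 : p₁ ^ 2 ≤ E * (a ^ 2 * N))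
    (h2 : p₂ ^ 2 ≤ W * (a * N)) (h3 : p₃ ^ 2 ≤ W * (a * N)) (h4 : p₄ ^ 2 ≤ Cd * E * (a ^ 2 * N))
    (hW : W ≤ Cr * (√N * √E + E)) : N ≤ (2 * (1 + Cd + 4 * Cr) * a) ^ 2 * E := by
  obtain ⟨Z, hZ, rfl⟩ : ∃ Z, 0 ≤ Z ∧ N = Z ^ 2 := ⟨√N, Real.sqrt_nonneg _, (Real.sq_sqrt hN).symm⟩
  obtain ⟨f, hf, rfl⟩ : ∃ f, 0 ≤ f ∧ E = f ^ 2 := ⟨√E, Real.sqrt_nonneg _, (Real.sq_sqrt hE).symm⟩
  rw [Real.sqrt_sq hZ, Real.sqrt_sq hf] at hW
  have ha0 : 0 ≤ a := by linarith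
  have k1 : |p₁| ≤ a * f * Z := abs_le_of_sq_le_sq' (by linarith) (by positivity) |> abs_le.2
  have k4 : |p₄| ≤ Cd * (a * f * Z) := by
    refine abs_le.2 (abs_le_of_sq_le_sq' (h4.trans ?_) (by positivity))
    have : Cd * (a * f * Z) ^ 2 ≤ Cd ^ 2 * (a * f * Z) ^ 2 := by gcongr; nlinarith
    linarith
  have k0 : W * (a * Z ^ 2) ≤ ((Z / 4 + 2 * (a * Cr) * f) * Z) ^ 2 := by
    have c1 : 1 ≤ a * Cr := one_le_mul_of_one_le_of_one_le ha hr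
    have c2 : a * Cr * f ^ 2 ≤ 4 * (a * Cr) ^ 2 * f ^ 2 :=
      mul_le_mul_of_nonneg_right (by nlinarith) (sq_nonneg f)
    have c3 : a * W ≤ (Z / 4 + 2 * (a * Cr) * f) ^ 2 := by
      nlinarith [mul_le_mul_of_nonneg_left hW ha0, sq_nonneg Z]
    nlinarith [mul_le_mul_of_nonneg_right c3 (sq_nonneg Z)]
  have k2 := abs_le_of_sq_le_sq' (h2.trans k0) (by positivity)
  have k3 := abs_le_of_sq_le_sq' (h3.trans k0) (by positivity)
  have k5 : Z * Z ≤ 2 * (1 + Cd + 4 * Cr) * a * f * Z := by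
    nlinarith [(abs_le.1 k1).1, (abs_le.1 k4).1, k2.1, k3.1]
  rw [← mul_pow]
  rcases hZ.eq_or_lt with h0 | h0
  · rw [← h0]
    simpa using sq_nonneg _
  · exact pow_le_pow_left₀ hZ (le_of_mul_le_mul_right k5 h0) 2

theorem dot_anti (A : Gauge M) (φ g : Tor M × Fin 4 → ℝ) :
    φ ⬝ᵥ (Dm A *ᵥ g) = -((Dm A *ᵥ φ) ⬝ᵥ g) := by
  rw [dotProduct_mulVec, ← mulVec_transpose, E1.Dm_anti, neg_mulVec, neg_dotProduct]

/-- The duality argument. -/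
theorem core (hE : ExtS) (hR : RelS) : ∃ C : ℝ, 1 ≤ C ∧ ∀ (M : ℕ) [NeZero M] (R : Reg M)
    (B : Gauge M), IsSign B → 4 ≤ M → (R.fr = true → ∀ f, flux B f = -1 → ∀ f', tdist f' f ≤ 2 →
      f' ∈ R.In ∧ (f' ≠ f → flux B f' = 1)) →
    ∀ (φ F : Tor M × Fin 4 → ℝ) (t : Tor M → ℝ),
      (R.fr = true → ∀ f, flux B f = -1 → cnr f ⬝ᵥ φ = 0) →
      (∀ f, t f ≠ 0 → R.fr = true ∧ flux B f = -1) →
      F = Dm (R.pw * B) *ᵥ φ - ∑ f, t f • cnr f →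
      ∀ (g : Tor M × Fin 4 → ℝ) (a : ℝ) (X : Finset (Tor M)), 1 ≤ a →
        φ ⬝ᵥ (Dm B *ᵥ g) = l2sq univ φ → l2sq univ g ≤ a ^ 2 * l2sq univ φ →
        (∀ s : Tor M × Fin 4, NearB R.In 2 s.1 → s.1 ∉ X →
          (Dm B *ᵥ φ - Dm (R.pw * B) *ᵥ φ) s = 0) →
        l2sq X g ≤ a * l2sq univ φ →
        (∑ f, t f * (cnr f ⬝ᵥ g)) ^ 2 ≤ (∑ f, t f ^ 2) * (a * l2sq univ φ) →
          l2sq univ φ ≤ (C * a) ^ 2 * l2sq univ F := by
  classical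
  obtain ⟨Ce, hCe, he⟩ := ext_F hE
  obtain ⟨Cr, hCr, hr⟩ := hR
  refine ⟨2 * (1 + 100 * Ce + 4 * Cr), by linarith, ?_⟩
  intro M _ R B hB hM hfl φ F t hc ht hF g a X ha h1 h2 h3 h4 h5
  have hd := deep_le R hB (by linarith) (he M R B hB
    (fun hfr f hf => (hfl hfr f hf f (by rw [tdist_self]; omega)).1) φ F t ht hF)
  have hW := hr M R B hB hM hfl φ F t hc ht hF
  set b := Dm B *ᵥ φ - Dm (R.pw * B) *ᵥ φ with hb
  set b₂ : Tor M × Fin 4 → ℝ := fun s => if NearB R.In 2 s.1 then 0 else b s with hb₂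
  set b₁ : Tor M × Fin 4 → ℝ := fun s => if NearB R.In 2 s.1 then b s else 0 with hb₁
  have e1 : Dm B *ᵥ φ = F + b₁ + ∑ f, t f • cnr f + b₂ := by
    have e2 : b₁ + b₂ = b := funext fun s => by
      simp only [hb₁, hb₂, Pi.add_apply]
      split_ifs <;> simp
    rw [hF, add_right_comm, add_assoc _ b₁, e2, hb]
    abel
  have hN := E5.l2sq_nonneg univ φ
  have hb0 := E5.l2sq_nonneg univ b
  have ht0 : 0 ≤ ∑ f, t f ^ 2 := sum_nonneg fun _ _ => sq_nonneg _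
  have haN : 0 ≤ a * l2sq univ φ := by positivity
  have hb1 : l2sq univ b₁ ≤ l2sq univ b := sum_le_sum fun x _ => sum_le_sum fun c _ => by
    simp only [hb₁]
    split_ifs
    · exact le_rfl
    · simpa using sq_nonneg _
  refine core_num (W := l2sq univ b + ∑ f, t f ^ 2) (p₁ := F ⬝ᵥ g) (p₂ := b₁ ⬝ᵥ g)
    (p₃ := ∑ f, t f * (cnr f ⬝ᵥ g)) (p₄ := b₂ ⬝ᵥ g) hN (E5.l2sq_nonneg _ _) ha hCr (by linarith)
    ?_ ?_ ?_ ?_ ?_ hW
  · rw [← h1, dot_anti, e1, add_dotProduct, add_dotProduct, add_dotProduct, sum_dotProduct]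
    simp only [smul_dotProduct, smul_eq_mul]
  · exact (E5.dot_sq_le (B := univ) (by simp) g).trans
      (mul_le_mul_of_nonneg_left h2 (E5.l2sq_nonneg _ _))
  · refine (E5.dot_sq_le (B := X) (fun s hs => ?_) g).trans
      (mul_le_mul (by linarith) h4 (E5.l2sq_nonneg _ _) (by linarith))
    simp only [hb₁]
    split_ifs with h
    · exact h3 s h hs
    · rfl
  · exact h5.trans (mul_le_mul_of_nonneg_right (by linarith) haN)
  · exact (E5.dot_sq_le (B := univ) (by simp) g).trans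
      (mul_le_mul hd h2 (E5.l2sq_nonneg _ _)
        (mul_nonneg (by linarith) (E5.l2sq_nonneg _ _)))

/-- The test function. -/
theorem solve_cut : ∃ C : ℝ, 1 ≤ C ∧ ∀ (M : ℕ) [NeZero M] (B : Gauge M), IsSign B →
    ∀ (z : Tor M) (ρ w : ℕ) (κ : ℝ), 1 ≤ w → 0 ≤ κ →
    (∀ ζ, SuppIn ζ z (ρ + 1 + w) → l2sq univ ζ ≤ κ * l2sq univ (Dm B *ᵥ ζ)) →
    ∀ ζ, SuppIn ζ z ρ → ∃ g, SuppIn g z (ρ + 1 + w) ∧ ζ ⬝ᵥ (Dm B *ᵥ g) = l2sq univ ζ ∧
      l2sq univ g ≤ κ * l2sq univ ζ ∧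
      (w : ℝ) ^ 2 * l2sq univ (Dm B *ᵥ g) ≤ (2 * w ^ 2 + C * κ) * l2sq univ ζ := by
  obtain ⟨C, hC, hc⟩ := E5.cut_est
  refine ⟨2 * C, by linarith, fun M _ B hB z ρ w κ hw hκ h ζ hζ => ?_⟩
  have hN := E5.l2sq_nonneg univ ζ
  obtain ⟨g, hg1, hg2⟩ := exists_solve B (ball z (ρ + 1 + w)) ζ (c := κ * l2sq univ ζ)
    (by positivity) fun ζ' hζ' => by
      refine (E5.dot_sq_le (B := univ) (by simp) ζ').trans ?_
      have := mul_le_mul_of_nonneg_left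
        (h ζ' fun s hs => hζ' s fun hm => absurd (E5.mem_ball.1 hm) (by omega)) hN
      linarith
  obtain ⟨η, h0, h1, h2, h3⟩ := hc M B hB z (ρ + 1) w hw
  have e1 : (fun s => η s.1 * (Dm B *ᵥ g) s) = ζ := funext fun s => by
    by_cases hs : tdist s.1 z ≤ ρ + 1 + w
    · rw [hg2 s (E5.mem_ball.2 hs)]
      by_cases hs' : tdist s.1 z ≤ ρ
      · rw [h1 _ (by omega), one_mul]
      · rw [hζ s (by omega), mul_zero]
    · rw [h2 _ (by omega), hζ s (by omega), zero_mul]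
  refine ⟨fun s => η s.1 * g s, fun s hs => mul_eq_zero_of_left (h2 _ hs.le) _, ?_,
    (E5.l2sq_cut h0 (B := univ) (by simp) g).trans hg1, ?_⟩
  · rw [E1.l2sq_univ]
    refine sum_congr rfl fun s _ => ?_
    by_cases hs : tdist s.1 z ≤ ρ
    · have := Dm_local B (φ := fun s => η s.1 * g s) (φ' := g) (z := z) (r := ρ) 1
        (fun u hu => by rw [h1 _ hu, one_mul]) s hs
      rw [pow_one] at this
      rw [this, hg2 s (E5.mem_ball.2 (by omega))]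
    · rw [hζ s (by omega), zero_mul, zero_mul]
  · have h4 := h3 g
    rw [e1] at h4
    have h5 := E5.l2sq_add_le univ (Dm B *ᵥ (fun s => η s.1 * g s) - ζ) ζ
    rw [sub_add_cancel] at h5
    have h6 := mul_le_mul_of_nonneg_left ((E5.l2sq_le_univ (ball z (ρ + 1 + w)) g).trans hg1)
      (by linarith : 0 ≤ C)
    have h7 := mul_le_mul_of_nonneg_left h5 (sq_nonneg (w : ℝ))
    linarith

theorem flat_apr : ∃ C : ℝ, 1 ≤ C ∧ ∀ (M : ℕ) [NeZero M] (B : Gauge M), IsSign B →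
    (∀ f, flux B f = 1) → ∀ (z : Tor M) (ρ : ℕ), 2 * ρ + 3 ≤ M → ∀ ζ, SuppIn ζ z ρ →
      l2sq univ ζ ≤ C * ((ρ : ℝ) + 1) ^ 2 * l2sq univ (Dm B *ᵥ ζ) := by
  obtain ⟨Cb, hCb, hb⟩ := E5.energy_flat
  obtain ⟨Cp, hCp, hp⟩ := poin_supp
  refine ⟨Cp * Cb, one_le_mul_of_one_le_of_one_le hCp hCb, fun M _ B hB hF z ρ hM ζ hζ => ?_⟩
  refine (hp M B hB z ρ hM ζ hζ).trans ((mul_le_mul_of_nonneg_left (hb M B hB hF ζ)
    (by positivity)).trans (le_of_eq (by ring)))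

theorem sqrt_mul_le {x y u v N : ℝ} (hu : 0 ≤ u) (hv : 0 ≤ v) (hN : 0 ≤ N) (hx : x ≤ u ^ 2 * N)
    (hy : y ≤ v ^ 2 * N) : √x * √y ≤ u * v * N := by
  have h1 := Real.sqrt_le_sqrt hx
  have h2 := Real.sqrt_le_sqrt hy
  rw [Real.sqrt_mul (sq_nonneg _), Real.sqrt_sq hu] at h1
  rw [Real.sqrt_mul (sq_nonneg _), Real.sqrt_sq hv] at h2
  refine (mul_le_mul h1 h2 (Real.sqrt_nonneg _) (by positivity)).trans (le_of_eq ?_)
  linear_combination u * v * Real.mul_self_sqrt hN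

end Vale.Agent.P144Z.B3b
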