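import Vale.Agent.P144D.B.GapOf
import Vale.Agent.P144D.B.Ext
import Vale.Agent.P144D.B.Rel
import Vale.Agent.P144D.Geo.A
import Vale.Agent.P144D.Geo.B

/-!
# P144: coercivity and the spectral gap
-/

namespace Vale.Agent.P144Z

open Finset Matrix

/-- Coercivity. -/
theorem coercive : ∃ C : ℝ, 1 ≤ C ∧ ∀ (M : ℕ) [NeZero M] (R : Reg M) (B : Gauge M), IsSign B →
    ∀ (z : Tor M) (ρ N : ℕ), 8 ≤ ρ → 3 * ρ + 11 ≤ M → Flat B z (ρ + ρ / 2) →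
    TrB R.In z (ρ + 2) N → ∀ ζ, SuppIn ζ z ρ →
      l2sq univ ζ ≤ (C * (N + 1) * ρ) ^ 2 * l2sq univ (Dm (R.pw * B) *ᵥ ζ) :=
  B3b.coercive_of ext_est rellich

theorem gapStmt : GapStmt :=
  B3b.gap_of ext_est rellich
    (fun _ _ _ _ _ h hr _ _ hI hΛ hM z ρ => tr_global h hr hI hΛ hM z ρ)
    (fun _ _ _ _ _ _ _ h hB hM _ _ hz hρ => flat_near h hB hM hz hρ)

end Vale.Agent.P144Z
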