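import Vale.Agent.P144D.B.Dual

/-! Coercivity and the spectral gap from the Rellich inequality. -/

namespace Vale.Agent.P144Z.B3b

open Finset Matrix

variable {M : ℕ} [NeZero M]

theorem Dm_congr {A A' : Gauge M} {z : Tor M} {ρ : ℕ}
    (h : ∀ x i, tdist x z ≤ ρ + 1 → tdist (x + uv M i) z ≤ ρ + 1 → A (x, i) = A' (x, i))
    {ψ : Tor M × Fin 4 → ℝ} (hψ : SuppIn ψ z ρ) : Dm A *ᵥ ψ = Dm A' *ᵥ ψ := by
  have k1 : ∀ x i b, A (x, i) * ψ (x + uv M i, b) = A' (x, i) * ψ (x + uv M i, b) := by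
    intro x i b
    rcases lt_or_ge ρ (tdist (x + uv M i) z) with hx | hx
    · rw [hψ (x + uv M i, b) hx, mul_zero, mul_zero]
    · rw [h x i ((E1.near_add' x z i).trans (by omega)) (by omega)]
  have k2 : ∀ x i b, A (x, i) * ψ (x, b) = A' (x, i) * ψ (x, b) := by
    intro x i b
    rcases lt_or_ge ρ (tdist x z) with hx | hx
    · rw [hψ (x, b) hx, mul_zero, mul_zero]
    · rw [h x i (by omega) ((E1.near_add x z i).trans (by omega))]
  funext ⟨x, a⟩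
  rw [E5.Dm_apply, E5.Dm_apply, k1, k1, k2, k2]

theorem exists_flat {B : Gauge M} (hB : IsSign B) {z : Tor M} {r : ℕ} (hr : 2 * r + 3 ≤ M)
    (hF : Flat B z r) : ∃ B' : Gauge M, IsSign B' ∧ (∀ f, flux B' f = 1) ∧
      ∀ x i, tdist x z ≤ r → tdist (x + uv M i) z ≤ r → B (x, i) = B' (x, i) := by
  have hs := trans_sign hB z
  refine ⟨fun e => trans B z e.1 * trans B z (e.1 + uv M e.2),
    fun e => G.sign_mul (hs _) (hs _), fun f => ?_, fun x i hx hx' => ?_⟩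
  · simp only [flux]
    rw [add_right_comm f (uv M 1)]
    have h1 := E4.sign_sq hs f
    have h2 := E4.sign_sq hs (f + uv M 0)
    have h3 := E4.sign_sq hs (f + uv M 1)
    have h4 := E4.sign_sq hs (f + uv M 0 + uv M 1)
    generalize trans B z f = a at *
    generalize trans B z (f + uv M 0) = b at *
    generalize trans B z (f + uv M 1) = c at *
    generalize trans B z (f + uv M 0 + uv M 1) = d at *
    calc _ = (a * a) * (b * b) * (c * c) * (d * d) := by ring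
      _ = 1 := by rw [h1, h2, h3, h4]; norm_num
  · simp only
    rw [trans_gauge hB hr hF hx hx', ← mul_assoc, E4.sign_sq hs, one_mul]

theorem coer_flat (hE : ExtS) (hR : RelS) : ∃ C : ℝ, 1 ≤ C ∧ ∀ (M : ℕ) [NeZero M] (R : Reg M)
    (B : Gauge M), IsSign B → (∀ f, flux B f = 1) → ∀ (z : Tor M) (ρ N : ℕ), 8 ≤ ρ →
    3 * ρ + 11 ≤ M → TrB R.In z (ρ + 2) N → ∀ ζ, SuppIn ζ z ρ →
      l2sq univ ζ ≤ (C * (N + 1) * ρ) ^ 2 * l2sq univ (Dm (R.pw * B) *ᵥ ζ) := by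
  classical
  obtain ⟨Cc, hCc, hc⟩ := core hE hR
  obtain ⟨Cs, hCs, hs⟩ := solve_cut
  obtain ⟨K, hK, hk⟩ := flat_apr
  obtain ⟨Cb, hCb, hb⟩ := E5.energy_flat
  obtain ⟨Ct, hCt, ht⟩ := trace_est
  obtain ⟨K₁, hK₁, e1⟩ : ∃ K₁, 1 ≤ K₁ ∧ K₁ = Cb * (2 + 36 * Cs * K) :=
    ⟨_, one_le_mul_of_one_le_of_one_le hCb (by nlinarith), rfl⟩
  have c1 : 1 ≤ Ct * K₁ := one_le_mul_of_one_le_of_one_le hCt hK₁
  have c2 : 1 ≤ 2 * K * (Ct * K₁) := one_le_mul_of_one_le_of_one_le (by linarith) c1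
  refine ⟨Cc * (2 * K * (Ct * K₁)), one_le_mul_of_one_le_of_one_le hCc c2, ?_⟩
  intro M _ R B hB hF z ρ N hρ hM hT ζ hζ
  have hno : ∀ f, flux B f ≠ -1 := fun f h => by rw [hF f] at h; norm_num at h
  have hρ1 : (1 : ℝ) ≤ ρ := by exact_mod_cast (by omega : 1 ≤ ρ)
  obtain ⟨g, g1, g2, g3, g4⟩ := hs M B hB z ρ (ρ / 2) (K * (2 * ρ) ^ 2) (by omega) (by positivity)
    (fun ζ' h' => (hk M B hB hF z _ (by omega) ζ' h').trans (mul_le_mul_of_nonneg_right (by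
      have : ((ρ + 1 + ρ / 2 : ℕ) : ℝ) + 1 ≤ 2 * ρ := by
        exact_mod_cast (by omega : ρ + 1 + ρ / 2 + 1 ≤ 2 * ρ)
      gcongr) (E5.l2sq_nonneg _ _))) ζ hζ
  have hN := E5.l2sq_nonneg univ ζ
  have hw : (0 : ℝ) < (ρ / 2 : ℕ) := by exact_mod_cast (by omega : 0 < ρ / 2)
  have hw3 : (ρ : ℝ) ≤ 3 * (ρ / 2 : ℕ) := by exact_mod_cast (by omega : ρ ≤ 3 * (ρ / 2))
  have g5 : l2sq univ (Dm B *ᵥ g) ≤ (2 + 36 * Cs * K) * l2sq univ ζ := by
    refine le_of_mul_le_mul_left (g4.trans ?_) (pow_pos hw 2)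
    have : Cs * (K * (2 * ρ) ^ 2) ≤ Cs * (K * (2 * (3 * (ρ / 2 : ℕ))) ^ 2) := by gcongr
    nlinarith [mul_le_mul_of_nonneg_right this hN]
  have g6 : gradsq B univ g ≤ K₁ ^ 2 * l2sq univ ζ := by
    refine (hb M B hB hF g).trans ((mul_le_mul_of_nonneg_left g5 (by linarith)).trans ?_)
    rw [← mul_assoc, ← e1]
    exact mul_le_mul_of_nonneg_right (by nlinarith) hN
  have g7 : l2sq univ g ≤ (2 * K * ρ) ^ 2 * l2sq univ ζ := by
    refine g3.trans (mul_le_mul_of_nonneg_right ?_ hN)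
    nlinarith [mul_nonneg (mul_nonneg (sub_nonneg.2 hK) (by linarith : 0 ≤ K)) (sq_nonneg (ρ : ℝ))]
  have hN1 : (1 : ℝ) ≤ N + 1 := by linarith [(Nat.cast_nonneg N : (0 : ℝ) ≤ N)]
  have h := hc M R B hB (by omega) (fun _ f hf => absurd hf (hno f)) ζ _ 0
    (fun _ f hf => absurd hf (hno f)) (fun f hf => absurd rfl hf) rfl g
    (2 * K * (Ct * K₁) * (N + 1) * ρ) (univ.filter fun x => tdist x z ≤ ρ + 2 ∧ NearB R.In 2 x)
    (one_le_mul_of_one_le_of_one_le (one_le_mul_of_one_le_of_one_le c2 hN1) hρ1) g2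
    (g7.trans (mul_le_mul_of_nonneg_right (pow_le_pow_left₀ (by positivity) ?_ 2) hN))
    (fun s h1 h2 => ?_) ?_ (by simp)
  · simp only [Pi.zero_apply, zero_smul, sum_const_zero, sub_zero] at h
    exact h.trans (le_of_eq (by ring))
  · calc 2 * K * ρ = 2 * K * 1 * 1 * ρ := by ring
      _ ≤ _ := by gcongr
  · obtain ⟨u, u1, u2, -⟩ := bb_pt R hB ζ s.1 s.2
    have h3 : ¬ tdist s.1 z ≤ ρ + 2 := fun h => h2 (mem_filter.2 ⟨mem_univ _, h, h1⟩)
    have h4 := tdist_triangle s.1 u.1 z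
    rw [tdist_comm s.1 u.1] at h4
    rw [hζ u (by omega)] at u2
    exact pow_eq_zero_iff two_ne_zero |>.1 (le_antisymm (by simpa using u2) (sq_nonneg _))
  · refine (ht M R.In B hB z (ρ + 2) _ N (by omega) hT g g1 _
      fun x hx => (mem_filter.1 hx).2).trans ?_
    calc _ ≤ Ct * N * (2 * K * ρ * K₁ * l2sq univ ζ) := mul_le_mul_of_nonneg_left
          (sqrt_mul_le (by positivity) (by linarith) hN g7 g6) (by positivity)
      _ ≤ Ct * (N + 1) * (2 * K * ρ * K₁ * l2sq univ ζ) := by gcongr; linarith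
      _ = _ := by ring

theorem coercive_of (hE : ExtS) (hR : RelS) : ∃ C : ℝ, 1 ≤ C ∧ ∀ (M : ℕ) [NeZero M] (R : Reg M)
    (B : Gauge M), IsSign B → ∀ (z : Tor M) (ρ N : ℕ), 8 ≤ ρ → 3 * ρ + 11 ≤ M →
    Flat B z (ρ + ρ / 2) → TrB R.In z (ρ + 2) N → ∀ ζ, SuppIn ζ z ρ →
      l2sq univ ζ ≤ (C * (N + 1) * ρ) ^ 2 * l2sq univ (Dm (R.pw * B) *ᵥ ζ) := by
  obtain ⟨C, hC, h⟩ := coer_flat hE hR
  refine ⟨C, hC, fun M _ R B hB z ρ N hρ hM hF hT ζ hζ => ?_⟩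
  obtain ⟨B', h1, h2, h3⟩ := exists_flat hB (by omega) hF
  rw [Dm_congr (A' := R.pw * B') (fun x i hx hx' => by
    rw [Pi.mul_apply, Pi.mul_apply, h3 x i (by omega) (by omega)]) hζ]
  exact h M R B' h1 h2 z ρ N hρ hM hT ζ hζ

/-- A cut-off that vanishes on a set. -/
theorem exists_cut (S : Set (Tor M)) {w : ℕ} (hw : 1 ≤ w) : ∃ η : Tor M → ℝ,
    (∀ x, 0 ≤ η x ∧ η x ≤ 1) ∧ (∀ f ∈ S, η f = 0) ∧ (∀ x, (∀ f ∈ S, w ≤ tdist f x) → η x = 1) ∧
      ∀ x i, |η (x + uv M i) - η x| ≤ 1 / w := by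
  have w0 : (0 : ℝ) < w := by exact_mod_cast hw
  set n : Tor M → ℕ := fun x => sInf {k | k = w ∨ ∃ f ∈ S, k = tdist x f} with hn
  have h1 : ∀ x, n x ≤ w := fun x => Nat.sInf_le (Or.inl rfl)
  have h2 : ∀ x, ∀ f ∈ S, n x ≤ tdist x f := fun x f hf => Nat.sInf_le (Or.inr ⟨f, hf, rfl⟩)
  have h3 : ∀ x, n x = w ∨ ∃ f ∈ S, n x = tdist x f := fun x =>
    Nat.sInf_mem (s := {k | k = w ∨ ∃ f ∈ S, k = tdist x f}) ⟨w, Or.inl rfl⟩
  have h4 : ∀ x y, (∀ f, tdist x f ≤ tdist y f + 1) → (n x : ℝ) ≤ n y + 1 := fun x y h => by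
    have : n x ≤ n y + 1 := by
      rcases h3 y with e | ⟨f, hf, e⟩
      · have := h1 x
        omega
      · have := (h2 x f hf).trans (h f)
        omega
    exact_mod_cast this
  refine ⟨fun x => (n x : ℝ) / w, fun x => ⟨by positivity, ?_⟩, fun f hf => ?_, fun x hx => ?_,
    fun x i => ?_⟩
  · rw [div_le_one w0]
    exact_mod_cast h1 x
  · have := h2 f f hf
    rw [tdist_self, Nat.le_zero] at this
    simp [this]
  · have : n x = w := by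
      rcases h3 x with e | ⟨f, hf, e⟩
      · exact e
      · have := hx f hf
        have := h1 x
        rw [tdist_comm] at e
        omega
    simp only [this]
    exact div_self w0.ne'
  · rw [← sub_div, abs_div, abs_of_pos w0]
    refine div_le_div_of_nonneg_right (abs_le.2 ⟨?_, ?_⟩) w0.le
    · linarith [h4 x _ fun f => E1.near_add' x f i]
    · linarith [h4 _ x fun f => E1.near_add x f i]

theorem cluster_of {P B : Gauge M} {r T : ℕ} (h : Str P B r)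
    (hB : ∀ e, T < tdist e.1 0 → B e = 1) : Cluster B 1 0 (T + 1) r := by
  refine ⟨h.sign, fun _ => Or.inl rfl, fun f => by simp [flux], fun e he => hB e (by omega),
    fun f hf => ?_, h.sep⟩
  by_contra hc
  have h0 := E1.near_add' f 0 0
  have h1 := E1.near_add' f 0 1
  rw [flux, hB (f, 0) (by simp only; omega), hB (f, 1) (by simp only; omega),
    hB (f + uv M 0, 1) (by simp only; omega), hB (f + uv M 1, 0) (by simp only; omega)] at hf
  norm_num at hf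

theorem clus_apr (Λ : ℕ) : ∃ K : ℝ, 1 ≤ K ∧ ∀ (M : ℕ) [NeZero M] (B : Gauge M) (T r : ℕ),
    Cluster B 1 0 (T + 1) r → 256 ≤ r → r ≤ T → T ≤ Λ * r → 32 * T ≤ M →
    ∀ ζ, SuppIn ζ 0 (T + 1 + 1 + T) → l2sq univ ζ ≤ (K * T) ^ 2 * l2sq univ (Dm B *ᵥ ζ) := by
  obtain ⟨C, hC, hc⟩ := cluster_est (Λ + 1)
  obtain ⟨K, hK, hk⟩ := flat_apr
  refine ⟨4 * C + 3 * K, by linarith, fun M _ B T r h h1 h2 h3 h4 ζ hζ => ?_⟩
  have hE := E5.l2sq_nonneg univ (Dm B *ᵥ ζ)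
  have hN := E5.l2sq_nonneg univ ζ
  have hT : (256 : ℝ) ≤ T := by exact_mod_cast h1.trans h2
  by_cases hf : ∃ f, flux B f = -1
  · have h5 := hc M B 1 0 (T + 1) r h hf h1 (by omega) (by rw [add_mul]; omega) (by omega) ζ
    have h6 : l2sq univ ζ = l2sq (ball 0 (4 * (T + 1))) ζ :=
      (sum_subset (subset_univ _) fun x _ hx => sum_eq_zero fun a _ => by
        rw [E5.mem_ball] at hx
        rw [hζ (x, a) (by simp only; omega), zero_pow two_ne_zero]).symm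
    rw [← h6] at h5
    push_cast at h5
    generalize l2sq univ (Dm B *ᵥ ζ) = E at *
    generalize l2sq univ ζ = N at *
    have k1 : C * ((T + 1) * (√N * √E)) ≤ N / 2 + C ^ 2 * (T + 1) ^ 2 * E / 2 := by
      have k := sq_nonneg (√N - C * (T + 1) * √E)
      rw [sub_sq, mul_pow, mul_pow, Real.sq_sqrt hN, Real.sq_sqrt hE] at k
      linarith
    have k2 : N ≤ (2 * C + C ^ 2) * (T + 1) ^ 2 * E := by linarith
    calc N ≤ (2 * C) ^ 2 * (2 * T) ^ 2 * E := k2.trans (by gcongr <;> nlinarith)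
      _ = (4 * C * T) ^ 2 * E := by ring
      _ ≤ _ := by gcongr; linarith
  · refine (hk M B h.sign (fun f => E5.flux_one h.sign fun hf' => hf ⟨f, hf'⟩) 0 _ (by omega)
      ζ hζ).trans (mul_le_mul_of_nonneg_right ?_ hE)
    push_cast
    calc _ ≤ K ^ 2 * (3 * T) ^ 2 := by gcongr <;> nlinarith
      _ = (3 * K * T) ^ 2 := by ring
      _ ≤ _ := by gcongr; linarith

/-- The test function on a cluster of fluxes. -/
theorem test_fn (Λ : ℕ) : ∃ K : ℝ, 1 ≤ K ∧ ∀ (M : ℕ) [NeZero M] (B : Gauge M) (T r : ℕ),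
    Cluster B 1 0 (T + 1) r → 256 ≤ r → r ≤ T → T ≤ Λ * r → 32 * T ≤ M →
    ∀ ζ, SuppIn ζ 0 (T + 1) → ∃ g g' : Tor M × Fin 4 → ℝ, ζ ⬝ᵥ (Dm B *ᵥ g) = l2sq univ ζ ∧
      l2sq univ g ≤ (K * T) ^ 2 * l2sq univ ζ ∧
      (∀ t : Tor M → ℝ, (∀ f, t f ≠ 0 → flux B f = -1) →
        (∑ f, t f * (cnr f ⬝ᵥ g)) ^ 2 ≤ (∑ f, t f ^ 2) * (K * T * l2sq univ ζ)) ∧
      SuppIn g' 0 (T + 1 + 1 + T) ∧ √(l2sq univ g') * √(gradsq B univ g') ≤ K * T * l2sq univ ζ ∧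
      ∀ s : Tor M × Fin 4, Flat B s.1 (r / 2) → g s = g' s := by
  classical
  obtain ⟨K, hK, hk⟩ := clus_apr Λ
  obtain ⟨Cs, hCs, hs⟩ := solve_cut
  obtain ⟨Ca, hCa, ha⟩ := energy_a
  obtain ⟨Cb, hCb, hb⟩ := energy_b
  obtain ⟨Ch, hCh, hh⟩ := hardy_flux
  obtain ⟨Cc, hCc, hc⟩ := l2sq_cutoff
  obtain ⟨K₁, hK₁, e1⟩ : ∃ K₁, 1 ≤ K₁ ∧ K₁ = 2 + Cs * K ^ 2 := ⟨_, by nlinarith, rfl⟩
  obtain ⟨K₂, hK₂, e2⟩ : ∃ K₂, 0 ≤ K₂ ∧
    K₂ = (6 * (Λ + 1 : ℕ) + 1) ^ 2 * (16 * (Ch * (Ca * (K₁ + K * K₁)))) := ⟨_, by positivity, rfl⟩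
  obtain ⟨K₃, hK₃, e3⟩ : ∃ K₃, 1 ≤ K₃ ∧ K₃ = Cb * (2 * (Cc * (3 * Λ * K) ^ 2) + 2 * K₁) :=
    ⟨_, one_le_mul_of_one_le_of_one_le hCb (by
      linarith [mul_nonneg (zero_le_one.trans hCc) (sq_nonneg (3 * Λ * K))]), rfl⟩
  have hKK : 0 ≤ K * K₃ := by positivity
  refine ⟨K + K₂ + K * K₃, by linarith, fun M _ B T r h h1 h2 h3 h4 ζ hζ => ?_⟩
  have hB := h.sign
  have hN := E5.l2sq_nonneg univ ζ
  have hT : (1 : ℝ) ≤ T := by exact_mod_cast (by omega : 1 ≤ T)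
  obtain ⟨g, g1, g2, g3, g4⟩ := hs M B hB 0 (T + 1) T ((K * T) ^ 2) (by omega) (sq_nonneg _)
    (hk M B T r h h1 h2 h3 h4) ζ hζ
  have g5 : l2sq univ (Dm B *ᵥ g) ≤ K₁ * l2sq univ ζ :=
    le_of_mul_le_mul_left (g4.trans (le_of_eq (by rw [e1]; ring))) (by positivity : (0 : ℝ) < T ^ 2)
  have g6 : l2sq univ (Dm B *ᵥ g) ≤ K₁ ^ 2 * l2sq univ ζ :=
    g5.trans (mul_le_mul_of_nonneg_right (by nlinarith) hN)
  have g7 : gradsq B univ g ≤ Ca * (K₁ + K * K₁) * (T * l2sq univ ζ) := by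
    refine (ha M B hB g univ (by simp)).trans ?_
    have k1 := sqrt_mul_le (by positivity) (by linarith) hN
      ((E5.l2sq_le_univ (plus (plus univ)) g).trans g3) g6
    have k2 : K₁ * l2sq univ ζ ≤ K₁ * (T * l2sq univ ζ) :=
      mul_le_mul_of_nonneg_left (le_mul_of_one_le_left hN hT) (by linarith)
    rw [mul_assoc]
    exact mul_le_mul_of_nonneg_left (by linarith) (by linarith)
  obtain ⟨η, η1, η2, η3, η4⟩ := exists_cut {f | flux B f = -1} (w := r / 2) (by omega)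
  have g8 : l2sq univ (fun s => η s.1 * g s) ≤ (K * T) ^ 2 * l2sq univ ζ :=
    (E5.l2sq_cut η1 (B := univ) (by simp) g).trans g3
  refine ⟨g, fun s => η s.1 * g s, g2, g3.trans ?_, fun t ht => ?_,
    fun s hs => mul_eq_zero_of_right _ (g1 s hs), ?_, fun s hs => ?_⟩
  · gcongr
    linarith
  · have k1 : ∑ f, t f * (cnr f ⬝ᵥ g) =
        ∑ f ∈ univ.filter fun f => flux B f = -1, t f * (cnr f ⬝ᵥ g) :=
      (sum_subset (subset_univ _) fun f _ hf => by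
        rw [not_not.1 fun h0 => hf (mem_filter.2 ⟨mem_univ _, ht f h0⟩), zero_mul]).symm
    have k2 : ∀ f ∈ univ.filter fun f => flux B f = -1,
        (cnr f ⬝ᵥ g) ^ 2 ≤ 16 * (Ch * gradsq B univ g) := fun f hf => by
      have k : ∀ a, g (f, a) ^ 2 ≤ Ch * gradsq B univ g := fun a =>
        (hh M B hB f (mem_filter.1 hf).2 g a).trans
          (mul_le_mul_of_nonneg_left (E5.gradsq_le_univ _ _ _) (by linarith))
      rw [E5.cnr_dot]
      exact E5.four_sq (k 0) (k 1) (k 2) (k 3)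
    have k3 := sum_le_card_nsmul _ _ _ k2
    have k4 := E5.card_flux (Λ := Λ + 1) h h1 (by rw [add_mul]; omega)
    have k5 := E5.gradsq_nonneg B univ g
    rw [nsmul_eq_mul] at k3
    rw [k1]
    refine (sum_mul_sq_le_sq_mul_sq _ _ _).trans (mul_le_mul
      (sum_le_sum_of_subset_of_nonneg (subset_univ _) fun _ _ _ => sq_nonneg _) (k3.trans ?_)
      (sum_nonneg fun _ _ => sq_nonneg _) (sum_nonneg fun _ _ => sq_nonneg _))
    calc _ ≤ (6 * (Λ + 1 : ℕ) + 1) ^ 2 *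
          (16 * (Ch * (Ca * (K₁ + K * K₁) * (T * l2sq univ ζ)))) := by gcongr
      _ = K₂ * T * l2sq univ ζ := by rw [e2]; ring
      _ ≤ _ := by gcongr; linarith
  · have hw : (0 : ℝ) < (r / 2 : ℕ) := by exact_mod_cast (by omega : 0 < r / 2)
    have hw3 : (T : ℝ) ≤ 3 * Λ * (r / 2 : ℕ) := by
      have : T ≤ 3 * Λ * (r / 2) := by
        nlinarith [Nat.mul_le_mul_left Λ (by omega : r ≤ 3 * (r / 2))]
      exact_mod_cast this
    have k1 := hc M B hB η _ η4 univ (by simp) g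
    have k2 := E5.l2sq_add_le univ (Dm B *ᵥ (fun s => η s.1 * g s) -
      fun s => η s.1 * (Dm B *ᵥ g) s) fun s => η s.1 * (Dm B *ᵥ g) s
    rw [sub_add_cancel] at k2
    have k3 := (E5.l2sq_cut η1 (B := univ) (by simp) (Dm B *ᵥ g)).trans g5
    have k4 : Cc * (1 / (r / 2 : ℕ) : ℝ) ^ 2 * l2sq univ g ≤
        Cc * (3 * Λ * K) ^ 2 * l2sq univ ζ :=
      calc _ ≤ Cc * (1 / (r / 2 : ℕ) : ℝ) ^ 2 *
            ((K * (3 * Λ * (r / 2 : ℕ))) ^ 2 * l2sq univ ζ) := by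
            gcongr
            exact g3.trans (by gcongr)
        _ = _ := by field_simp
    have k5 := hb M B hB (fun s => η s.1 * g s) fun f hf => by
      rw [E5.cnr_dot]
      simp [η2 f hf]
    have k6 : gradsq B univ (fun s => η s.1 * g s) ≤ K₃ ^ 2 * l2sq univ ζ :=
      calc _ ≤ Cb * ((2 * (Cc * (3 * Λ * K) ^ 2) + 2 * K₁) * l2sq univ ζ) :=
            k5.trans (mul_le_mul_of_nonneg_left (by linarith) (by linarith))
        _ = K₃ * l2sq univ ζ := by rw [e3]; ring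
        _ ≤ _ := mul_le_mul_of_nonneg_right (by nlinarith) hN
    calc _ ≤ K * T * K₃ * l2sq univ ζ := sqrt_mul_le (by positivity) (by linarith) hN g8 k6
      _ = K * K₃ * T * l2sq univ ζ := by ring
      _ ≤ _ := by gcongr; linarith
  · beta_reduce
    rw [η3 s.1 fun f hf => ?_, one_mul]
    by_contra hlt
    have := (hs f (by omega)).symm.trans hf
    norm_num at this

/-- The global trace property. -/
def TrS : Prop := ∀ (M : ℕ) [NeZero M] (I : Finset (Tor M)) (α : ℝ) (r : ℕ),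
  Shape I α (1 / 8) r → 8 ≤ r → ∀ T Λ : ℕ, (∀ f ∈ I, tdist f 0 ≤ T) → T ≤ Λ * r →
    4 * (T + r) ≤ M → ∀ (z : Tor M) (ρ : ℕ), TrB I z ρ (100 * (Λ + 1))

/-- No flux near the boundary. -/
def FlS : Prop := ∀ (M : ℕ) [NeZero M] (R : Reg M) (B : Gauge M) (α : ℝ) (r : ℕ) (z : Tor M),
  Shape R.In α (1 / 8) r → Str R.pw B r → 2 * r + 1 ≤ M → ∀ d ρ : ℕ, NearB R.In d z →
    d + ρ + 4 ≤ r → Flat B z ρ

omit [NeZero M] in
theorem fl_in {R : Reg M} {B : Gauge M} {r : ℕ} (h : Str R.pw B r) (hr : 2 ≤ r)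
    (hfr : R.fr = true) (f : Tor M) (hf : flux B f = -1) (f' : Tor M) (hd : tdist f' f ≤ 2) :
    f' ∈ R.In ∧ (f' ≠ f → flux B f' = 1) := by
  have h2 := two_le_tT
  refine ⟨?_, fun hne => E5.flux_one h.sign fun h' => absurd (h.sep f' f h' hf hne) (by omega)⟩
  rcases h.fl f hf with h1 | h1 <;> have h3 := h1 (f', 0) (hd.trans hr) <;>
    simp only [Reg.pw, hfr, if_true] at h3 <;> split_ifs at h3 with h4
  · exact h4.1
  · linarith
  · exact h4.1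
  · linarith

theorem gap_of (hE : ExtS) (hR : RelS) (hT : TrS) (hF : FlS) : GapStmt := by
  classical
  intro Λ
  obtain ⟨Cc, hCc, hc⟩ := core hE hR
  obtain ⟨Ce, hCe, he⟩ := ext_F hE
  obtain ⟨Ct, hCt, ht⟩ := trace_est
  obtain ⟨K, hK, hk⟩ := test_fn Λ
  obtain ⟨Q, hQ, e1⟩ : ∃ Q : ℝ, 1 ≤ Q ∧ Q = Ct * (100 * (Λ + 1) : ℕ) :=
    ⟨_, one_le_mul_of_one_le_of_one_le hCt (by exact_mod_cast (by omega)), rfl⟩
  have c1 : 1 ≤ Q * K := one_le_mul_of_one_le_of_one_le hQ hK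
  obtain ⟨Γ, hΓ, e2⟩ : ∃ Γ : ℝ, 1 ≤ Γ ∧ Γ = 2 * (Cc * (Q * K)) ^ 2 * (2 + 288 * Ce) + 18 * Ce :=
    ⟨_, by
      have : 0 ≤ 2 * (Cc * (Q * K)) ^ 2 * (2 + 288 * Ce) := by positivity
      linarith, rfl⟩
  refine ⟨Γ, hΓ, fun M _ R B α T r hS hB hI hO h1 h2 h3 h4 φ t hφ htt => ?_⟩
  have hfl := fl_in hB (by omega)
  have hT1 : (1 : ℝ) ≤ T := by exact_mod_cast (by omega : 1 ≤ T)
  set F := Dm (R.pw * B) *ᵥ φ - ∑ f, t f • cnr f with hFd
  set ζ : Tor M × Fin 4 → ℝ := fun s => if tdist s.1 0 ≤ T + 1 then φ s else 0 with hζd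
  have hζ : SuppIn ζ 0 (T + 1) := fun s hs => if_neg (by omega)
  have hE0 := E5.l2sq_nonneg univ F
  have o1 : l2sq univ (φ - ζ) ≤ 9 * Ce * l2sq univ F := by
    have k1 := mul_le_mul_of_nonneg_left (sum_balls 1 F) (zero_le_one.trans hCe)
    rw [mul_sum] at k1
    refine (sum_le_sum fun x _ => ?_).trans (k1.trans (le_of_eq (by push_cast; ring)))
    by_cases hx : tdist x 0 ≤ T + 1
    · simpa [hζd, hx] using mul_nonneg (zero_le_one.trans hCe) (E5.l2sq_nonneg (ball x 1) F)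
    · have k2 := he M R B hB.sign
        (fun hfr f hf => (hfl hfr f hf f (by rw [tdist_self]; omega)).1) φ F t htt hFd x
        fun f hf hm => by
          have a1 := hI f hm
          have a2 := tdist_triangle x f 0
          rw [tdist_comm x f] at a2
          omega
      simpa [hζd, hx, l2sq] using k2
  have o2 : l2sq univ (Dm (R.pw * B) *ᵥ (φ - ζ)) ≤ 16 * l2sq univ (φ - ζ) := by
    rw [E1.l2sq_univ, E1.l2sq_univ]
    exact (W.isD_Dm (isW_mul R hB.sign)).le _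
  have o3 := E5.l2sq_sub_le univ F (Dm (R.pw * B) *ᵥ (φ - ζ))
  have o4 := E5.l2sq_add_le univ ζ (φ - ζ)
  rw [add_sub_cancel] at o4
  obtain ⟨g, g', g1, g2, g3, g4, g5, g6⟩ := hk M B T r (cluster_of hB hO) h1 h2 h3 h4 ζ hζ
  have hN := E5.l2sq_nonneg univ ζ
  have k0 : K * T ≤ Q * K * T :=
    mul_le_mul_of_nonneg_right (le_mul_of_one_le_left (by linarith) hQ) (by linarith)
  have h := hc M R B hB.sign (by omega) hfl ζ (F - Dm (R.pw * B) *ᵥ (φ - ζ)) t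
    (fun hfr f hf => ?_) htt (by rw [hFd, mulVec_sub]; abel) g (Q * K * T)
    (univ.filter fun x => NearB R.In 2 x) (one_le_mul_of_one_le_of_one_le c1 hT1) g1
    (g2.trans (by gcongr)) (fun s h1 h2 => absurd (mem_filter.2 ⟨mem_univ _, h1⟩) h2) ?_
    ((g3 t fun f hf => (htt f hf).2).trans (mul_le_mul_of_nonneg_left (by gcongr)
      (sum_nonneg fun _ _ => sq_nonneg _)))
  · have k1 : l2sq univ ζ ≤ (Cc * (Q * K * T)) ^ 2 * ((2 + 288 * Ce) * l2sq univ F) :=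
      h.trans (mul_le_mul_of_nonneg_left (by linarith) (sq_nonneg _))
    have k2 : 18 * Ce * l2sq univ F ≤ 18 * Ce * l2sq univ F * T ^ 2 :=
      le_mul_of_one_le_right (by positivity) (one_le_pow₀ hT1)
    calc _ ≤ Γ * T ^ 2 * l2sq univ F := by rw [e2]; linarith
      _ ≤ Γ ^ 2 * T ^ 2 * l2sq univ F := by gcongr; nlinarith
      _ = _ := by ring
  · have k1 := hI f (hfl hfr f hf f (by rw [tdist_self]; omega)).1
    rw [← hφ hfr f hf, E5.cnr_dot, E5.cnr_dot]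
    simp only [hζd, if_pos (k1.trans (Nat.le_succ T))]
  · rw [E5.l2sq_congr (g := g') fun s hs =>
      g6 s (hF M R B α r s.1 hS hB (by omega) 2 _ (mem_filter.1 hs).2 (by omega))]
    refine (ht M R.In B hB.sign 0 M _ _ (by omega)
      (hT M R.In α r hS (by omega) T Λ hI h3 (by omega) 0 M) g' g4 _ fun x hx =>
        ⟨by have := tdist_le x 0; omega, (mem_filter.1 hx).2⟩).trans ?_
    rw [← e1]
    exact (mul_le_mul_of_nonneg_left g5 (by linarith)).trans (le_of_eq (by ring))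

end Vale.Agent.P144Z.B3b
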