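import Vale.Agent.P144D.DefsB

/-!
Linear approximation of a subharmonic and superharmonic pair above a flat boundary.
-/

namespace Vale.Agent.P144Z

open Finset

namespace B1b

/-- The discrete Laplacian. -/
def lap (f : ℤ × ℤ → ℝ) (v : ℤ × ℤ) : ℝ := ∑ a, (f (v + st4 a) - f v)

/-- The maximum principle. -/
theorem maxp (Ω : Set (ℤ × ℤ)) (hΩ : Ω.Finite) (f : ℤ × ℤ → ℝ) (hs : ∀ v ∈ Ω, 0 ≤ lap f v)
    (hb : ∀ v ∈ Ω, ∀ a, v + st4 a ∉ Ω → f (v + st4 a) ≤ 0) : ∀ v ∈ Ω, f v ≤ 0 := by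
  intro v hv
  by_contra hpos
  push Not at hpos
  obtain ⟨x, hx, hmax⟩ := Set.exists_max_image Ω f hΩ ⟨v, hv⟩
  obtain ⟨y, ⟨hy, hyx⟩, hy1⟩ := Set.exists_max_image {y | y ∈ Ω ∧ f y = f x} (fun y => y.1)
    (hΩ.subset fun y hy => hy.1) ⟨x, hx, rfl⟩
  have hm : 0 < f y := by rw [hyx]; exact hpos.trans_le (hmax v hv)
  have hle : ∀ a ∈ (univ : Finset (Fin 4)), f (y + st4 a) - f y ≤ 0 := by
    intro a _
    by_cases h : y + st4 a ∈ Ω
    · have := hmax _ h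
      linarith
    · have := hb y hy a h
      linarith
  have h0 : ∑ a, (f (y + st4 a) - f y) = 0 := le_antisymm (sum_nonpos hle) (hs y hy)
  have h1 := (sum_eq_zero_iff_of_nonpos hle).1 h0 0 (mem_univ _)
  have h2 : y + st4 0 ∈ Ω := by
    by_contra h
    have := hb y hy 0 h
    linarith
  have h3 := hy1 (y + st4 0) ⟨h2, by linarith⟩
  simp [st4] at h3

theorem box_finite (n : ℕ) : {v : ℤ × ℤ | zd v 0 ≤ n}.Finite := by
  refine (Finset.Icc (-(n : ℤ)) n ×ˢ Finset.Icc (-(n : ℤ)) n).finite_toSet.subset fun v hv => ?_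
  simp only [Set.mem_ofPred_eq, zd, Prod.fst_zero, Prod.snd_zero, sub_zero] at hv
  simp only [coe_product, coe_Icc, Set.mem_prod, Set.mem_Icc]
  omega

theorem abs_le_zd (v : ℤ × ℤ) : |(v.1 : ℝ)| ≤ zd v 0 ∧ |(v.2 : ℝ)| ≤ zd v 0 := by
  have h : |v.1| ≤ (zd v 0 : ℤ) ∧ |v.2| ≤ (zd v 0 : ℤ) := by
    simp only [zd, Prod.fst_zero, Prod.snd_zero, sub_zero, abs_le]
    omega
  exact ⟨by exact_mod_cast h.1, by exact_mod_cast h.2⟩

theorem zd_sq_le (v : ℤ × ℤ) : (zd v 0 : ℝ) ^ 2 ≤ (v.1 : ℝ) ^ 2 + (v.2 : ℝ) ^ 2 := by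
  have h : (zd v 0 : ℤ) = |v.1| ∨ (zd v 0 : ℤ) = |v.2| := by
    simp only [zd, Prod.fst_zero, Prod.snd_zero, sub_zero, ← Int.natCast_natAbs]
    omega
  rcases h with h | h
  · have : (zd v 0 : ℝ) = |(v.1 : ℝ)| := by exact_mod_cast h
    rw [this, sq_abs]
    nlinarith [sq_nonneg (v.2 : ℝ)]
  · have : (zd v 0 : ℝ) = |(v.2 : ℝ)| := by exact_mod_cast h
    rw [this, sq_abs]
    nlinarith [sq_nonneg (v.1 : ℝ)]

theorem zd_add (v p : ℤ × ℤ) : zd (v + p) 0 ≤ zd v 0 + zd p 0 := by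
  simp only [zd, Prod.fst_zero, Prod.snd_zero, sub_zero, Prod.fst_add, Prod.snd_add]
  omega

theorem zd_sub (v p : ℤ × ℤ) : zd (v - p) 0 ≤ zd v 0 + zd p 0 := by
  simp only [zd, Prod.fst_zero, Prod.snd_zero, sub_zero, Prod.fst_sub, Prod.snd_sub]
  omega

theorem zd_st4 (v : ℤ × ℤ) (a : Fin 4) : zd (v + st4 a) 0 ≤ zd v 0 + 1 := by
  refine (zd_add v _).trans (Nat.add_le_add_left ?_ _)
  fin_cases a <;> simp [zd, st4]

theorem ht_add (ν : ℂ) (v p : ℤ × ℤ) : ht ν (v + p) = ht ν v + ht ν p := by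
  simp only [ht, Prod.fst_add, Prod.snd_add, Int.cast_add]
  ring

theorem ht_sub (ν : ℂ) (v p : ℤ × ℤ) : ht ν (v - p) = ht ν v - ht ν p := by
  simp only [ht, Prod.fst_sub, Prod.snd_sub, Int.cast_sub]
  ring

variable {ν : ℂ}

theorem sq_one (hν : ‖ν‖ = 1) : ν.re ^ 2 + ν.im ^ 2 = 1 := by
  have h := Complex.sq_norm ν
  rw [hν, Complex.normSq_apply] at h
  nlinarith

theorem ht_sq_le (hν : ‖ν‖ = 1) (v : ℤ × ℤ) : ht ν v ^ 2 ≤ (v.1 : ℝ) ^ 2 + (v.2 : ℝ) ^ 2 := by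
  have h := sq_one hν
  have : (v.1 : ℝ) ^ 2 + (v.2 : ℝ) ^ 2 =
      ht ν v ^ 2 + (v.2 * ν.re - v.1 * ν.im) ^ 2 := by
    unfold ht
    linear_combination (-(v.1 : ℝ) ^ 2 - (v.2 : ℝ) ^ 2) * h
  nlinarith [sq_nonneg (v.2 * ν.re - v.1 * ν.im)]

theorem abs_ht_le (hν : ‖ν‖ = 1) (v : ℤ × ℤ) : |ht ν v| ≤ 2 * zd v 0 := by
  have h := ht_sq_le hν v
  obtain ⟨h1, h2⟩ := abs_le_zd v
  have h3 := sq_le_sq' (abs_le.1 h1).1 (abs_le.1 h1).2
  have h4 := sq_le_sq' (abs_le.1 h2).1 (abs_le.1 h2).2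
  refine abs_le_of_sq_le_sq ?_ (by positivity)
  nlinarith [sq_nonneg (zd v 0 : ℝ)]

theorem abs_ht_st4 (hν : ‖ν‖ = 1) (a : Fin 4) : |ht ν (st4 a)| ≤ 1 := by
  have h := ht_sq_le hν (st4 a)
  refine abs_le_of_sq_le_sq (h.trans ?_) zero_le_one
  fin_cases a <;> simp [st4]

/-- The quadratic barriers are harmonic. -/
theorem lap_bar (hν : ‖ν‖ = 1) (f : ℤ × ℤ → ℝ) (A B D S c c' x y E : ℝ) (v : ℤ × ℤ) :
    lap (fun v => A * (f v - E) - S * (D + B * ht ν v + ((v.1 - x) ^ 2 + (v.2 - y) ^ 2 -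
      (ht ν v - c) ^ 2 - (ht ν v - c') ^ 2))) v = A * lap f v := by
  have h := sq_one hν
  simp only [lap, Fin.sum_univ_four, ht_add]
  simp only [st4, ht, Matrix.cons_val_zero, Matrix.cons_val_one, Matrix.cons_val_two,
    Matrix.cons_val_three, Matrix.tail_cons, Matrix.head_cons, Prod.fst_add, Prod.snd_add]
  push_cast
  linear_combination (4 * S) * h

/-- The barrier in a half square. -/
theorem bar1 (hν : ‖ν‖ = 1) {R : ℕ} {c E S : ℝ} (hc : 0 ≤ c) (hE : 0 ≤ E) (hS : 0 ≤ S)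
    (f : ℤ × ℤ → ℝ) (hs : ∀ v, zd v 0 < R → c + 1 ≤ ht ν v → 0 ≤ lap f v)
    (h1 : ∀ v, zd v 0 ≤ R → c ≤ ht ν v → ht ν v < c + 1 → f v ≤ E)
    (h2 : ∀ v, zd v 0 = R → c + 1 ≤ ht ν v → f v ≤ S) {y : ℤ × ℤ} (hR : 0 < R)
    (hy : 4 * zd y 0 ≤ R) (hy' : c + 1 ≤ ht ν y) : f y ≤ E + 16 * S * (ht ν y - c) / R := by
  have hR' : (0 : ℝ) < R := by exact_mod_cast hR
  have hy4 : (4 : ℝ) * zd y 0 ≤ R := by exact_mod_cast hy
  have hty := (abs_le.1 (abs_ht_le hν y)).2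
  have key := maxp {v | zd v 0 < R ∧ c + 1 ≤ ht ν v} ((box_finite R).subset fun v hv => hv.1.le)
    (fun v => (R : ℝ) ^ 2 / 4 * (f v - E) - S * (-(4 * R * c) + 4 * R * ht ν v +
      ((v.1 - y.1) ^ 2 + (v.2 - y.2) ^ 2 - (ht ν v - ht ν y) ^ 2 - (ht ν v - c) ^ 2)))
    (fun v hv => by
      rw [lap_bar hν]
      exact mul_nonneg (by positivity) (hs v hv.1 hv.2))
    (fun v hv a hn => by
      have hz : zd (v + st4 a) 0 ≤ R := (zd_st4 v a).trans hv.1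
      have hc' : c ≤ ht ν (v + st4 a) := by
        have := (abs_le.1 (abs_ht_st4 hν a)).1
        have := hv.2
        rw [ht_add]
        linarith
      generalize v + st4 a = x at hz hc' hn
      have hz' : (zd x 0 : ℝ) ≤ R := by exact_mod_cast hz
      have htx := (abs_le.1 (abs_ht_le hν x)).2
      have hτ : 0 ≤ (ht ν x - c) * (2 * R - (ht ν x - c)) :=
        mul_nonneg (by linarith) (by linarith)
      by_cases hb : ht ν x < c + 1
      · have e1 := h1 x hz hc' hb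
        have e2 := ht_sq_le hν (x - y)
        rw [ht_sub] at e2
        simp only [Prod.fst_sub, Prod.snd_sub, Int.cast_sub] at e2
        have e3 : 0 ≤ -(4 * R * c) + 4 * R * ht ν x + ((x.1 - y.1 : ℝ) ^ 2 + (x.2 - y.2 : ℝ) ^ 2 -
            (ht ν x - ht ν y) ^ 2 - (ht ν x - c) ^ 2) := by
          nlinarith [mul_nonneg hR'.le (sub_nonneg.2 hc')]
        have e4 := mul_nonneg hS e3
        have e5 : (R : ℝ) ^ 2 / 4 * (f x - E) ≤ 0 :=
          mul_nonpos_of_nonneg_of_nonpos (by positivity) (by linarith)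
        linarith
      · push Not at hb
        have hx : zd x 0 = R := by
          by_contra h
          exact hn ⟨lt_of_le_of_ne hz h, hb⟩
        have e1 := h2 x hx hb
        have e2 := zd_sq_le (x - y)
        simp only [Prod.fst_sub, Prod.snd_sub, Int.cast_sub] at e2
        have e6 : (R : ℝ) ≤ zd (x - y) 0 + zd y 0 := by
          have := zd_add (x - y) y
          rw [sub_add_cancel, hx] at this
          exact_mod_cast this
        have e7 : (3 * R / 4 : ℝ) ^ 2 ≤ (zd (x - y) 0 : ℝ) ^ 2 :=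
          pow_le_pow_left₀ (by positivity) (by linarith) 2
        have e8 : (ht ν y - c) ^ 2 ≤ (R / 2 : ℝ) ^ 2 :=
          pow_le_pow_left₀ (by linarith) (by linarith) 2
        have e9 : 0 ≤ (ht ν x - c) * (ht ν y - c) := mul_nonneg (by linarith) (by linarith)
        have e3 : (R : ℝ) ^ 2 / 4 ≤ -(4 * R * c) + 4 * R * ht ν x + ((x.1 - y.1 : ℝ) ^ 2 +
            (x.2 - y.2 : ℝ) ^ 2 - (ht ν x - ht ν y) ^ 2 - (ht ν x - c) ^ 2) := by
          nlinarith [sq_nonneg (R : ℝ)]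
        have e4 := mul_le_mul_of_nonneg_left e3 hS
        have e5 : (R : ℝ) ^ 2 / 4 * (f x - E) ≤ (R : ℝ) ^ 2 / 4 * S :=
          mul_le_mul_of_nonneg_left (by linarith) (by positivity)
        linarith)
    y ⟨by omega, hy'⟩
  simp only [sub_self] at key
  have h3 := mul_nonneg hS (sq_nonneg (ht ν y - c))
  rw [← sub_le_iff_le_add', le_div_iff₀ hR']
  refine le_of_mul_le_mul_left ?_ (show (0 : ℝ) < R / 4 by positivity)
  nlinarith

/-- The barrier in a thin rectangle. -/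
theorem bar2 (hν : ‖ν‖ = 1) {W : ℕ} {c T E S : ℝ} (hc : 0 ≤ c) (_hT : 0 ≤ T) (hE : 0 ≤ E)
    (hS : 0 ≤ S) (f : ℤ × ℤ → ℝ)
    (hs : ∀ v, zd v 0 < W → c ≤ ht ν v → ht ν v < T → 0 ≤ lap f v)
    (h1 : ∀ v, zd v 0 ≤ W → c - 1 ≤ ht ν v → ht ν v < c → f v ≤ E)
    (h2 : ∀ v, zd v 0 ≤ W → T ≤ ht ν v → ht ν v ≤ T + 1 → f v ≤ E)
    (h3 : ∀ v, zd v 0 = W → c ≤ ht ν v → ht ν v < T → f v ≤ S) {y : ℤ × ℤ}
    (hy : zd y 0 < W) (hy1 : c ≤ ht ν y) (hy2 : ht ν y < T) :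
    f y ≤ E + S * (2 * (zd y 0 : ℝ) ^ 2 + 2 * (T + 1) ^ 2) / W ^ 2 := by
  have hW : (0 : ℝ) < W := by exact_mod_cast (Nat.zero_le _).trans_lt hy
  have key := maxp {v | zd v 0 < W ∧ c ≤ ht ν v ∧ ht ν v < T}
    ((box_finite W).subset fun v hv => hv.1.le)
    (fun v => (W : ℝ) ^ 2 * (f v - E) - S * (2 * (T + 1) ^ 2 + 0 * ht ν v +
      ((v.1 - 0) ^ 2 + (v.2 - 0) ^ 2 - (ht ν v - 0) ^ 2 - (ht ν v - 0) ^ 2)))
    (fun v hv => by
      rw [lap_bar hν]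
      exact mul_nonneg (by positivity) (hs v hv.1 hv.2.1 hv.2.2))
    (fun v hv a hn => by
      have hz : zd (v + st4 a) 0 ≤ W := (zd_st4 v a).trans hv.1
      have hc' : c - 1 ≤ ht ν (v + st4 a) ∧ ht ν (v + st4 a) ≤ T + 1 := by
        have := abs_le.1 (abs_ht_st4 hν a)
        have := hv.2
        rw [ht_add]
        constructor <;> linarith [this.1, this.2]
      generalize v + st4 a = x at hz hc' hn
      have hτ : ht ν x ^ 2 ≤ (T + 1) ^ 2 := sq_le_sq' (by linarith [hc'.1]) hc'.2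
      have e2 := zd_sq_le x
      by_cases hb : f x ≤ E
      · have e3 : 0 ≤ 2 * (T + 1) ^ 2 + 0 * ht ν x + (((x.1 : ℝ) - 0) ^ 2 + ((x.2 : ℝ) - 0) ^ 2 -
            (ht ν x - 0) ^ 2 - (ht ν x - 0) ^ 2) := by
          nlinarith [sq_nonneg (zd x 0 : ℝ)]
        have e4 := mul_nonneg hS e3
        have e5 : (W : ℝ) ^ 2 * (f x - E) ≤ 0 :=
          mul_nonpos_of_nonneg_of_nonpos (by positivity) (by linarith)
        linarith
      · have b1 : c ≤ ht ν x := by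
          by_contra h
          exact hb (h1 x hz hc'.1 (not_le.1 h))
        have b2 : ht ν x < T := by
          by_contra h
          exact hb (h2 x hz (not_lt.1 h) hc'.2)
        have hx : zd x 0 = W := by
          by_contra h
          exact hn ⟨lt_of_le_of_ne hz h, b1, b2⟩
        have e1 := h3 x hx b1 b2
        rw [hx] at e2
        have e3 : (W : ℝ) ^ 2 ≤ 2 * (T + 1) ^ 2 + 0 * ht ν x + (((x.1 : ℝ) - 0) ^ 2 +
            ((x.2 : ℝ) - 0) ^ 2 - (ht ν x - 0) ^ 2 - (ht ν x - 0) ^ 2) := by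
          nlinarith
        have e4 := mul_le_mul_of_nonneg_left e3 hS
        have e5 : (W : ℝ) ^ 2 * (f x - E) ≤ (W : ℝ) ^ 2 * S :=
          mul_le_mul_of_nonneg_left (by linarith) (by positivity)
        linarith)
    y ⟨hy, hy1, hy2⟩
  obtain ⟨a1, a2⟩ := abs_le_zd y
  have a3 := sq_le_sq' (abs_le.1 a1).1 (abs_le.1 a1).2
  have a4 := sq_le_sq' (abs_le.1 a2).1 (abs_le.1 a2).2
  have a5 : 2 * (T + 1) ^ 2 + 0 * ht ν y + (((y.1 : ℝ) - 0) ^ 2 + ((y.2 : ℝ) - 0) ^ 2 -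
      (ht ν y - 0) ^ 2 - (ht ν y - 0) ^ 2) ≤ 2 * (zd y 0 : ℝ) ^ 2 + 2 * (T + 1) ^ 2 := by
    nlinarith [sq_nonneg (ht ν y)]
  have a6 := mul_le_mul_of_nonneg_left a5 hS
  rw [← sub_le_iff_le_add', le_div_iff₀ (by positivity)]
  linarith

/-- Two neighbours share a corner. -/
theorem corner (v : ℤ × ℤ) (a : Fin 4) : ∃ k k', v + st4 a - cn k' = v - cn k := by
  fin_cases a
  · exact ⟨0, 1, by ext <;> simp [st4, cn]⟩
  · exact ⟨0, 3, by ext <;> simp [st4, cn]⟩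
  · exact ⟨1, 0, by ext <;> simp [st4, cn, sub_eq_add_neg]⟩
  · exact ⟨3, 0, by ext <;> simp [st4, cn, sub_eq_add_neg]⟩

theorem zd_le_iff (v : ℤ × ℤ) (n : ℕ) :
    zd v 0 ≤ n ↔ (-(n : ℤ) ≤ v.1 ∧ v.1 ≤ n) ∧ -(n : ℤ) ≤ v.2 ∧ v.2 ≤ n := by
  simp only [zd, Prod.fst_zero, Prod.snd_zero, sub_zero]
  omega

theorem step (ρ : ℕ) (x y : ℤ × ℤ) (n : ℕ) (hx : zd x 0 ≤ ρ) (hy : zd y 0 ≤ ρ)
    (h : (x.1 - y.1).natAbs + (x.2 - y.2).natAbs = n + 1) : ∃ a b, st4 b = -st4 a ∧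
      zd (x + st4 a) 0 ≤ ρ ∧ zd (y + st4 b) 0 ≤ ρ ∧
      ((x + st4 a).1 - y.1).natAbs + ((x + st4 a).2 - y.2).natAbs = n ∧
      (x.1 - (y + st4 b).1).natAbs + (x.2 - (y + st4 b).2).natAbs = n := by
  have s0 : st4 0 = (1, 0) := rfl
  have s1 : st4 1 = (0, 1) := rfl
  have s2 : st4 2 = (-1, 0) := rfl
  have s3 : st4 3 = (0, -1) := rfl
  simp only [zd_le_iff] at hx hy ⊢
  rcases lt_trichotomy x.1 y.1 with h1 | h1 | h1
  · refine ⟨0, 2, rfl, ?_⟩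
    simp only [s0, s2, Prod.fst_add, Prod.snd_add]
    refine ⟨?_, ?_, ?_, ?_⟩ <;> omega
  · rcases lt_trichotomy x.2 y.2 with h2 | h2 | h2
    · refine ⟨1, 3, rfl, ?_⟩
      simp only [s1, s3, Prod.fst_add, Prod.snd_add]
      refine ⟨?_, ?_, ?_, ?_⟩ <;> omega
    · omega
    · refine ⟨3, 1, rfl, ?_⟩
      simp only [s1, s3, Prod.fst_add, Prod.snd_add]
      refine ⟨?_, ?_, ?_, ?_⟩ <;> omega
  · refine ⟨2, 0, rfl, ?_⟩
    simp only [s0, s2, Prod.fst_add, Prod.snd_add]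
    refine ⟨?_, ?_, ?_, ?_⟩ <;> omega

/-- The Lipschitz bound along a staircase in the half square. -/
theorem path (ν : ℂ) (ρ : ℕ) (c μ : ℝ) (u : ℤ × ℤ → ℝ)
    (hL : ∀ v a, zd v 0 ≤ ρ → c ≤ ht ν v → zd (v + st4 a) 0 ≤ ρ → c ≤ ht ν (v + st4 a) →
      |u (v + st4 a) - u v| ≤ μ) (n : ℕ) : ∀ x y : ℤ × ℤ, zd x 0 ≤ ρ → c ≤ ht ν x → zd y 0 ≤ ρ →
    c ≤ ht ν y → (x.1 - y.1).natAbs + (x.2 - y.2).natAbs = n → u x - u y ≤ μ * n := by
  induction n with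
  | zero =>
    intro x y _ _ _ _ h
    have : x = y := Prod.ext (by omega) (by omega)
    simp [this]
  | succ n ih =>
    intro x y hx hx' hy hy' h
    obtain ⟨a, b, hab, h1, h2, h3, h4⟩ := step ρ x y n hx hy h
    have e : ht ν (st4 b) = -ht ν (st4 a) := by
      rw [hab]
      simp only [ht, Prod.fst_neg, Prod.snd_neg, Int.cast_neg]
      ring
    push_cast
    rcases le_total 0 (ht ν (st4 a)) with h5 | h5
    · have h6 : c ≤ ht ν (x + st4 a) := by rw [ht_add]; linarith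
      have h7 := ih _ _ h1 h6 hy hy' h3
      have h8 := (abs_le.1 (hL x a hx hx' h1 h6)).1
      linarith
    · have h6 : c ≤ ht ν (y + st4 b) := by rw [ht_add]; linarith
      have h7 := ih _ _ hx hx' h2 h6 h4
      have h8 := (abs_le.1 (hL y b hy hy' h2 h6)).2
      linarith

/-- The translation trick. -/
theorem shift (hν : ‖ν‖ = 1) {ρ W : ℕ} {u w : ℤ × ℤ → ℝ} {t₀ μ : ℝ} (hW : 1 ≤ W)
    (hρ : 16 * W ≤ ρ) (ht₀ : 0 ≤ t₀) (hμ : 0 ≤ μ)
    (H1 : ∀ v, zd v 0 ≤ ρ → t₀ ≤ ht ν v → 0 ≤ ∑ a, (u (v + st4 a) - u v) ∧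
      ∑ a, (w (v + st4 a) - w v) ≤ 0 ∧ ∀ k, w (v - cn k) ≤ u v ∧ u v ≤ w (v - cn k) + μ)
    (H2 : ∀ v, zd v 0 ≤ ρ + 1 →
      |u v| ≤ μ * (|ht ν v| + t₀ + 1) ∧ |w v| ≤ μ * (|ht ν v| + t₀ + 1))
    {x y : ℤ × ℤ} (hx : zd x 0 ≤ W) (hy : zd y 0 ≤ W) (hxy : |ht ν x - ht ν y| ≤ 1)
    (hy' : t₀ + 1 ≤ ht ν y) : u x - w y ≤ 5 * μ * (t₀ + 1) + 100 * μ * (W * ht ν y / ρ) := by
  obtain ⟨p, rfl⟩ : ∃ p, x = y + p := ⟨x - y, by abel⟩
  have hp : zd p 0 ≤ 2 * W := by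
    have := zd_sub (y + p) y
    rw [add_sub_cancel_left] at this
    omega
  rw [ht_add, add_sub_cancel_left, abs_le] at hxy
  obtain ⟨R, hR⟩ : ∃ R, ρ = R + 2 * W := ⟨ρ - 2 * W, by omega⟩
  have hz : ∀ v, zd v 0 ≤ R → zd (v + p) 0 ≤ ρ := fun v hv => (zd_add v p).trans (by omega)
  have hW' : (1 : ℝ) ≤ W := by exact_mod_cast hW
  have hL : ∀ v a, zd v 0 ≤ ρ → t₀ ≤ ht ν v → zd (v + st4 a) 0 ≤ ρ → t₀ ≤ ht ν (v + st4 a) →
      |u (v + st4 a) - u v| ≤ μ := by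
    intro v a h1 h2 h3 h4
    obtain ⟨k, k', e⟩ := corner v a
    have e1 := (H1 v h1 h2).2.2 k
    have e2 := (H1 _ h3 h4).2.2 k'
    rw [e] at e2
    rw [abs_le]
    constructor <;> linarith [e1.1, e1.2, e2.1, e2.2]
  have key := bar1 hν (R := R) (E := 5 * μ * (t₀ + 1)) (S := 5 * μ * W) ht₀ (by positivity)
    (by positivity) (fun v => u (v + p) - w v)
    (fun v h1 h2 => by
      have e1 := (H1 (v + p) (hz v h1.le) (by rw [ht_add]; linarith [hxy.1])).1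
      have e2 := (H1 v (by omega) (by linarith)).2.1
      simp only [lap, Fin.sum_univ_four, add_right_comm v _ p] at e1 e2 ⊢
      linarith)
    (fun v h1 h2 h3 => by
      have e1 := (abs_le.1 (H2 (v + p) ((hz v h1).trans (by omega))).1).2
      have e2 := (abs_le.1 (H2 v (by omega)).2).1
      have e3 : |ht ν (v + p)| ≤ t₀ + 2 := by
        rw [ht_add, abs_le]
        constructor <;> linarith [hxy.1, hxy.2]
      have e4 : |ht ν v| ≤ t₀ + 1 := by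
        rw [abs_le]
        constructor <;> linarith
      have e5 := mul_le_mul_of_nonneg_left e3 hμ
      have e6 := mul_le_mul_of_nonneg_left e4 hμ
      have e7 := mul_nonneg hμ ht₀
      linarith)
    (fun v h1 h2 => by
      have e1 := path ν ρ t₀ μ u hL _ (v + p) v (hz v h1.le) (by rw [ht_add]; linarith [hxy.1])
        (by omega) (by linarith) rfl
      have e2 := ((H1 v (by omega) (by linarith)).2.2 0).2
      have e3 : v - cn 0 = v := by ext <;> simp [cn]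
      have e4 : ((v + p).1 - v.1).natAbs + ((v + p).2 - v.2).natAbs ≤ 4 * W := by
        simp only [zd, Prod.fst_zero, Prod.snd_zero, sub_zero] at hp
        simp only [Prod.fst_add, Prod.snd_add, add_sub_cancel_left]
        omega
      have e5 : ((((v + p).1 - v.1).natAbs + ((v + p).2 - v.2).natAbs : ℕ) : ℝ) ≤ 4 * W := by
        exact_mod_cast e4
      have e6 := mul_le_mul_of_nonneg_left e5 hμ
      have e7 := mul_le_mul_of_nonneg_left hW' hμ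
      rw [e3] at e2
      linarith)
    (y := y) (by omega) (by omega) hy'
  refine key.trans (add_le_add_right ?_ _)
  have hρ' : (ρ : ℝ) = R + 2 * W := by exact_mod_cast hR
  have hρ'' : (16 : ℝ) * W ≤ ρ := by exact_mod_cast hρ
  have hR0 : (0 : ℝ) < R := by linarith
  rw [← mul_div_assoc, div_le_div_iff₀ hR0 (by linarith)]
  have e1 : 0 ≤ μ * W * ht ν y := mul_nonneg (by positivity) (by linarith)
  have e2 : 0 ≤ μ * W * t₀ * ρ := by positivity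
  have e3 := mul_le_mul_of_nonneg_left (show (80 : ℝ) * ρ ≤ 100 * R by linarith) e1
  nlinarith

end B1b

open B1b in
/-- Linear approximation above a flat boundary. -/
theorem half_lin : ∃ C : ℝ, 1 ≤ C ∧ ∀ (ρ W ℓ : ℕ) (u w : ℤ × ℤ → ℝ) (ν : ℂ) (t₀ μ : ℝ), ‖ν‖ = 1 →
    1 ≤ ℓ → 4 * ℓ ≤ W → 16 * W ≤ ρ → 0 ≤ t₀ → t₀ ≤ ℓ →
    (∀ v, zd v 0 ≤ ρ → t₀ ≤ ht ν v → 0 ≤ ∑ a, (u (v + st4 a) - u v) ∧
      ∑ a, (w (v + st4 a) - w v) ≤ 0 ∧ ∀ k, w (v - cn k) ≤ u v ∧ u v ≤ w (v - cn k) + μ) →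
    (∀ v, zd v 0 ≤ ρ + 1 → |u v| ≤ μ * (|ht ν v| + t₀ + 1) ∧ |w v| ≤ μ * (|ht ν v| + t₀ + 1)) →
    ∃ lam : ℝ, |lam| ≤ C * μ ∧ ∀ v, zd v 0 ≤ ℓ → t₀ ≤ ht ν v →
      |u v - lam * ht ν v| ≤ C * μ * (t₀ + 1 + (ℓ : ℝ) ^ 3 / W ^ 2 + W * ℓ / ρ) := by
  refine ⟨500, by norm_num, ?_⟩
  intro ρ W ℓ u w ν t₀ μ hν hℓ hW hρ ht₀ ht₁ H1 H2
  have hμ : 0 ≤ μ := by
    have h := (abs_nonneg _).trans (H2 0 (by simp [zd])).1
    exact nonneg_of_mul_nonneg_left h (by positivity)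
  have hℓ' : (1 : ℝ) ≤ ℓ := by exact_mod_cast hℓ
  have hW' : (4 : ℝ) * ℓ ≤ W := by exact_mod_cast hW
  have hρ' : (16 : ℝ) * W ≤ ρ := by exact_mod_cast hρ
  have c0 : ∀ v : ℤ × ℤ, v - cn 0 = v := fun v => by ext <;> simp [cn]
  have hq : (0 : ℝ) ≤ W * ℓ / ρ := by positivity
  set T : ℝ := 2 * ℓ + 1 with hT
  set E : ℝ := 7 * μ * (t₀ + 1) + 400 * μ * (W * ℓ / ρ) with hE
  have hE0 : 0 ≤ E := by positivity
  have tr : ∀ x y, zd x 0 ≤ W → zd y 0 ≤ W → T ≤ ht ν x → ht ν x ≤ T + 1 → T ≤ ht ν y →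
      ht ν y ≤ T + 1 → u x - w y + 2 * μ ≤ E := by
    intro x y hx hy x1 x2 y1 y2
    have h := shift hν (by omega) hρ ht₀ hμ H1 H2 hx hy (by rw [abs_le]; constructor <;> linarith)
      (by linarith)
    have h1 : W * ht ν y / ρ ≤ 4 * (W * ℓ / ρ) := by
      rw [← mul_div_assoc]
      refine div_le_div_of_nonneg_right ?_ (by positivity)
      nlinarith
    have h2 := mul_le_mul_of_nonneg_left h1 hμ
    have h3 := mul_nonneg hμ ht₀
    linarith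
  obtain ⟨lam, hlam, htop⟩ : ∃ lam : ℝ, |lam| ≤ 2 * μ ∧ ∀ x, zd x 0 ≤ W → T ≤ ht ν x →
      ht ν x ≤ T + 1 → u x - lam * ht ν x ≤ E ∧ lam * ht ν x - w x ≤ E := by
    by_cases h : ∃ z, zd z 0 ≤ W ∧ T ≤ ht ν z ∧ ht ν z ≤ T + 1
    · obtain ⟨z, z0, z1, z2⟩ := h
      have hT0 : 0 < T := by positivity
      have hl : |u z / T| ≤ 2 * μ := by
        rw [abs_div, abs_of_pos hT0, div_le_iff₀ hT0]
        refine (H2 z (by omega)).1.trans ?_
        rw [abs_of_nonneg (by linarith)]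
        nlinarith
      refine ⟨u z / T, hl, fun x x0 x1 x2 => ?_⟩
      have e1 : u z / T * ht ν x = u z + u z / T * (ht ν x - T) := by field_simp; ring
      have e2 : |u z / T * (ht ν x - T)| ≤ 2 * μ := by
        rw [abs_mul, abs_of_nonneg (sub_nonneg.2 x1)]
        nlinarith [abs_nonneg (u z / T)]
      have e3 := tr x z x0 z0 x1 x2 z1 z2
      have e4 := tr z x z0 x0 z1 z2 x1 x2
      have e5 := ((H1 z (by omega) (by linarith)).2.2 0).1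
      rw [c0] at e5
      rw [e1]
      rw [abs_le] at e2
      constructor <;> linarith [e2.1, e2.2]
    · exact ⟨0, by simpa using hμ, fun x x0 x1 x2 => (h ⟨x, x0, x1, x2⟩).elim⟩
  have hb : ∀ (x : ℤ × ℤ) (s : ℝ), zd x 0 ≤ W → |ht ν x| ≤ s →
      u x - lam * ht ν x ≤ μ * (3 * s + t₀ + 1) ∧ lam * ht ν x - w x ≤ μ * (3 * s + t₀ + 1) := by
    intro x s x0 x1
    obtain ⟨e1, e2⟩ := H2 x (by omega)
    have e3 : |lam * ht ν x| ≤ 2 * μ * s := by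
      rw [abs_mul]
      exact mul_le_mul hlam x1 (abs_nonneg _) (by positivity)
    have e4 := mul_le_mul_of_nonneg_left x1 hμ
    rw [abs_le] at e1 e2 e3
    constructor <;> linarith [e1.2, e2.1, e3.1, e3.2]
  have hlin : ∀ v, ∑ a, (ht ν (v + st4 a) - ht ν v) = 0 := by
    intro v
    simp [Fin.sum_univ_four, st4, ht]
    ring
  have fin : ∀ f : ℤ × ℤ → ℝ, (∀ v, zd v 0 ≤ ρ → t₀ ≤ ht ν v → 0 ≤ lap f v) →
      (∀ x, zd x 0 ≤ W → T ≤ ht ν x → ht ν x ≤ T + 1 → f x ≤ E) →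
      (∀ (x : ℤ × ℤ) (s : ℝ), zd x 0 ≤ W → |ht ν x| ≤ s → f x ≤ μ * (3 * s + t₀ + 1)) →
      ∀ v, zd v 0 ≤ ℓ → t₀ ≤ ht ν v →
        f v ≤ 500 * μ * (t₀ + 1 + (ℓ : ℝ) ^ 3 / W ^ 2 + W * ℓ / ρ) := by
    intro f f1 f2 f3 v hv hv'
    have hv'' : (zd v 0 : ℝ) ≤ ℓ := by exact_mod_cast hv
    have key := bar2 hν (W := W) (T := T) (E := E) (S := 14 * μ * ℓ) ht₀ (by positivity) hE0
      (by positivity) f (fun x x0 x1 _ => f1 x (by omega) x1)
      (fun x x0 x1 x2 => by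
        have e1 := f3 x (t₀ + 1) x0 (by rw [abs_le]; constructor <;> linarith)
        have e2 := mul_nonneg hμ ht₀
        have e3 := mul_nonneg hμ hq
        linarith)
      f2
      (fun x x0 x1 x2 => by
        have e1 := f3 x T x0.le (by rw [abs_le]; constructor <;> linarith)
        nlinarith)
      (y := v) (by omega) hv' (by linarith [(abs_le.1 (abs_ht_le hν v)).2])
    have e1 : 2 * (zd v 0 : ℝ) ^ 2 + 2 * (T + 1) ^ 2 ≤ 34 * ℓ ^ 2 := by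
      have := pow_le_pow_left₀ (by positivity) hv'' 2
      have := pow_le_pow_left₀ (by positivity) (show T + 1 ≤ 4 * ℓ by linarith) 2
      nlinarith
    have e2 : 14 * μ * ℓ * (2 * (zd v 0 : ℝ) ^ 2 + 2 * (T + 1) ^ 2) / W ^ 2 ≤
        476 * μ * ((ℓ : ℝ) ^ 3 / W ^ 2) := by
      rw [← mul_div_assoc]
      refine div_le_div_of_nonneg_right ?_ (by positivity)
      have := mul_le_mul_of_nonneg_left e1 (show 0 ≤ 14 * μ * ℓ by positivity)
      nlinarith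
    have e3 := mul_nonneg hμ ht₀
    have e4 := mul_nonneg hμ hq
    have e5 : 0 ≤ μ * ((ℓ : ℝ) ^ 3 / W ^ 2) := by positivity
    linarith
  refine ⟨lam, hlam.trans (by linarith), fun v hv hv' => ?_⟩
  have r1 := fin (fun v => u v - lam * ht ν v)
    (fun x x0 x1 => by
      have e1 := (H1 x x0 x1).1
      have e2 := hlin x
      simp only [lap, Fin.sum_univ_four] at e1 e2 ⊢
      linear_combination e1 + lam * e2)
    (fun x x0 x1 x2 => (htop x x0 x1 x2).1) (fun x s x0 x1 => (hb x s x0 x1).1) v hv hv'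
  have r2 := fin (fun v => lam * ht ν v - w v)
    (fun x x0 x1 => by
      have e1 := (H1 x x0 x1).2.1
      have e2 := hlin x
      simp only [lap, Fin.sum_univ_four] at e1 e2 ⊢
      linear_combination e1 - lam * e2)
    (fun x x0 x1 x2 => (htop x x0 x1 x2).2) (fun x s x0 x1 => (hb x s x0 x1).2) v hv hv'
  have r3 := ((H1 v (by omega) hv').2.2 0).1
  rw [c0] at r3
  rw [abs_le]
  constructor <;> linarith

end Vale.Agent.P144Z
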