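import Vale.Agent.P144D.B.FH
import Vale.Agent.P144D.W.Est

/-!
The sites seen from the base point, and the local bound of a field by its pair.
-/

namespace Vale.Agent.P144Z.B2b2

open Finset Matrix

theorem cn_bd (k : Fin 4) : 0 ≤ (cn k).1 ∧ (cn k).1 ≤ 1 ∧ 0 ≤ (cn k).2 ∧ (cn k).2 ≤ 1 := by
  fin_cases k <;> simp [cn]

theorem st4_bd (a : Fin 4) :
    -1 ≤ (st4 a).1 ∧ (st4 a).1 ≤ 1 ∧ -1 ≤ (st4 a).2 ∧ (st4 a).2 ≤ 1 := by
  fin_cases a <;> simp [st4]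

theorem zd_add (u v : ℤ × ℤ) : zd (u + v) 0 ≤ zd u 0 + zd v 0 := by
  simp only [zd, Prod.fst_add, Prod.snd_add, Prod.fst_zero, Prod.snd_zero]
  omega

theorem zd_neg (v : ℤ × ℤ) : zd (-v) 0 = zd v 0 := by
  simp only [zd, Prod.fst_neg, Prod.snd_neg, Prod.fst_zero, Prod.snd_zero]
  omega

theorem zd_cn (k : Fin 4) : zd (cn k) 0 ≤ 1 := by
  have := cn_bd k
  simp only [zd, Prod.fst_zero, Prod.snd_zero]
  omega

theorem zd_st4 (a : Fin 4) : zd (st4 a) 0 ≤ 1 := by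
  have := st4_bd a
  simp only [zd, Prod.fst_zero, Prod.snd_zero]
  omega

theorem ht_add (ν : ℂ) (u v : ℤ × ℤ) : ht ν (u + v) = ht ν u + ht ν v := by
  simp only [ht, Prod.fst_add, Prod.snd_add, Int.cast_add]
  ring

theorem ht_neg (ν : ℂ) (v : ℤ × ℤ) : ht ν (-v) = ht (-ν) v := by
  simp [ht]

theorem abs_ht_le {ν : ℂ} (hν : ‖ν‖ = 1) (v : ℤ × ℤ) : |ht ν v| ≤ 2 * zd v 0 := by
  have h1 : |ν.re| ≤ 1 := hν ▸ Complex.abs_re_le_norm ν
  have h2 : |ν.im| ≤ 1 := hν ▸ Complex.abs_im_le_norm ν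
  have h3 : |(v.1 : ℝ)| ≤ zd v 0 := by
    have : |v.1| ≤ (zd v 0 : ℤ) := by
      simp only [zd, Prod.fst_zero, Prod.snd_zero, abs_le]
      omega
    exact_mod_cast this
  have h4 : |(v.2 : ℝ)| ≤ zd v 0 := by
    have : |v.2| ≤ (zd v 0 : ℤ) := by
      simp only [zd, Prod.fst_zero, Prod.snd_zero, abs_le]
      omega
    exact_mod_cast this
  refine (abs_add_le _ _).trans ?_
  rw [abs_mul, abs_mul]
  nlinarith [abs_nonneg (v.1 : ℝ), abs_nonneg (v.2 : ℝ)]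

theorem GG_shift (u : ℤ × ℤ → ℝ) (pr : ℤ × ℤ → Fin 4 → Prop) (c v : ℤ × ℤ) (a : Fin 4) :
    GG (fun x => u (c + x)) (fun x => pr (c + x)) v a = GG u pr (c + v) a := by
  simp only [GG, add_assoc]

theorem shift {ρ ρ' : ℕ} {u w : ℤ × ℤ → ℝ} {pr : ℤ × ℤ → Fin 4 → Prop} {out : ℤ × ℤ → Prop}
    (h : IsPair ρ u w pr out) {c : ℤ × ℤ} (hc : zd c 0 + ρ' ≤ ρ) :
    IsPair ρ' (fun x => u (c + x)) (fun x => w (c + x)) (fun x => pr (c + x))
      fun x => out (c + x) where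
  le v k hv := by
    rw [← add_sub_assoc]
    exact h.le _ k ((zd_add c v).trans (by omega))
  zero v hv := h.zero _ ((zd_add c v).trans (by omega))
  rem v a hv := by
    rw [← add_sub_assoc, ← add_sub_assoc]
    exact h.rem _ a hv
  symm v a := by
    rw [← add_assoc]
    exact h.symm _ a
  sub v hv := by
    simp only [GG_shift]
    exact h.sub _ (by have := zd_add c v; omega)
  sup v hv ho := by
    simp only [← add_assoc]
    exact h.sup _ (by have := zd_add c v; omega) ho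

variable {M : ℕ} {R : Reg M} {z : Tor M}

theorem phi_le (φ : Tor M × Fin 4 → ℝ) (x : Tor M) :
    ∑ a, φ (x, a) ^ 2 ≤ ∑ k, chi φ x k ^ 2 := by
  simp [chi, sA, Fin.sum_univ_four]
  nlinarith [sq_nonneg (φ (x, 2) + φ (x, 3) - φ (x, 0)), sq_nonneg (φ (x, 3) - φ (x, 0) - φ (x, 1)),
    sq_nonneg (φ (x, 0) + φ (x, 1) + φ (x, 2)), sq_nonneg (φ (x, 1) + φ (x, 2) + φ (x, 3))]

theorem abs_chi_le {φ : Tor M × Fin 4 → ℝ} {x : Tor M} {t : ℝ} (h : ∀ a, |φ (x, a)| ≤ t)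
    (k : Fin 4) : |chi φ x k| ≤ 4 * t := by
  have h0 := abs_le.1 (h 0)
  have h1 := abs_le.1 (h 1)
  have h2 := abs_le.1 (h 2)
  have h3 := abs_le.1 (h 3)
  rw [abs_le]
  fin_cases k <;> simp [chi, sA, Fin.sum_univ_four] <;> constructor <;> linarith

theorem vx_zero (v : ℤ × ℤ) : R.vx z v 0 = if R.fr then z - prj M v else z + prj M v := by
  simp [Reg.vx, cn, Prod.mk_zero_zero]

theorem vx_add (v : ℤ × ℤ) (k : Fin 4) :
    R.vx z (v + if R.fr then cn k else 0) k = R.vx z v 0 := by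
  rw [vx_zero, Reg.vx]
  split_ifs <;> simp

theorem vx_sub (v : ℤ × ℤ) (k : Fin 4) :
    R.vx z v k = R.vx z (v + -if R.fr then cn k else 0) 0 := by
  rw [← vx_add (k := k), neg_add_cancel_right]

theorem zd_ite (k : Fin 4) : zd (if R.fr then cn k else 0) 0 ≤ 1 := by
  split_ifs
  · exact zd_cn k
  · simp [zd]

theorem vx_mem {ν : ℂ} {ρ : ℕ} {w : ℝ} (h : InH R.In z ν ρ w) {v : ℤ × ℤ} (hv : zd v 0 ≤ ρ)
    (hw : w ≤ ht (if R.fr then -ν else ν) v) : R.vx z v 0 ∈ R.In := by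
  rw [vx_zero]
  split_ifs at hw ⊢
  · have := h (-v) (by rwa [zd_neg]) (by rwa [ht_neg])
    rwa [← zero_sub, G.prj_sub, G.prj_zero, zero_sub, ← sub_eq_add_neg] at this
  · exact h v hv hw

theorem pr_of {v : ℤ × ℤ} (h : ∀ d, zd d 0 ≤ 1 → R.vx z (v + d) 0 ∈ R.In) (a : Fin 4) :
    R.pr z v a := by
  have h1 := h 0 (by simp [zd])
  have h2 := h _ (zd_st4 a)
  have h3 := h (-cn a) (by rw [zd_neg]; exact zd_cn a)
  rw [vx_zero] at h1 h2 h3
  unfold Reg.pr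
  split_ifs at h1 h2 h3 ⊢
  · exact ⟨by rwa [add_zero] at h1, h2⟩
  · exact Or.inr (by rwa [sub_eq_add_neg])

theorem not_out {v : ℤ × ℤ} (h : ∀ d, zd d 0 ≤ 1 → R.vx z (v + d) 0 ∈ R.In) : ¬ R.out z v := by
  have h1 := h 0 (by simp [zd])
  have h2 := fun k => h _ (zd_cn k)
  simp only [vx_zero] at h1 h2
  unfold Reg.out
  split_ifs at h1 h2 ⊢
  · rintro ⟨k, hk⟩
    exact hk (h2 k)
  · exact fun hk => hk (by rwa [add_zero] at h1)

variable [NeZero M]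

theorem tdist_vx (c d : ℤ × ℤ) : tdist (R.vx z (c + d) 0) (R.vx z c 0) ≤ zd d 0 := by
  have e : ∀ v : ℤ × ℤ, max v.1.natAbs v.2.natAbs = zd v 0 := fun v => by simp [zd]
  rw [vx_zero, vx_zero, G.prj_add]
  split_ifs
  · have := G.tdist_add_prj_le (z - prj M c) (-d)
    rwa [e, zd_neg, ← zero_sub, G.prj_sub, G.prj_zero, zero_sub, ← sub_eq_add_neg, sub_sub] at this
  · rw [← add_assoc, ← e]
    exact G.tdist_add_prj_le _ d

theorem tdist_vx_zero (d : ℤ × ℤ) : tdist (R.vx z d 0) z ≤ zd d 0 := by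
  have h := tdist_vx (R := R) (z := z) 0 d
  rwa [zero_add, vx_zero 0, G.prj_zero, sub_zero, add_zero, ite_self] at h

theorem exists_vx {c : ℤ × ℤ} {y : Tor M} {n : ℕ} (h : tdist y (R.vx z c 0) ≤ n) :
    ∃ d, zd d 0 ≤ n ∧ y = R.vx z (c + d) 0 := by
  have e : zd (lft (y - R.vx z c 0)) 0 ≤ n := by simpa [zd, G.tdist_def] using h
  have e2 := G.add_prj_lft y (R.vx z c 0)
  generalize lft (y - R.vx z c 0) = d at e e2
  rw [vx_zero] at e2
  simp only [vx_zero]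
  split_ifs at e2 ⊢
  · refine ⟨-d, by rwa [zd_neg], ?_⟩
    rw [← sub_eq_add_neg, G.prj_sub, ← e2]
    abel
  · exact ⟨d, e, by rw [G.prj_add, ← add_assoc, e2]⟩

/-- The local bound of a field by the supremum of its subharmonic function. -/
theorem loc_l2 : ∃ C : ℝ, 1 ≤ C ∧ ∀ (M : ℕ) [NeZero M] (R : Reg M) (z : Tor M) (s₁ : ℕ)
    (φ : Tor M × Fin 4 → ℝ) (u w : ℤ × ℤ → ℝ) (C₀ : ℝ), 0 ≤ C₀ →
    IsPair s₁ u w (R.pr z) (R.out z) →
    (∀ v, zd v 0 + 1 ≤ s₁ → ∑ k, chi φ (R.vx z v k) k ^ 2 ≤ C₀ * ∑ a, |GG u (R.pr z) v a|) →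
    ∀ (c : ℤ × ℤ) (r : ℕ) (S : ℝ), zd c 0 + 2 * r + 3 ≤ s₁ →
    (∀ v, zd v 0 ≤ 2 * r + 3 → |u (c + v)| ≤ S) →
      l2sq (ball (R.vx z c 0) r) φ ≤ C * C₀ * (r + 1) * S := by
  obtain ⟨C₁, hC₁, h₁⟩ := pair_FH
  refine ⟨4 * C₁, by linarith, fun M _ R z s₁ φ u w C₀ hC₀ hp hle c r S hc hS => ?_⟩
  have h3 := h₁ (2 * r + 3) (r + 1) _ _ _ _ (shift hp (c := c) (by omega)) (by omega) (by omega) S
    fun v hv => hS v (by omega)
  simp only [GG_shift] at h3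
  set G : ℤ × ℤ → ℝ := fun v => ∑ a, |GG u (R.pr z) v a| with hG
  have G0 : ∀ v, 0 ≤ G v := fun v => sum_nonneg fun _ _ => abs_nonneg _
  have mem : ∀ {n : ℕ} {d : ℤ × ℤ}, d ∈ Icc (-(n : ℤ)) n ×ˢ Icc (-(n : ℤ)) n ↔ zd d 0 ≤ n := by
    intro n d
    simp only [mem_product, mem_Icc, zd, Prod.fst_zero, Prod.snd_zero]
    omega
  have h4 : ∀ e, zd e 0 ≤ 1 → ∑ d ∈ Icc (-(r : ℤ)) r ×ˢ Icc (-(r : ℤ)) r, G (c + (d + e)) ≤
      C₁ * (r + 1) * S := fun e he => by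
    have h5 := sum_map (Icc (-(r : ℤ)) r ×ˢ Icc (-(r : ℤ)) r) (addRightEmbedding e)
      fun x => G (c + x)
    simp only [addRightEmbedding_apply] at h5
    rw [← h5]
    refine (sum_le_sum_of_subset_of_nonneg (fun x hx => ?_) fun _ _ _ => G0 _).trans
      (h3.trans_eq (by push_cast; ring))
    obtain ⟨d, hd, rfl⟩ := mem_map.1 hx
    exact mem.2 ((zd_add d e).trans (by have := mem.1 hd; omega))
  have h5 : ball (R.vx z c 0) r ⊆
      (Icc (-(r : ℤ)) r ×ˢ Icc (-(r : ℤ)) r).image fun d => R.vx z (c + d) 0 := fun y hy => by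
    obtain ⟨d, hd, rfl⟩ := exists_vx (E3.mem_ball.1 hy)
    exact mem_image_of_mem _ (mem.2 hd)
  have h6 : ∀ d ∈ Icc (-(r : ℤ)) r ×ˢ Icc (-(r : ℤ)) r, ∑ a, φ (R.vx z (c + d) 0, a) ^ 2 ≤
      C₀ * ∑ k, G (c + (d + if R.fr then cn k else 0)) := fun d hd => by
    refine (phi_le φ _).trans ?_
    rw [mul_sum _ _ C₀]
    refine sum_le_sum fun k _ => le_trans ?_ (hle _ ?_)
    · rw [← vx_add (k := k), add_assoc]
      exact single_le_sum (f := fun k' => chi φ (R.vx z _ k') k' ^ 2) (fun _ _ => sq_nonneg _)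
        (mem_univ k)
    · have h7 := zd_add c (d + if R.fr then cn k else 0)
      have h8 := zd_add d (if R.fr then cn k else 0)
      have h9 := zd_ite (R := R) k
      have := mem.1 hd
      omega
  refine (E3.l2sq_mono h5 φ).trans ((sum_image_le_of_nonneg fun _ _ =>
    sum_nonneg fun _ _ => sq_nonneg _).trans ((sum_le_sum h6).trans ?_))
  rw [← mul_sum, sum_comm]
  refine (mul_le_mul_of_nonneg_left (sum_le_sum fun k _ => h4 _ (zd_ite k))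
    hC₀).trans_eq ?_
  simp only [sum_const, card_univ, Fintype.card_fin, nsmul_eq_mul]
  push_cast
  ring

end Vale.Agent.P144Z.B2b2
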