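import Vale.Agent.P144D.DefsB

/-!
The domain half of Q1: the maximum principle on the plane lattice, and recentring of pairs.
-/

namespace Vale.Agent.P144Z

open Finset

namespace B1a1

theorem tc_pos' : 0 < tc := by
  have h : (1 : ℝ) < √2 := Real.lt_sqrt_of_sq_lt (by norm_num)
  unfold tc
  linarith

theorem zd_zero_le {v : ℤ × ℤ} {s : ℕ} :
    zd v 0 ≤ s ↔ (-(s : ℤ) ≤ v.1 ∧ v.1 ≤ s) ∧ -(s : ℤ) ≤ v.2 ∧ v.2 ≤ s := by
  simp only [zd, Prod.fst_zero, Prod.snd_zero, sub_zero]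
  omega

theorem mem_box {v : ℤ × ℤ} {s : ℕ} :
    v ∈ Finset.Icc (-(s : ℤ)) s ×ˢ Finset.Icc (-(s : ℤ)) s ↔ zd v 0 ≤ s := by
  rw [zd_zero_le, Finset.mem_product, Finset.mem_Icc, Finset.mem_Icc]

theorem zd_add_le (x v : ℤ × ℤ) : zd (x + v) 0 ≤ zd x 0 + zd v 0 := by
  simp only [zd, Prod.fst_zero, Prod.snd_zero, sub_zero, Prod.fst_add, Prod.snd_add]
  omega

theorem zd_st4 (a : Fin 4) : zd (st4 a) 0 = 1 := by
  fin_cases a <;> rfl

theorem zd_step (v : ℤ × ℤ) (a : Fin 4) : zd (v + st4 a) 0 ≤ zd v 0 + 1 := by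
  rw [← zd_st4 a]
  exact zd_add_le v _

theorem zd_corner (v : ℤ × ℤ) (k : Fin 4) : zd (v - cn k) 0 ≤ zd v 0 + 1 := by
  have h : zd (-cn k) 0 ≤ 1 := by fin_cases k <;> decide
  have h1 := zd_add_le v (-cn k)
  rw [← sub_eq_add_neg] at h1
  omega

theorem sub_cn_zero (v : ℤ × ℤ) : v - cn 0 = v := sub_zero v

/-- If the four terms are nonpositive and the sum is nonnegative, each term vanishes. -/
theorem four_zero {g : Fin 4 → ℝ} (h : ∀ a, g a ≤ 0) (hs : 0 ≤ ∑ a, g a) (a : Fin 4) : g a = 0 :=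
  (Finset.sum_eq_zero_iff_of_nonpos fun a _ => h a).1
    (le_antisymm (Finset.sum_nonpos fun a _ => h a) hs) a (Finset.mem_univ a)

theorem GG_shift (u : ℤ × ℤ → ℝ) (pr : ℤ × ℤ → Fin 4 → Prop) (x v : ℤ × ℤ) (a : Fin 4) :
    GG (fun v => u (x + v)) (fun v => pr (x + v)) v a = GG u pr (x + v) a := by
  simp only [GG, add_assoc]

end B1a1

open B1a1

/-- The maximum principle. -/
theorem maxp (Ω : Finset (ℤ × ℤ)) (f : ℤ × ℤ → ℝ)
    (hb : ∀ v ∈ Ω, ∀ a, v + st4 a ∉ Ω → f (v + st4 a) ≤ 0)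
    (hm : ∀ v ∈ Ω, 0 < f v → (∀ a, f (v + st4 a) ≤ f v) → f v ≤ f (v + st4 0)) :
    ∀ v ∈ Ω, f v ≤ 0 := by
  intro v hv
  by_contra h0
  obtain ⟨x, hx, hmax⟩ := Ω.exists_max_image f ⟨v, hv⟩
  obtain ⟨y, hy, hmy⟩ := (Ω.filter fun y => f x ≤ f y).exists_max_image Prod.fst
    ⟨x, Finset.mem_filter.2 ⟨hx, le_rfl⟩⟩
  obtain ⟨hy1, hy2⟩ := Finset.mem_filter.1 hy
  have h1 : 0 < f y := lt_of_lt_of_le (not_le.1 h0) ((hmax v hv).trans hy2)
  have h2 := hm y hy1 h1 fun a => by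
    by_cases h3 : y + st4 a ∈ Ω
    · exact (hmax _ h3).trans hy2
    · exact (hb y hy1 a h3).trans h1.le
  have h3 : y + st4 0 ∈ Ω := by
    by_contra h4
    linarith [hb y hy1 0 h4]
  have h4 : y.1 + 1 ≤ y.1 := hmy _ (Finset.mem_filter.2 ⟨h3, hy2.trans h2⟩)
  omega

/-- The maximum principle in a square: `f ≤ 0` on the contour of radius `s`. -/
theorem maxp_box (s : ℕ) (f : ℤ × ℤ → ℝ) (hb : ∀ v, zd v 0 = s → f v ≤ 0)
    (hm : ∀ v, zd v 0 + 1 ≤ s → 0 < f v → (∀ a, f (v + st4 a) ≤ f v) → f v ≤ f (v + st4 0)) :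
    ∀ v, zd v 0 ≤ s → f v ≤ 0 := by
  intro v hv
  have hΩ : ∀ y, y ∈ (Finset.Icc (-(s : ℤ)) s ×ˢ Finset.Icc (-(s : ℤ)) s).filter
      (fun y => zd y 0 + 1 ≤ s) ↔ zd y 0 + 1 ≤ s := fun y => by
    rw [Finset.mem_filter, mem_box]
    omega
  rcases hv.eq_or_lt with h | h
  · exact hb v h
  refine maxp _ f (fun y hy a ha => hb _ ?_) (fun y hy => hm y ((hΩ y).1 hy)) v ((hΩ v).2 h)
  rw [hΩ] at hy ha
  have := zd_step y a
  omega

variable {ρ : ℕ} {u w : ℤ × ℤ → ℝ} {pr : ℤ × ℤ → Fin 4 → Prop} {out : ℤ × ℤ → Prop}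

/-- Recentring. -/
theorem IsPair.shift (h : IsPair ρ u w pr out) (x : ℤ × ℤ) {ρ' : ℕ} (hx : zd x 0 + ρ' ≤ ρ) :
    IsPair ρ' (fun v => u (x + v)) (fun v => w (x + v)) (fun v => pr (x + v))
      fun v => out (x + v) := by
  refine ⟨fun v k hv => ?_, fun v hv ho => h.zero _ ?_ ho, fun v a hp => ?_, fun v a => ?_,
    fun v hv => ?_, fun v hv ho => ?_⟩
  · have h1 := zd_add_le x v
    rw [← add_sub_assoc]
    exact h.le _ k (by omega)
  · have h1 := zd_add_le x v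
    omega
  · rw [← add_sub_assoc, ← add_sub_assoc]
    exact h.rem _ a hp
  · rw [← add_assoc]
    exact h.symm _ a
  · have h1 := zd_add_le x v
    simp only [GG_shift]
    exact h.sub _ (by omega)
  · have h1 := zd_add_le x v
    simp only [← add_assoc]
    exact h.sup _ (by omega) ho

theorem IsPair.mono (h : IsPair ρ u w pr out) {ρ' : ℕ} (hle : ρ' ≤ ρ) : IsPair ρ' u w pr out :=
  ⟨fun v k hv => h.le v k (hv.trans hle), fun v hv => h.zero v (by omega), h.rem, h.symm,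
    fun v hv => h.sub v (hv.trans hle), fun v hv => h.sup v (hv.trans hle)⟩

/-- The maximum principle for the subharmonic function. -/
theorem IsPair.max_u (h : IsPair ρ u w pr out) {s : ℕ} (hs : s ≤ ρ) {b : ℝ} (hb0 : 0 ≤ b)
    (hb : ∀ v, zd v 0 = s → u v ≤ b) : ∀ v, zd v 0 ≤ s → u v ≤ b := by
  intro v hv
  refine sub_nonpos.1 (maxp_box s (fun v => u v - b) (fun y hy => sub_nonpos.2 (hb y hy))
    (fun y hy h1 h2 => ?_) v hv)
  have h3 : -(2 * tc) * u y < 0 := by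
    have := tc_pos'
    have : 0 < u y := by linarith
    nlinarith
  have h4 := four_zero (g := GG u pr y) (fun a => by
    unfold GG
    split_ifs
    · linarith [h2 a]
    · exact h3.le) (h.sub y (hy.trans hs)) 0
  unfold GG at h4
  split_ifs at h4
  · linarith
  · exact absurd h4 h3.ne

/-- The minimum principle for the superharmonic function. -/
theorem IsPair.min_w (h : IsPair ρ u w pr out) {s : ℕ} (hs : s ≤ ρ) {b : ℝ} (hb0 : 0 ≤ b)
    (hb : ∀ v, zd v 0 = s → -b ≤ w v) : ∀ v, zd v 0 ≤ s → -b ≤ w v := by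
  intro v hv
  refine sub_nonpos.1 (maxp_box s (fun v => -b - w v) (fun y hy => sub_nonpos.2 (hb y hy))
    (fun y hy h1 h2 => ?_) v hv)
  have h3 : ¬ out y := fun h3 => by
    have := h.zero y (by omega) h3
    linarith
  have h4 := four_zero (g := fun a => -(w (y + st4 a) - w y)) (fun a => by linarith [h2 a])
    (by
      rw [Finset.sum_neg_distrib]
      linarith [h.sup y (hy.trans hs) h3]) 0
  linarith

end Vale.Agent.P144Z
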