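import Vale.Agent.P144D.DefsB
import Vale.Agent.P144Z.E4.Ops
import Vale.Agent.P144Z.G.Trans

/-!
The algebra of the corner values and the potential of their squares.
-/

namespace Vale.Agent.P144Z

open Finset Matrix

namespace B2a

theorem sq2 : √2 * √2 = (2 : ℝ) := Real.mul_self_sqrt (by norm_num)

/-- The equations on an edge of weight `a`: `p`, `q` are the corner values at the first vertex,
`r`, `s` at the second one; `q`, `r` lie in the left face. -/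
def Ed (a p q r s : ℝ) : Prop := p + q + a * (r - s) = 0 ∧ r + s - a * (p - q) = 0

variable {a b p q r s : ℝ}

theorem Ed.closed (h : Ed a p q r s) : p ^ 2 - q ^ 2 = s ^ 2 - r ^ 2 := by
  linear_combination (p - q) * h.1 + (r - s) * h.2

theorem Ed.zero (h : Ed (tc * (0 * b)) p q r s) : p = -q ∧ s = -r :=
  ⟨by linear_combination h.1, by linear_combination h.2⟩

theorem Ed.top (h : Ed (tc * (tT * b)) p q r s) (hb : b * b = 1) : r = -(b * q) ∧ s = b * p := by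
  rw [← mul_assoc, tc_mul_tT, one_mul] at h
  exact ⟨by linear_combination (b / 2) * h.1 + (1 / 2) * h.2 - ((r - s) / 2) * hb,
    by linear_combination -(b / 2) * h.1 + (1 / 2) * h.2 + ((r - s) / 2) * hb⟩

theorem Ed.one (h : Ed (tc * (1 * b)) p q r s) (hb : b * b = 1) :
    r ^ 2 - q ^ 2 = p ^ 2 + q ^ 2 + 2 * √2 * (p * q) ∧
    q ^ 2 - r ^ 2 = r ^ 2 + s ^ 2 + 2 * √2 * (r * s) ∧
    p ^ 2 - q ^ 2 = q ^ 2 + r ^ 2 + 2 * √2 * b * (q * r) ∧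
    q ^ 2 - p ^ 2 = p ^ 2 + s ^ 2 - 2 * √2 * b * (p * s) := by
  obtain ⟨h1, h2⟩ := h
  obtain ⟨P, hP⟩ : ∃ P, P = (p - q) / 2 := ⟨_, rfl⟩
  obtain ⟨Q, hQ⟩ : ∃ Q, Q = (r - s) / 2 := ⟨_, rfl⟩
  have e1 : p = P - tc * b * Q := by rw [hP, hQ]; linear_combination h1 / 2
  have e2 : q = -P - tc * b * Q := by rw [hP, hQ]; linear_combination h1 / 2
  have e3 : r = tc * b * P + Q := by rw [hP, hQ]; linear_combination h2 / 2
  have e4 : s = tc * b * P - Q := by rw [hP, hQ]; linear_combination h2 / 2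
  have h := sq2
  clear h1 h2 hP hQ
  subst e1 e2 e3 e4
  unfold tc
  generalize √2 = t at *
  refine ⟨?_, ?_, ?_, ?_⟩ <;> grind

theorem opp (q : ℝ) : -(2 * tc) * q ^ 2 = (-q) ^ 2 + q ^ 2 + 2 * √2 * (-q * q) := by
  unfold tc; ring

theorem form_std (c0 c1 c2 c3 : ℝ) {G0 G1 G2 G3 : ℝ}
    (h0 : G0 = c3 ^ 2 + c0 ^ 2 - 2 * √2 * (c3 * c0))
    (h1 : G1 = c0 ^ 2 + c1 ^ 2 + 2 * √2 * (c0 * c1))
    (h2 : G2 = c1 ^ 2 + c2 ^ 2 + 2 * √2 * (c1 * c2))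
    (h3 : G3 = c2 ^ 2 + c3 ^ 2 + 2 * √2 * (c2 * c3)) :
    0 ≤ G0 + G1 + G2 + G3 ∧
      c0 ^ 2 + c1 ^ 2 + c2 ^ 2 + c3 ^ 2 ≤ 7 * (|G0| + |G1| + |G2| + |G3|) := by
  have h := sq2
  have ht : (0 : ℝ) ≤ √2 := Real.sqrt_nonneg _
  have k : ∀ x y : ℝ, y ^ 2 ≤ 2 * (x ^ 2 + y ^ 2 + 2 * √2 * (x * y)) + 6 * x ^ 2 := fun x y => by
    nlinarith [sq_nonneg (y + 2 * √2 * x)]
  have a0 := le_abs_self G0
  have a1 := le_abs_self G1
  have a2 := le_abs_self G2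
  have a3 := le_abs_self G3
  have b0 := abs_nonneg G0
  have b1 := abs_nonneg G1
  have b2 := abs_nonneg G2
  have b3 := abs_nonneg G3
  refine ⟨?_, ?_⟩
  · have e : G0 + G1 + G2 + G3 = (√2 * c0 + c1 - c3) ^ 2 + (√2 * c2 + c1 + c3) ^ 2 := by
      rw [h0, h1, h2, h3]
      linear_combination (-(c0 ^ 2) - c2 ^ 2) * h
    rw [e]
    positivity
  · by_cases k0 : c3 * c0 ≤ 0
    · have := k c0 c1
      have := k c3 c2
      nlinarith [mul_nonneg ht (neg_nonneg.2 k0)]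
    by_cases k1 : 0 ≤ c0 * c1
    · have := k c1 c2
      have := k (-c0) c3
      nlinarith [mul_nonneg ht k1]
    by_cases k2 : 0 ≤ c1 * c2
    · have := k c2 c3
      have := k c1 c0
      nlinarith [mul_nonneg ht k2]
    have k3 : 0 ≤ c2 * c3 := by
      by_contra k3
      push Not at k0 k1 k2 k3
      nlinarith [mul_pos (mul_pos_of_neg_of_neg k1 k3) (mul_pos k0 (neg_pos.2 k2)),
        sq_nonneg (c0 * c1 * c2 * c3)]
    have := k (-c3) c0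
    have := k c2 c1
    nlinarith [mul_nonneg ht k3]

theorem form_face (c0 c1 c2 c3 : ℝ) {b0 b1 b2 b3 G0 G1 G2 G3 : ℝ} (k1 : b1 * b1 = 1)
    (k2 : b2 * b2 = 1) (k3 : b3 * b3 = 1) (k : b1 * b2 * b3 * b0 = 1)
    (h0 : G0 = c3 ^ 2 + c0 ^ 2 - 2 * √2 * b0 * (c3 * c0))
    (h1 : G1 = c0 ^ 2 + c1 ^ 2 + 2 * √2 * b1 * (c0 * c1))
    (h2 : G2 = c1 ^ 2 + c2 ^ 2 + 2 * √2 * b2 * (c1 * c2))
    (h3 : G3 = c2 ^ 2 + c3 ^ 2 + 2 * √2 * b3 * (c2 * c3)) :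
    0 ≤ G0 + G1 + G2 + G3 ∧
      c0 ^ 2 + c1 ^ 2 + c2 ^ 2 + c3 ^ 2 ≤ 7 * (|G0| + |G1| + |G2| + |G3|) := by
  have e1 : (b1 * c1) ^ 2 = c1 ^ 2 := by grind
  have e2 : (b1 * b2 * c2) ^ 2 = c2 ^ 2 := by grind
  have e3 : (b1 * b2 * b3 * c3) ^ 2 = c3 ^ 2 := by grind
  have h := form_std c0 (b1 * c1) (b1 * b2 * c2) (b1 * b2 * b3 * c3) (G0 := G0) (G1 := G1)
    (G2 := G2) (G3 := G3) (by grind) (by grind) (by grind) (by grind)
  rwa [e1, e2, e3] at h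

theorem zd_le {v : ℤ × ℤ} {R : ℕ} :
    zd v 0 ≤ R ↔ -(R : ℤ) ≤ v.1 ∧ v.1 ≤ R ∧ -(R : ℤ) ≤ v.2 ∧ v.2 ≤ R := by
  simp only [zd, Prod.fst_zero, Prod.snd_zero, sub_zero]
  omega

/-- The potential. -/
theorem exists_pot (R : ℕ) (c : ℤ × ℤ → Fin 4 → ℝ)
    (hE : ∀ v, zd v 0 ≤ R + 1 → zd (v + (1, 0)) 0 ≤ R + 1 →
      c v 3 - c v 0 = c (v + (1, 0)) 2 - c (v + (1, 0)) 1)
    (hN : ∀ v, zd v 0 ≤ R + 1 → zd (v + (0, 1)) 0 ≤ R + 1 →
      c v 0 - c v 1 = c (v + (0, 1)) 3 - c (v + (0, 1)) 2) :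
    ∃ Hv Hf : ℤ × ℤ → ℝ, ∀ v k, zd v 0 ≤ R → Hv v - Hf (v - cn k) = c v k := by
  obtain ⟨o, ho⟩ : ∃ o : ℤ, o = -((R : ℤ) + 1) := ⟨_, rfl⟩
  let F : ℕ → ℕ → ℝ := fun m n =>
    ∑ i ∈ range m, (c (o + i + 1, o) 1 - c (o + i, o) 0) +
      ∑ j ∈ range n, (c (o + m, o + j + 1) 3 - c (o + m, o + j) 0)
  have FN : ∀ m n, F m (n + 1) = F m n + (c (o + m, o + n + 1) 3 - c (o + m, o + n) 0) :=
    fun m n => by simp only [F, sum_range_succ]; ring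
  have FE : ∀ m n : ℕ, m + 1 ≤ 2 * R + 2 → n ≤ 2 * R + 2 →
      F (m + 1) n = F m n + (c (o + m + 1, o + n) 1 - c (o + m, o + n) 0) := by
    intro m n hm
    induction n with
    | zero => intro _; simp [F, sum_range_succ]; ring
    | succ n ih =>
      intro hn
      have h1 := hE (o + m, o + n + 1) (by rw [zd_le]; simp only; omega)
        (by rw [zd_le]; simp only [Prod.mk_add_mk]; omega)
      have h2 := hN (o + m + 1, o + n) (by rw [zd_le]; simp only; omega)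
        (by rw [zd_le]; simp only [Prod.mk_add_mk]; omega)
      simp only [Prod.mk_add_mk, add_zero] at h1 h2
      rw [FN, FN, ih (by omega)]
      push_cast
      simp only [← add_assoc]
      linarith
  let Hv : ℤ × ℤ → ℝ := fun v => F (v.1 - o).toNat (v.2 - o).toNat
  have HE : ∀ i j : ℤ, o ≤ i → i ≤ R → o ≤ j → j ≤ R →
      Hv (i + 1, j) = Hv (i, j) + (c (i + 1, j) 1 - c (i, j) 0) := by
    intro i j h1 h2 h3 h4
    obtain ⟨m, rfl⟩ : ∃ m : ℕ, i = o + m := ⟨(i - o).toNat, by omega⟩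
    obtain ⟨n, rfl⟩ : ∃ n : ℕ, j = o + n := ⟨(j - o).toNat, by omega⟩
    have e1 : (o + m + 1 - o).toNat = m + 1 := by omega
    have e2 : (o + m - o).toNat = m := by omega
    have e3 : (o + n - o).toNat = n := by omega
    simp only [Hv, e1, e2, e3]
    exact FE m n (by omega) (by omega)
  have HN : ∀ i j : ℤ, o ≤ i → o ≤ j →
      Hv (i, j + 1) = Hv (i, j) + (c (i, j + 1) 3 - c (i, j) 0) := by
    intro i j h1 h3
    obtain ⟨m, rfl⟩ : ∃ m : ℕ, i = o + m := ⟨(i - o).toNat, by omega⟩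
    obtain ⟨n, rfl⟩ : ∃ n : ℕ, j = o + n := ⟨(j - o).toNat, by omega⟩
    have e1 : (o + n + 1 - o).toNat = n + 1 := by omega
    have e2 : (o + m - o).toNat = m := by omega
    have e3 : (o + n - o).toNat = n := by omega
    simp only [Hv, e1, e2, e3]
    exact FN m n
  refine ⟨Hv, fun f => Hv f - c f 0, ?_⟩
  rintro ⟨i, j⟩ k hv
  rw [zd_le] at hv
  simp only at hv
  obtain ⟨i, rfl⟩ : ∃ i', i = i' + 1 := ⟨i - 1, by ring⟩
  obtain ⟨j, rfl⟩ : ∃ j', j = j' + 1 := ⟨j - 1, by ring⟩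
  have h1 := HE i (j + 1) (by omega) (by omega) (by omega) (by omega)
  have h2 := HN (i + 1) j (by omega) (by omega)
  have h3 := HE i j (by omega) (by omega) (by omega) (by omega)
  have h4 := hN (i + 1, j) (by rw [zd_le]; simp only; omega)
    (by rw [zd_le]; simp only [Prod.mk_add_mk]; omega)
  simp only [Prod.mk_add_mk, add_zero] at h4
  fin_cases k <;> simp [cn] <;> linarith

end B2a

end Vale.Agent.P144Z
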