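import Vale.Agent.P144D.B.PairA

/-!
The increments of the potential around a vertex and around a face.
-/

namespace Vale.Agent.P144Z

open Finset Matrix

namespace B2a

/-- An edge from `X` to `Y` with left face `L` and right face `R`. -/
structure Eg (P b p q r s X Y L R : ℝ) : Prop where
  ed : Ed (tc * (P * b)) p q r s
  hb : b * b = 1
  h1 : X - R = p ^ 2
  h2 : X - L = q ^ 2
  h3 : Y - L = r ^ 2
  h4 : Y - R = s ^ 2

section

variable {P b p q r s X Y L R : ℝ}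

theorem Eg.one (h : Eg P b p q r s X Y L R) (hP : P = 1) :
    Y - X = p ^ 2 + q ^ 2 + 2 * √2 * (p * q) ∧ X - Y = r ^ 2 + s ^ 2 + 2 * √2 * (r * s) ∧
    L - R = q ^ 2 + r ^ 2 + 2 * √2 * b * (q * r) ∧
    R - L = p ^ 2 + s ^ 2 - 2 * √2 * b * (p * s) := by
  subst hP
  obtain ⟨k1, k2, k3, k4⟩ := h.ed.one h.hb
  exact ⟨by linarith [h.h2, h.h3], by linarith [h.h2, h.h3], by linarith [h.h1, h.h2],
    by linarith [h.h1, h.h2]⟩

theorem Eg.zero (h : Eg P b p q r s X Y L R) (hP : P = 0) :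
    L = R ∧ -(2 * tc) * q ^ 2 = p ^ 2 + q ^ 2 + 2 * √2 * (p * q) ∧
      -(2 * tc) * s ^ 2 = r ^ 2 + s ^ 2 + 2 * √2 * (r * s) := by
  subst hP
  obtain ⟨k1, k2⟩ := h.ed.zero
  have h1 := h.h1
  have h2 := h.h2
  subst k1 k2
  exact ⟨by linarith, by unfold tc; ring, by unfold tc; ring⟩

theorem Eg.top (h : Eg P b p q r s X Y L R) (hP : P = tT) :
    X = Y ∧ -(2 * tc) * r ^ 2 = q ^ 2 + r ^ 2 + 2 * √2 * b * (q * r) ∧
      -(2 * tc) * p ^ 2 = p ^ 2 + s ^ 2 - 2 * √2 * b * (p * s) := by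
  subst hP
  obtain ⟨k1, k2⟩ := h.ed.top h.hb
  have h2 := h.h2
  have h3 := h.h3
  have hb := h.hb
  subst k1 k2
  unfold tc
  refine ⟨?_, ?_, ?_⟩ <;> grind

end

/-- The data in the plane lattice. -/
structure Dat (ρ : ℕ) (P b : ℤ × ℤ → Fin 2 → ℝ) (c : ℤ × ℤ → Fin 4 → ℝ) (Hv Hf : ℤ × ℤ → ℝ) :
    Prop where
  sign : ∀ v i, b v i * b v i = 1
  flat : ∀ f, zd f 0 ≤ ρ → b f 0 * b (f + (1, 0)) 1 * b (f + (0, 1)) 0 * b f 1 = 1
  E : ∀ v, zd v 0 ≤ ρ + 1 →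
    Ed (tc * (P v 0 * b v 0)) (-c v 3) (c v 0) (c (v + (1, 0)) 1) (c (v + (1, 0)) 2)
  N : ∀ v, zd v 0 ≤ ρ + 1 →
    Ed (tc * (P v 1 * b v 1)) (c v 0) (c v 1) (c (v + (0, 1)) 2) (c (v + (0, 1)) 3)
  pot : ∀ v k, zd v 0 ≤ ρ + 1 → Hv v - Hf (v - cn k) = c v k ^ 2

/-- The weight of the edge at the vertex `v` in the direction `a`. -/
def PV (P : ℤ × ℤ → Fin 2 → ℝ) (v : ℤ × ℤ) (a : Fin 4) : ℝ :=
  ![P v 0, P v 1, P (v - (1, 0)) 0, P (v - (0, 1)) 1] a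

/-- The weight of the west, south, east, north edge of the face `f`. -/
def PF (P : ℤ × ℤ → Fin 2 → ℝ) (f : ℤ × ℤ) (a : Fin 4) : ℝ :=
  ![P f 1, P f 0, P (f + (1, 0)) 1, P (f + (0, 1)) 0] a

/-- The quadratic forms. -/
noncomputable def FQ (b d : Fin 4 → ℝ) (a : Fin 4) : ℝ :=
  ![d 3 ^ 2 + d 0 ^ 2 - 2 * √2 * b 0 * (d 3 * d 0), d 0 ^ 2 + d 1 ^ 2 + 2 * √2 * b 1 * (d 0 * d 1),
    d 1 ^ 2 + d 2 ^ 2 + 2 * √2 * b 2 * (d 1 * d 2),
    d 2 ^ 2 + d 3 ^ 2 + 2 * √2 * b 3 * (d 2 * d 3)] a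

theorem FQ_est {b : Fin 4 → ℝ} (hb : ∀ a, b a * b a = 1) (k : b 1 * b 2 * b 3 * b 0 = 1)
    (d : Fin 4 → ℝ) : 0 ≤ ∑ a, FQ b d a ∧ ∑ k, d k ^ 2 ≤ 7 * ∑ a, |FQ b d a| := by
  simp only [Fin.sum_univ_four]
  exact form_face (d 0) (d 1) (d 2) (d 3) (hb 1) (hb 2) (hb 3) k rfl rfl rfl rfl

variable {ρ : ℕ} {P b : ℤ × ℤ → Fin 2 → ℝ} {c : ℤ × ℤ → Fin 4 → ℝ} {Hv Hf : ℤ × ℤ → ℝ}

theorem Dat.egE (h : Dat ρ P b c Hv Hf) (i j : ℤ) (h1 : zd (i, j + 1) 0 ≤ ρ + 1)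
    (h2 : zd (i + 1, j + 1) 0 ≤ ρ + 1) :
    Eg (P (i, j + 1) 0) (b (i, j + 1) 0) (-c (i, j + 1) 3) (c (i, j + 1) 0) (c (i + 1, j + 1) 1)
      (c (i + 1, j + 1) 2) (Hv (i, j + 1)) (Hv (i + 1, j + 1)) (Hf (i, j + 1)) (Hf (i, j)) :=
  ⟨by simpa using h.E _ h1, h.sign _ _, by simpa [cn] using h.pot _ 3 h1,
    by simpa [cn] using h.pot _ 0 h1, by simpa [cn] using h.pot _ 1 h2,
    by simpa [cn] using h.pot _ 2 h2⟩

theorem Dat.egN (h : Dat ρ P b c Hv Hf) (i j : ℤ) (h1 : zd (i + 1, j) 0 ≤ ρ + 1)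
    (h2 : zd (i + 1, j + 1) 0 ≤ ρ + 1) :
    Eg (P (i + 1, j) 1) (b (i + 1, j) 1) (c (i + 1, j) 0) (c (i + 1, j) 1) (c (i + 1, j + 1) 2)
      (c (i + 1, j + 1) 3) (Hv (i + 1, j)) (Hv (i + 1, j + 1)) (Hf (i, j)) (Hf (i + 1, j)) :=
  ⟨by simpa using h.N _ h1, h.sign _ _, by simpa [cn] using h.pot _ 0 h1,
    by simpa [cn] using h.pot _ 1 h1, by simpa [cn] using h.pot _ 2 h2,
    by simpa [cn] using h.pot _ 3 h2⟩

theorem shift (v : ℤ × ℤ) : ∃ i j : ℤ, v = (i + 1, j + 1) := ⟨v.1 - 1, v.2 - 1, by simp⟩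

/-- Around a vertex. -/
theorem Dat.vert (h : Dat ρ P b c Hv Hf) {v : ℤ × ℤ} (hv : zd v 0 ≤ ρ) (a : Fin 4) :
    (PV P v a = 1 → Hv (v + st4 a) - Hv v = FQ 1 (c v) a) ∧
    (PV P v a = 0 → Hf (v - cn (a - 1)) = Hf (v - cn a) ∧ -(2 * tc) * c v a ^ 2 = FQ 1 (c v) a) := by
  obtain ⟨i, j, rfl⟩ := shift v
  rw [zd_le] at hv
  simp only at hv
  have e0 := h.egE (i + 1) j (by rw [zd_le]; simp only; omega) (by rw [zd_le]; simp only; omega)
  have e1 := h.egN i (j + 1) (by rw [zd_le]; simp only; omega) (by rw [zd_le]; simp only; omega)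
  have e2 := h.egE i j (by rw [zd_le]; simp only; omega) (by rw [zd_le]; simp only; omega)
  have e3 := h.egN i j (by rw [zd_le]; simp only; omega) (by rw [zd_le]; simp only; omega)
  match a with
  | 0 =>
    refine ⟨fun hP => ?_, fun hP => ?_⟩
    · have := (e0.one hP).1
      simp [st4, FQ]
      linarith
    · have := e0.zero hP
      simp [cn, FQ]
      exact ⟨this.1.symm, by linarith [this.2.1]⟩
  | 1 =>
    refine ⟨fun hP => ?_, fun hP => ?_⟩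
    · have := (e1.one hP).1
      simp [st4, FQ]
      linarith
    · have := e1.zero hP
      simp [cn, FQ]
      exact ⟨this.1.symm, by linarith [this.2.1]⟩
  | 2 =>
    refine ⟨fun hP => ?_, fun hP => ?_⟩
    · have := (e2.one (by simpa [PV] using hP)).2.1
      simp [st4, FQ]
      linarith
    · have := e2.zero (by simpa [PV] using hP)
      simp [cn, FQ]
      exact ⟨this.1, by linarith [this.2.2]⟩
  | 3 =>
    refine ⟨fun hP => ?_, fun hP => ?_⟩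
    · have := (e3.one (by simpa [PV] using hP)).2.1
      simp [st4, FQ]
      linarith
    · have := e3.zero (by simpa [PV] using hP)
      simp [cn, FQ]
      exact ⟨this.1, by linarith [this.2.2]⟩

/-- Around a face. -/
theorem Dat.face (h : Dat ρ P b c Hv Hf) {f : ℤ × ℤ} (hf : zd f 0 ≤ ρ) (a : Fin 4) :
    (PF P f a = 1 → Hf f - Hf (f - st4 a) = FQ (PF b f) (fun k => c (f + cn k) k) a) ∧
    (PF P f a = tT → Hv (f + cn (a - 1)) = Hv (f + cn a) ∧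
      -(2 * tc) * c (f + cn a) a ^ 2 = FQ (PF b f) (fun k => c (f + cn k) k) a) := by
  obtain ⟨i, j, rfl⟩ := shift f
  rw [zd_le] at hf
  simp only at hf
  have e0 := h.egN i (j + 1) (by rw [zd_le]; simp only; omega) (by rw [zd_le]; simp only; omega)
  have e1 := h.egE (i + 1) j (by rw [zd_le]; simp only; omega) (by rw [zd_le]; simp only; omega)
  have e2 := h.egN (i + 1) (j + 1) (by rw [zd_le]; simp only; omega)
    (by rw [zd_le]; simp only; omega)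
  have e3 := h.egE (i + 1) (j + 1) (by rw [zd_le]; simp only; omega)
    (by rw [zd_le]; simp only; omega)
  match a with
  | 0 =>
    refine ⟨fun hP => ?_, fun hP => ?_⟩
    · have := (e0.one hP).2.2.2
      simp [st4, cn, FQ, PF]
      linarith
    · have := e0.top hP
      simp [cn, FQ, PF]
      exact ⟨this.1.symm, by linarith [this.2.2]⟩
  | 1 =>
    refine ⟨fun hP => ?_, fun hP => ?_⟩
    · have := (e1.one hP).2.2.1
      simp [st4, cn, FQ, PF]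
      linarith
    · have := e1.top hP
      simp [cn, FQ, PF]
      exact ⟨this.1, by linarith [this.2.1]⟩
  | 2 =>
    refine ⟨fun hP => ?_, fun hP => ?_⟩
    · have := (e2.one (by simpa [PF] using hP)).2.2.1
      simp [st4, cn, FQ, PF]
      linarith
    · have := e2.top (by simpa [PF] using hP)
      simp [cn, FQ, PF]
      exact ⟨this.1, by linarith [this.2.1]⟩
  | 3 =>
    refine ⟨fun hP => ?_, fun hP => ?_⟩
    · have := (e3.one (by simpa [PF] using hP)).2.2.2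
      simp [st4, cn, FQ, PF]
      linarith
    · have := e3.top (by simpa [PF] using hP)
      simp [cn, FQ, PF]
      exact ⟨this.1.symm, by linarith [this.2.2]⟩

theorem Dat.vest (c : ℤ × ℤ → Fin 4 → ℝ) (v : ℤ × ℤ) :
    0 ≤ ∑ a, FQ 1 (c v) a ∧ ∑ k, c v k ^ 2 ≤ 7 * ∑ a, |FQ 1 (c v) a| :=
  FQ_est (by simp) (by simp) _

theorem Dat.fest (h : Dat ρ P b c Hv Hf) {f : ℤ × ℤ} (hf : zd f 0 ≤ ρ) :
    0 ≤ ∑ a, FQ (PF b f) (fun k => c (f + cn k) k) a ∧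
      ∑ k, c (f + cn k) k ^ 2 ≤ 7 * ∑ a, |FQ (PF b f) (fun k => c (f + cn k) k) a| :=
  FQ_est (fun a => by fin_cases a <;> exact h.sign _ _) (h.flat f hf) _

end B2a

end Vale.Agent.P144Z
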