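import Vale.Agent.P144D.B.PairB

/-!
The pair in the plane lattice, for the two boundary conditions.
-/

namespace Vale.Agent.P144Z

open Finset Matrix

namespace B2a

/-- Functions that do not change between adjacent outer faces are constant on the outer faces. -/
def Cst (I : ℤ × ℤ → Prop) (s ρ : ℕ) : Prop :=
  ∀ g : ℤ × ℤ → ℝ, (∀ v e, zd v 0 ≤ ρ → zd (v + e) 0 ≤ ρ → ¬ I v → ¬ I (v + e) →
    e = (1, 0) ∨ e = (0, 1) → g (v + e) = g v) → ∃ κ, ∀ v, zd v 0 ≤ s → ¬ I v → g v = κ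

theorem st_cn (a : Fin 4) : st4 a + cn a = cn (a + 1) := by fin_cases a <;> rfl

theorem st_cn' (a : Fin 4) : st4 a + cn (a - 1) = cn (a + 2) := by fin_cases a <;> rfl

theorem st_st (a : Fin 4) : st4 (a + 2) = -st4 a := by fin_cases a <;> rfl

theorem zd_cn {v : ℤ × ℤ} {r : ℕ} (h : zd v 0 ≤ r) (k : Fin 4) :
    zd (v - cn k) 0 ≤ r + 1 ∧ zd (v + cn k) 0 ≤ r + 1 := by
  rw [zd_le] at h
  rw [zd_le, zd_le]
  fin_cases k <;> simp [cn] <;> omega

theorem zd_neg (v : ℤ × ℤ) : zd (-v) 0 = zd v 0 := by simp [zd]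

theorem sum_rot (g : Fin 4 → ℝ) : ∑ a, g (a + 2) = ∑ a, g a :=
  Fintype.sum_equiv (Equiv.addRight 2) _ _ fun _ => rfl

variable {s ρ : ℕ} {P b : ℤ × ℤ → Fin 2 → ℝ} {c : ℤ × ℤ → Fin 4 → ℝ} {Hv Hf : ℤ × ℤ → ℝ}
  {I out : ℤ × ℤ → Prop} {pr : ℤ × ℤ → Fin 4 → Prop}

open Classical in
theorem pair_plus (h : Dat ρ P b c Hv Hf) (hs : s + 2 ≤ ρ) (hc : Cst I (s + 2) ρ)
    (P0 : ∀ v, P v 0 = if I v ∨ I (v - (0, 1)) then 1 else 0)
    (P1 : ∀ v, P v 1 = if I v ∨ I (v - (1, 0)) then 1 else 0)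
    (hpr : ∀ v a, pr v a ↔ I (v - cn (a - 1)) ∨ I (v - cn a)) (hout : ∀ v, out v ↔ ¬ I v) :
    ∃ u w, IsPair s u w pr out ∧ (∀ v k, zd v 0 ≤ s → u v - w (v - cn k) = c v k ^ 2) ∧
      ∀ v, zd v 0 + 1 ≤ s → ∑ k, c v k ^ 2 ≤ 7 * ∑ a, |GG u pr v a| := by
  have hV : ∀ v a, PV P v a = if pr v a then 1 else 0 := by
    intro v a
    obtain ⟨i, j, rfl⟩ := shift v
    rw [hpr]
    match a with
    | 0 => simp [PV, P0, cn, or_comm]
    | 1 => simp [PV, P1, cn]
    | 2 => simp [PV, P0, cn]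
    | 3 => simp [PV, P1, cn, or_comm]
  have hF : ∀ f a, I f → PF P f a = 1 := by
    intro f a hf
    fin_cases a <;> simp [PF, P0, P1, hf]
  obtain ⟨κ, hκ⟩ := hc Hf (by
    rintro v e h1 h2 h3 h4 (rfl | rfl)
    · have := ((h.vert h2 1).2 (by
        rw [hV, if_neg]; rw [hpr]; simp [cn, h3, h4, Prod.mk_zero_zero])).1
      simpa [cn, Prod.mk_zero_zero] using this
    · have := ((h.vert h2 0).2 (by
        rw [hV, if_neg]; rw [hpr]; simp [cn, h3, h4, Prod.mk_zero_zero])).1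
      simpa [cn, Prod.mk_zero_zero] using this.symm)
  have key : ∀ v, zd v 0 ≤ s → ∀ a, GG (fun v => Hv v - κ) pr v a = FQ 1 (c v) a := by
    intro v hv a
    have k := h.vert (v := v) (by omega) a
    rw [hV] at k
    unfold GG
    split_ifs with hp
    · rw [← k.1 (if_pos hp)]; ring
    · rw [← (k.2 (if_neg hp)).2, ← h.pot v a (by omega),
        hκ (v - cn a) (by have := (zd_cn hv a).1; omega) fun hI => hp ((hpr _ _).2 (.inr hI))]
  have dif : ∀ v k, zd v 0 ≤ s → Hv v - κ - (Hf (v - cn k) - κ) = c v k ^ 2 := fun v k hv => by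
    rw [← h.pot v k (by omega)]; ring
  refine ⟨fun v => Hv v - κ, fun v => Hf v - κ, ⟨?_, ?_, ?_, ?_, ?_, ?_⟩, dif, ?_⟩
  · intro v k hv
    linarith [dif v k hv, sq_nonneg (c v k)]
  · intro v hv ho
    rw [hκ v (by omega) ((hout v).1 ho), sub_self]
  · intro v a hp
    rw [hout, hout]
    exact not_or.1 fun k => hp ((hpr _ _).2 k)
  · intro v a
    have e1 : v + st4 a - cn (a + 2 - 1) = v - cn a := by
      rw [show a + 2 - 1 = a + 1 by fin_cases a <;> rfl, ← st_cn]; abel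
    have e2 : v + st4 a - cn (a + 2) = v - cn (a - 1) := by rw [← st_cn']; abel
    rw [hpr, hpr, e1, e2, or_comm]
  · intro v hv
    simp only [key v (by omega)]
    exact (Dat.vest c v).1
  · intro f hf ho
    have hI : I f := by rwa [hout, not_not] at ho
    have k := (h.fest (f := f) (by omega)).1
    have e : ∀ a, Hf (f + st4 (a + 2)) - κ - (Hf f - κ) =
        -FQ (PF b f) (fun k => c (f + cn k) k) a := fun a => by
      rw [← (h.face (f := f) (by omega) a).1 (hF f a hI), st_st, ← sub_eq_add_neg]; ring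
    rw [← sum_rot]
    simp only [e, sum_neg_distrib]
    linarith
  · intro v hv
    simp only [key v (by omega)]
    exact (Dat.vest c v).2

open Classical in
theorem pair_free (h : Dat ρ P b c Hv Hf) (hs : s + 2 ≤ ρ) (hc : Cst I (s + 2) ρ)
    (P0 : ∀ v, P v 0 = if I v ∧ I (v - (0, 1)) then 1 else tT)
    (P1 : ∀ v, P v 1 = if I v ∧ I (v - (1, 0)) then 1 else tT)
    (hpr : ∀ v a, pr v a ↔ I (-v) ∧ I (-(v + st4 a))) (hout : ∀ v, out v ↔ ∃ k, ¬ I (-(v + cn k))) :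
    ∃ u w, IsPair s u w pr out ∧
      (∀ v k, zd v 0 ≤ s → u v - w (v - cn k) = c (-(v - cn k)) k ^ 2) ∧
      ∀ v, zd v 0 + 1 ≤ s → ∑ k, c (-(v - cn k)) k ^ 2 ≤ 7 * ∑ a, |GG u pr v a| := by
  have hF : ∀ f a, PF P f a = if I f ∧ I (f - st4 a) then 1 else tT := by
    intro f a
    obtain ⟨i, j, rfl⟩ := shift f
    match a with
    | 0 => simp [PF, P1, st4]
    | 1 => simp [PF, P0, st4]
    | 2 => simp [PF, P1, st4, and_comm]
    | 3 => simp [PF, P0, st4, and_comm]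
  have hV : ∀ v a, (∀ k, I (v - cn k)) → PV P v a = 1 := by
    intro v a hv
    obtain ⟨i, j, rfl⟩ := shift v
    have h0 := hv 0
    have h1 := hv 1
    have h2 := hv 2
    have h3 := hv 3
    simp [cn] at h0 h1 h2 h3
    fin_cases a <;> simp [PV, P0, P1, h0, h1, h2, h3]
  have ext : ∀ f, zd f 0 ≤ ρ → ¬ I f → ∀ k, Hv (f + cn k) = Hv f := by
    intro f hf hI k
    have e := fun a => ((h.face hf a).2 (by rw [hF, if_neg fun k => hI k.1])).1
    have e0 : Hv (f + cn 0) = Hv f := by simp [show cn 0 = 0 from rfl]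
    match k with
    | 0 => exact e0
    | 1 => exact (e 1).symm.trans e0
    | 2 => exact ((e 1).trans (e 2)).symm.trans e0
    | 3 => exact (e 0).trans e0
  obtain ⟨κ, hκ⟩ := hc Hv (by
    rintro v e h1 _ h3 _ (rfl | rfl)
    · exact ext v h1 h3 1
    · exact ext v h1 h3 3)
  have zer : ∀ v, zd v 0 ≤ s + 1 → out v → κ - Hv (-v) = 0 := by
    intro v hv ho
    obtain ⟨k, hk⟩ := (hout v).1 ho
    have hz : zd (-(v + cn k)) 0 ≤ s + 2 := by rw [zd_neg]; exact (zd_cn hv k).2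
    have := ext _ (by omega) hk k
    rw [hκ _ hz hk, show -(v + cn k) + cn k = -v by abel] at this
    rw [this, sub_self]
  have rem : ∀ v a, ¬ pr v a → out (v - cn (a - 1)) ∧ out (v - cn a) := by
    intro v a hp
    rw [hpr, not_and_or] at hp
    rw [hout, hout]
    rcases hp with hp | hp
    · exact ⟨⟨a - 1, by rwa [sub_add_cancel]⟩, a, by rwa [sub_add_cancel]⟩
    · exact ⟨⟨a + 2, by rwa [← st_cn', show ∀ x y : ℤ × ℤ, v - x + (y + x) = v + y from
        fun x y => by abel]⟩, a + 1, by rwa [← st_cn,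
        show ∀ x y : ℤ × ℤ, v - x + (y + x) = v + y from fun x y => by abel]⟩
  have en : ∀ v x : ℤ × ℤ, -(v - x) = -v + x := fun v x => by abel
  have dif : ∀ v k, zd v 0 ≤ s →
      κ - Hf (-v) - (κ - Hv (-(v - cn k))) = c (-(v - cn k)) k ^ 2 := fun v k hv => by
    rw [← h.pot _ k (by rw [zd_neg]; have := (zd_cn hv k).1; omega), en, add_sub_cancel_right]
    ring
  have key : ∀ v, zd v 0 ≤ s → ∀ a, GG (fun v => κ - Hf (-v)) pr v a =
      FQ (PF b (-v)) (fun k => c (-v + cn k) k) a := by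
    intro v hv a
    have k := h.face (f := -v) (by rw [zd_neg]; omega) a
    rw [hF, ← neg_add'] at k
    unfold GG
    split_ifs with hp
    · rw [← k.1 (if_pos ((hpr _ _).1 hp))]; ring
    · rw [← (k.2 (if_neg fun e => hp ((hpr _ _).2 e))).2, ← en, ← dif v a hv,
        zer _ (zd_cn hv a).1 (rem v a hp).2, sub_zero]
  refine ⟨fun v => κ - Hf (-v), fun v => κ - Hv (-v), ⟨?_, zer, rem, ?_, ?_, ?_⟩, dif, ?_⟩
  · intro v k hv
    linarith [dif v k hv, sq_nonneg (c (-(v - cn k)) k)]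
  · intro v a
    rw [hpr, hpr, st_st, add_neg_cancel_right, and_comm]
  · intro v hv
    simp only [key v (by omega)]
    exact (h.fest (by rw [zd_neg]; omega)).1
  · intro v hv ho
    have hI : ∀ k, I (-v - cn k) := fun k => by
      by_contra hk
      exact ho ((hout v).2 ⟨k, by rwa [neg_add']⟩)
    have k := (Dat.vest c (-v)).1
    have e : ∀ a, κ - Hv (-(v + st4 (a + 2))) - (κ - Hv (-v)) = -FQ 1 (c (-v)) a := fun a => by
      rw [← (h.vert (v := -v) (by rw [zd_neg]; omega) a).1 (hV _ a hI), st_st, ← sub_eq_add_neg, en]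
      ring
    rw [← sum_rot]
    simp only [e, sum_neg_distrib]
    linarith
  · intro v hv
    simp only [key v (by omega), en]
    exact (h.fest (by rw [zd_neg]; omega)).2

end B2a

end Vale.Agent.P144Z
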