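import Vale.Agent.P144D.B.Loc

/-!
The corner values of a homogeneous solution inside the region.
-/

namespace Vale.Agent.P144Z.B2b2

open Finset Matrix

variable {M : ℕ}

/-- The critical components of a field at a vertex. -/
noncomputable def aL (x : Tor M) (b : Fin 2) : (Tor M × Fin 4 → ℝ) →ₗ[ℝ] ℝ :=
  ∑ c, kv b c • LinearMap.proj (x, c)

theorem aL_apply (x : Tor M) (b : Fin 2) (φ : Tor M × Fin 4 → ℝ) :
    aL x b φ = ∑ c, kv b c * φ (x, c) := by
  simp [aL]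

theorem chi_pf (x y y' : Tor M) (a : Fin 2 → ℝ) :
    chi (E3.pf x a 0) y 1 ^ 2 - chi (E3.pf x a 0) y' 0 ^ 2 = tc * (a 1 ^ 2 - a 0 ^ 2) ∧
    chi (E3.pf x a 0) y 3 ^ 2 - chi (E3.pf x a 0) y' 0 ^ 2 = 2 * tc * a 0 * a 1 := by
  have h := E3.sq2
  simp [chi, E3.pf, sA, kv, tc, Fin.sum_univ_four, Fin.sum_univ_two]
  constructor <;> grind

theorem chi_sq {φ ψ : Tor M × Fin 4 → ℝ} {y : Tor M} {σ t δ : ℝ} (hσ : σ * σ = 1)
    (h1 : ∀ a, |σ * φ (y, a)| ≤ t) (h2 : ∀ a, |σ * φ (y, a) - ψ (y, a)| ≤ δ) (k : Fin 4) :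
    |chi φ y k ^ 2 - chi ψ y k ^ 2| ≤ 4 * δ * (8 * t + 4 * δ) := by
  have h3 := abs_chi_le (φ := σ • φ) (x := y) h1 k
  have h4 := abs_chi_le (φ := σ • φ - ψ) (x := y) h2 k
  have e1 : chi (σ • φ) y k = σ * chi φ y k := by
    simp only [chi, Pi.smul_apply, smul_eq_mul, Fin.sum_univ_four]
    ring
  have e2 : chi (σ • φ - ψ) y k = σ * chi φ y k - chi ψ y k := by
    simp only [chi, Pi.smul_apply, Pi.sub_apply, smul_eq_mul, Fin.sum_univ_four]
    ring
  have e3 : chi φ y k ^ 2 - chi ψ y k ^ 2 = (σ * chi φ y k - chi ψ y k) *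
      (2 * (σ * chi φ y k) - (σ * chi φ y k - chi ψ y k)) := by
    linear_combination (-chi φ y k ^ 2) * hσ
  rw [e1] at h3
  rw [e2] at h4
  rw [e3, abs_mul]
  refine mul_le_mul h4 ((abs_sub _ _).trans ?_) (abs_nonneg _) ((abs_nonneg _).trans h4)
  rw [abs_mul, abs_two]
  linarith

variable [NeZero M]

theorem pw_one {R : Reg M} {x : Tor M} {r : ℕ} (h : ∀ f, tdist f x ≤ r + 1 → f ∈ R.In)
    {e : Tor M × Fin 2} (he : tdist e.1 x ≤ r) : R.pw e = 1 := by
  have h1 := h e.1 (by omega)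
  have h2 := h (oth e) ((E3.near_sub _).trans (by omega))
  simp [Reg.pw, h1, h2]

/-- The corner values are bounded and close to those of a constant zero mode. -/
theorem int_est : ∃ C : ℝ, 1 ≤ C ∧ ∀ (M : ℕ) [NeZero M] (R : Reg M) (B : Gauge M), IsSign B →
    ∀ (x : Tor M) (r : ℕ), 16 ≤ r → 2 * r + 3 ≤ M → Flat B x r →
    (∀ f, tdist f x ≤ r + 5 → f ∈ R.In) → ∀ φ, Hom (R.pw * B) x (r + 3) φ → ∀ T : ℝ,
    l2sq (ball x r) φ ≤ T * r ^ 2 → (∀ y k, 2 * tdist y x ≤ r → chi φ y k ^ 2 ≤ C * T) ∧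
      ∀ m : ℕ, 1 ≤ m → 2 * m ≤ r → ∀ y y', tdist y x ≤ m → tdist y' x ≤ m →
        |chi φ y 1 ^ 2 - chi φ y' 0 ^ 2 - tc * (aL x 1 φ ^ 2 - aL x 0 φ ^ 2)| ≤ C * T * m / r ∧
        |chi φ y 3 ^ 2 - chi φ y' 0 ^ 2 - 2 * tc * aL x 0 φ * aL x 1 φ| ≤ C * T * m / r := by
  obtain ⟨C, hC, h⟩ := E3.sup_all
  refine ⟨960 * C, by linarith, fun M _ R B hB x r hr hM hF hI φ hφ T hT => ?_⟩
  have r0 : (0 : ℝ) < r := by exact_mod_cast (by omega : 0 < r)
  have hA : ∀ e : Tor M × Fin 2, tdist e.1 x ≤ r + 4 → B e = (R.pw * B) e := fun e he => by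
    rw [Pi.mul_apply, pw_one hI he, one_mul]
  have hH : hsq B r (ball x r) φ ≤ T * r ^ 2 := by
    rwa [W.hsq_congrA hA, E4.hsq_of_D _ _ hφ]
  have T0 : 0 ≤ T := nonneg_of_mul_nonneg_left ((E3.l2sq_nonneg _ _).trans hT) (by positivity)
  have hH' := mul_le_mul_of_nonneg_left hH (by linarith : 0 ≤ C)
  obtain ⟨t, t0, ht⟩ : ∃ t : ℝ, 0 ≤ t ∧ t ^ 2 = C * T := ⟨√(C * T), by positivity,
    Real.sq_sqrt (by positivity)⟩
  have k1 : ∀ y a, 2 * tdist y x ≤ r → |trans B x y * φ (y, a)| ≤ t := fun y a hy => by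
    have h1 := ((h M B hB x r hr hM hF φ y a hy).1 0 (by omega)).trans hH'
    simp only [E3.ch, pow_zero, one_mulVec, mul_zero, zero_add] at h1
    refine abs_le_of_sq_le_sq (le_of_mul_le_mul_right (a := (r : ℝ) ^ 2) ?_ (by positivity)) t0
    rw [ht]
    linarith
  have k2 : ∀ i y a, 2 * tdist y x ≤ r → |E3.dif i (E3.ch B x φ 0) (y, a)| ≤ t / r := by
    intro i y a hy
    have h1 := ((h M B hB x r hr hM hF φ y a hy).2.1 0 i (by omega)).trans hH'
    refine abs_le_of_sq_le_sq (le_of_mul_le_mul_right (a := (r : ℝ) ^ 4) ?_ (by positivity))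
      (by positivity)
    rw [div_pow, ht]
    exact h1.trans_eq (by field_simp)
  refine ⟨fun y k hy => ?_, fun m hm hmr => ?_⟩
  · have h1 := abs_chi_le (φ := φ) (x := y) (t := t) (fun a => by
      have := k1 y a hy
      rwa [abs_mul, P144Z.C.abs_sign (trans_sign hB x) y, one_mul] at this) k
    have h2 := pow_le_pow_left₀ (abs_nonneg _) h1 2
    rw [sq_abs, mul_pow, ht] at h2
    nlinarith
  · have k3 : ∀ y, tdist y x ≤ m → ∀ a, |trans B x y * φ (y, a) -
        E3.pf x (fun b => aL x b φ) 0 (y, a)| ≤ 6 * m * (t / r) := fun y hy a => by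
      have h1 := E3.taylor1 (u := E3.ch B x φ 0 - E3.pf x (fun b => aL x b φ) 0) (x := x) hm
        (ε := t / r) (fun i y a hy => ?_) (fun a => ?_) (fun a => ?_) hy a
      · simpa only [E3.ch, pow_zero, one_mulVec, Pi.sub_apply] using h1
      · have h2 := E3.dif_pf0 x (fun b => aL x b φ) i (y, a)
        have h3 := k2 i y a (by omega)
        simp only [E3.dif, Pi.sub_apply] at h2 h3 ⊢
        rwa [sub_eq_zero.1 h2, sub_sub_sub_cancel_right]
      · have h2 := W.Dm_pow_congr (A := B) (A' := R.pw * B) (z := x) φ 1 0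
          (fun e he => hA e (by omega)) x a (tdist_self x).le
        rw [mulVec_sub, Pi.sub_apply, E3.ch_chain hB hM hF _ 0 (by rw [tdist_self]; omega),
          E3.D1_pf hM (by rw [tdist_self]; omega), E3.pf_zero, E3.ch, zero_add, h2, pow_one,
          hφ (x, a) (by rw [tdist_self]; omega)]
        simp only [mul_zero, Pi.zero_apply, sub_zero, abs_zero]
        positivity
      · simp only [Pi.sub_apply, mul_sub, sum_sub_distrib, E3.kv_pf, aL_apply]
        simp [E3.ch, trans_self]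
    have k4 : ∀ y, tdist y x ≤ m → ∀ k, |chi φ y k ^ 2 -
        chi (E3.pf x (fun b => aL x b φ) 0) y k ^ 2| ≤ 480 * C * T * m / r := fun y hy k => by
      refine (chi_sq (E3.trans_sq hB x y) (fun a => k1 y a (by omega)) (k3 y hy) k).trans ?_
      have h1 : 6 * m * (t / r) ≤ 3 * t := by
        have : (2 * m : ℝ) ≤ r := by exact_mod_cast hmr
        rw [← mul_div_assoc, div_le_iff₀ r0]
        nlinarith
      refine (mul_le_mul_of_nonneg_left (by linarith : _ ≤ 20 * t) (by positivity)).trans_eq ?_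
      rw [mul_assoc 480, ← ht]
      ring
    intro y y' hy hy'
    obtain ⟨e1, e2⟩ := chi_pf x y y' fun b => aL x b φ
    have h1 := abs_le.1 (k4 y hy 1)
    have h2 := abs_le.1 (k4 y hy 3)
    have h3 := abs_le.1 (k4 y' hy' 0)
    have e : 960 * C * T * m / r = 480 * C * T * m / r + 480 * C * T * m / r := by ring
    rw [e, abs_le, abs_le]
    exact ⟨⟨by linarith, by linarith⟩, by linarith, by linarith⟩

end Vale.Agent.P144Z.B2b2
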