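import Vale.Agent.P144D.B.RkInt
import Vale.Agent.P144D.B.Lin

/-!
The pair of a homogeneous solution is nearly linear above a flat piece of the boundary.
-/

namespace Vale.Agent.P144Z.B2b2

open Finset Matrix

/-- A homogeneous solution with its pair, above a flat piece of the boundary with normal `n`. -/
structure Ctx {M : ℕ} [NeZero M] (R : Reg M) (B : Gauge M) (z : Tor M) (n : ℂ) (w₀ : ℝ) (s₁ : ℕ)
    (φ : Tor M × Fin 4 → ℝ) (C₀ μ : ℝ) (u w : ℤ × ℤ → ℝ) : Prop where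
  sign : IsSign B
  nrm : ‖n‖ = 1
  w0 : 0 ≤ w₀
  hM : 2 * s₁ + 13 ≤ M
  flat : Flat B z (s₁ + 4)
  inn : ∀ v, zd v 0 ≤ s₁ + 2 → w₀ ≤ ht n v → R.vx z v 0 ∈ R.In
  hom : Hom (R.pw * B) z (s₁ + 4) φ
  mu : 0 ≤ μ
  pair : IsPair s₁ u w (R.pr z) (R.out z)
  eq : ∀ v k, zd v 0 ≤ s₁ → u v - w (v - cn k) = chi φ (R.vx z v k) k ^ 2
  le : ∀ v, zd v 0 + 1 ≤ s₁ → ∑ k, chi φ (R.vx z v k) k ^ 2 ≤ C₀ * ∑ a, |GG u (R.pr z) v a|
  bd : ∀ v, 8 * zd v 0 ≤ s₁ →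
    |u v| ≤ μ * (max (ht n v) 0 + w₀ + 1) ∧ |w v| ≤ μ * (max (ht n v) 0 + w₀ + 1)

theorem Ctx.near {M : ℕ} [NeZero M] {R : Reg M} {B : Gauge M} {z : Tor M} {n : ℂ} {w₀ : ℝ}
    {s₁ : ℕ} {φ : Tor M × Fin 4 → ℝ} {C₀ μ : ℝ} {u w : ℤ × ℤ → ℝ}
    (h : Ctx R B z n w₀ s₁ φ C₀ μ u w) {c : ℤ × ℤ} {r : ℕ} (h1 : zd c 0 + r ≤ s₁ + 2)
    (h2 : w₀ + 2 * r ≤ ht n c) (d : ℤ × ℤ) (hd : zd d 0 ≤ r) : R.vx z (c + d) 0 ∈ R.In := by
  refine h.inn _ ((zd_add c d).trans (by omega)) ?_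
  have h3 := (abs_le.1 (abs_ht_le h.nrm d)).1
  have h4 : (zd d 0 : ℝ) ≤ r := by exact_mod_cast hd
  rw [ht_add]
  linarith

theorem tdist_vx_k {M : ℕ} [NeZero M] (R : Reg M) (z : Tor M) (c d : ℤ × ℤ) (k : Fin 4) :
    tdist (R.vx z (c + d) k) (R.vx z c 0) ≤ zd d 0 + 1 := by
  rw [vx_sub, add_assoc]
  refine (tdist_vx c _).trans ((zd_add _ _).trans ?_)
  rw [zd_neg]
  exact Nat.add_le_add_left (zd_ite k) _

/-- The interior estimates at a site of height comparable with `r`. -/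
theorem ctx_int (C₀ : ℝ) (hC₀ : 1 ≤ C₀) : ∃ C : ℝ, 1 ≤ C ∧ ∀ (M : ℕ) [NeZero M] (R : Reg M)
    (B : Gauge M) (z : Tor M) (n : ℂ) (w₀ : ℝ) (s₁ : ℕ) (φ : Tor M × Fin 4 → ℝ) (μ : ℝ)
    (u w : ℤ × ℤ → ℝ), Ctx R B z n w₀ s₁ φ C₀ μ u w → ∀ (c : ℤ × ℤ) (r : ℕ), 16 ≤ r →
    8 * (zd c 0 + 2 * r + 3) ≤ s₁ → w₀ + 2 * (r + 5 : ℕ) ≤ ht n c → ht n c ≤ 16 * r →
    (∀ y k, 2 * tdist y (R.vx z c 0) ≤ r → chi φ y k ^ 2 ≤ C * μ) ∧
      ∀ m : ℕ, 1 ≤ m → 2 * m ≤ r → ∀ y y', tdist y (R.vx z c 0) ≤ m → tdist y' (R.vx z c 0) ≤ m →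
        |chi φ y 1 ^ 2 - chi φ y' 0 ^ 2 -
          tc * (aL (R.vx z c 0) 1 φ ^ 2 - aL (R.vx z c 0) 0 φ ^ 2)| ≤ C * μ * m / r ∧
        |chi φ y 3 ^ 2 - chi φ y' 0 ^ 2 -
          2 * tc * aL (R.vx z c 0) 0 φ * aL (R.vx z c 0) 1 φ| ≤ C * μ * m / r := by
  obtain ⟨C₁, hC₁, h₁⟩ := loc_l2
  obtain ⟨C₂, hC₂, h₂⟩ := int_est
  have p1 := one_le_mul_of_one_le_of_one_le hC₁ hC₀
  refine ⟨C₂ * (80 * (C₁ * C₀)), by nlinarith, fun M _ R B z n w₀ s₁ φ μ u w h c r hr h1 h2 h3 => ?_⟩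
  have r1 : (16 : ℝ) ≤ r := by exact_mod_cast hr
  have hx := tdist_vx_zero (R := R) (z := z) c
  have hM := h.hM
  have hμ := h.mu
  have hw := h.w0
  have h4 := h₁ M R z s₁ φ u w C₀ (by linarith) h.pair h.le c r (μ * (40 * r)) (by omega)
    fun v hv => by
      refine (h.bd _ (by have := zd_add c v; omega)).1.trans (mul_le_mul_of_nonneg_left ?_ hμ)
      have h5 := (abs_le.1 (abs_ht_le h.nrm v)).2
      have h6 : (zd v 0 : ℝ) ≤ 2 * r + 3 := by exact_mod_cast hv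
      have h7 : max (ht n (c + v)) 0 ≤ 22 * r := max_le (by rw [ht_add]; linarith) (by linarith)
      push_cast at h2
      linarith
  simp only [mul_assoc C₂]
  simp only [← mul_assoc C₂ (80 * (C₁ * C₀) * μ)]
  refine h₂ M R B h.sign _ r hr (by omega) (fun f hf => h.flat f ?_) (fun f hf => ?_) φ
    (fun s hs => h.hom s ?_) _ (h4.trans ?_)
  · have := tdist_triangle f (R.vx z c 0) z
    omega
  · obtain ⟨d, hd, rfl⟩ := exists_vx hf
    exact h.near (by omega) h2 d hd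
  · have := tdist_triangle s.1 (R.vx z c 0) z
    omega
  · have h5 : C₁ * C₀ * (r + 1) ≤ C₁ * C₀ * (2 * r) :=
      mul_le_mul_of_nonneg_left (by linarith) (by linarith)
    exact (mul_le_mul_of_nonneg_right h5 (by positivity)).trans_eq (by ring)

/-- The linear approximation. -/
theorem ctx_lin (C₀ : ℝ) (hC₀ : 1 ≤ C₀) : ∃ C : ℝ, 1 ≤ C ∧ ∀ (M : ℕ) [NeZero M] (R : Reg M)
    (B : Gauge M) (z : Tor M) (n : ℂ) (w₀ : ℝ) (s₁ : ℕ) (φ : Tor M × Fin 4 → ℝ) (μ : ℝ)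
    (u w : ℤ × ℤ → ℝ), Ctx R B z n w₀ s₁ φ C₀ μ u w → ∀ P s : ℕ, 4 ≤ P →
    (512 * P ^ 3 : ℕ) * (w₀ + 1) ≤ s → 512 * P ^ 3 * s ≤ s₁ → ∃ lam : ℝ, |lam| ≤ C * μ ∧
      ∀ v, zd v 0 ≤ 2 * s + 3 → |u v - lam * max (ht n v) 0| ≤ C * μ * s / P ^ 2 := by
  obtain ⟨C₁, hC₁, h₁⟩ := ctx_int C₀ hC₀
  obtain ⟨C₂, hC₂, h₂⟩ := half_lin
  have p1 := one_le_mul_of_one_le_of_one_le hC₂ hC₁
  refine ⟨5 * (C₂ * C₁), by linarith, fun M _ R B z n w₀ s₁ φ μ u w h P s hP hs hs₁ => ?_⟩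
  have hμ := h.mu
  have hw := h.w0
  have P4 : (4 : ℝ) ≤ P := by exact_mod_cast hP
  have P0 : (0 : ℝ) < P := by linarith
  have q1 : 16 * P ≤ P ^ 3 := by nlinarith [Nat.mul_le_mul hP hP]
  have q2 : (16 : ℝ) * P ≤ P ^ 3 := by exact_mod_cast q1
  push_cast at hs
  have q3 : 2048 * (w₀ + 1) ≤ s / P ^ 2 := by
    rw [le_div_iff₀ (by positivity)]
    nlinarith [mul_le_mul_of_nonneg_right P4 (by positivity : 0 ≤ (P : ℝ) ^ 2 * (w₀ + 1))]
  have q4 : s / (P : ℝ) ^ 2 ≤ s := div_le_self (by positivity) (by nlinarith)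
  have q5 : 2048 ≤ s := by exact_mod_cast (by linarith : (2048 : ℝ) ≤ s)
  have q6 : 8192 * (P * s) ≤ s₁ := by nlinarith
  have q7 : 4 * s ≤ P * s := Nat.mul_le_mul_right s hP
  have q8 : μ ≤ C₁ * μ := le_mul_of_one_le_left hμ hC₁
  have key := h₂ (s₁ / 16 - 1) (P * (2 * s + 3)) (2 * s + 3) u w n (256 * (w₀ + 1))
    (C₁ * μ) h.nrm (by omega) (Nat.mul_le_mul_right _ hP) (by
      have : P * (2 * s + 3) ≤ P * (3 * s) := Nat.mul_le_mul_left _ (by omega)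
      rw [mul_left_comm] at this
      omega) (by positivity) (by push_cast; linarith) (fun v hv hh => ?_) fun v hv => ?_
  · obtain ⟨lam, l1, l2⟩ := key
    have l0 : C₂ * (C₁ * μ) = C₂ * C₁ * μ := by ring
    have l3 : 0 ≤ C₂ * C₁ * μ := by positivity
    rw [l0] at l1
    refine ⟨lam, by linarith, fun v hv => ?_⟩
    rw [mul_div_assoc, mul_assoc 5, mul_assoc 5, ← mul_left_comm]
    rcases le_total (256 * (w₀ + 1)) (ht n v) with h3 | h3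
    · rw [max_eq_left (by linarith)]
      refine (l2 v hv h3).trans ?_
      rw [l0]
      refine mul_le_mul_of_nonneg_left ?_ l3
      have s0 : (2048 : ℝ) ≤ s := by exact_mod_cast q5
      have e1 : ((2 * s + 3 : ℕ) : ℝ) ^ 3 / ((P * (2 * s + 3) : ℕ) : ℝ) ^ 2 ≤ 3 * (s / P ^ 2) := by
        push_cast
        rw [← mul_div_assoc, div_le_div_iff₀ (by positivity) (by positivity)]
        nlinarith [mul_le_mul_of_nonneg_right (by linarith : 2 * (s : ℝ) + 3 ≤ 3 * s)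
          (by positivity : 0 ≤ (2 * (s : ℝ) + 3) ^ 2 * P ^ 2)]
      have e2 : ((P * (2 * s + 3) : ℕ) : ℝ) * (2 * s + 3 : ℕ) / (s₁ / 16 - 1 : ℕ) ≤ s / P ^ 2 := by
        have a1 : 16 * (P ^ 3 * s) ≤ s₁ / 16 - 1 := by
          have : 16 * P * s ≤ P ^ 3 * s := Nat.mul_le_mul_right _ q1
          rw [mul_assoc] at hs₁ this
          omega
        have a2 : (16 : ℝ) * (P ^ 3 * s) ≤ (s₁ / 16 - 1 : ℕ) := by exact_mod_cast a1
        rw [div_le_div_iff₀ (lt_of_lt_of_le (by positivity) a2) (by positivity)]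
        refine le_trans ?_ (mul_le_mul_of_nonneg_left a2 (by positivity))
        push_cast
        nlinarith [mul_le_mul_of_nonneg_right (by nlinarith : (2 * (s : ℝ) + 3) ^ 2 ≤ 16 * s ^ 2)
          (by positivity : 0 ≤ (P : ℝ) ^ 3)]
      linarith
    · have a1 : max (ht n v) 0 ≤ 256 * (w₀ + 1) := max_le h3 (by positivity)
      have a2 := (h.bd v (by omega)).1
      have a3 := mul_le_mul l1 a1 (le_max_right _ _) l3
      have a4 : μ * (max (ht n v) 0 + w₀ + 1) ≤ C₂ * C₁ * μ * (257 * (w₀ + 1)) :=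
        mul_le_mul (le_mul_of_one_le_left hμ p1) (by linarith) (by positivity) l3
      have a5 := mul_le_mul_of_nonneg_left q3 l3
      refine (abs_sub _ _).trans ?_
      rw [abs_mul, abs_of_nonneg (le_max_right (ht n v) 0)]
      nlinarith [mul_nonneg l3 (by linarith : 0 ≤ w₀ + 1)]
  · have a1 := h.near (c := v) (r := 1) (by omega) (by push_cast; linarith)
    have a2 := h.pair.sub v (by omega)
    simp only [GG, pr_of a1, if_true] at a2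
    refine ⟨a2, h.pair.sup v (by omega) (not_out a1), fun k =>
      ⟨h.pair.le v k (by omega), ?_⟩⟩
    have a3 := (abs_le.1 (abs_ht_le h.nrm v)).2
    have a4 := Nat.floor_le (by linarith : 0 ≤ ht n v / 8)
    have a5 := Nat.lt_floor_add_one (ht n v / 8)
    generalize ⌊ht n v / 8⌋₊ = r at a4 a5
    have a6 : 31 ≤ r := by exact_mod_cast (by linarith : (31 : ℝ) ≤ r)
    have a7 : 4 * r ≤ zd v 0 := by exact_mod_cast (by linarith : (4 : ℝ) * r ≤ zd v 0)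
    have a8 : (31 : ℝ) ≤ r := by exact_mod_cast a6
    have a9 := (h₁ M R B z n w₀ s₁ φ μ u w h v r (by omega) (by omega) (by push_cast; linarith)
      (by linarith)).1 (R.vx z v k) k (by
        have := tdist_vx_k R z v 0 k
        simp only [add_zero, zd, sub_self, Int.natAbs_zero, max_self] at this
        omega)
    linarith [h.eq v k (by omega)]
  · have a1 : μ * (max (ht n v) 0 + w₀ + 1) ≤ C₁ * μ * (|ht n v| + 256 * (w₀ + 1) + 1) :=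
      mul_le_mul q8 (by linarith [max_le (le_abs_self (ht n v)) (abs_nonneg (ht n v))])
        (by positivity) (by positivity)
    exact ⟨(h.bd v (by omega)).1.trans a1, (h.bd v (by omega)).2.trans a1⟩

end Vale.Agent.P144Z.B2b2
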