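import Vale.Agent.P144D.B.RkLin

/-!
The slope of the pair is given by the critical components of the field at a reference point.
-/

namespace Vale.Agent.P144Z.B2b2

open Finset Matrix

theorem tele {f : ℕ → ℝ} {g δ : ℝ} (m : ℕ) (h : ∀ i < m, |f (i + 1) - f i - g| ≤ δ) :
    |f m - f 0 - m * g| ≤ m * δ := by
  induction m with
  | zero => simp
  | succ m ih =>
    have h1 := abs_le.1 (ih fun i hi => h i (by omega))
    have h2 := abs_le.1 (h m (by omega))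
    push_cast
    exact abs_le.2 ⟨by linarith, by linarith⟩

theorem zd_smul (i : ℕ) (k : Fin 4) : zd (i • cn k) 0 ≤ i := by
  induction i with
  | zero => simp [zd]
  | succ i ih => rw [succ_nsmul]; exact (zd_add _ _).trans (Nat.add_le_add ih (zd_cn k))

theorem ht_smul (n : ℂ) (i : ℕ) (v : ℤ × ℤ) : ht n (i • v) = i * ht n v := by
  simp [ht]
  ring

theorem exists_ref {n : ℂ} (hn : ‖n‖ = 1) (s : ℕ) :
    ∃ c : ℤ × ℤ, zd c 0 ≤ s ∧ (s : ℝ) / 2 ≤ ht n c := by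
  have h : n.re * n.re + n.im * n.im = 1 := by
    rw [← Complex.normSq_apply, Complex.normSq_eq_norm_sq, hn, one_pow]
  have s0 : (0 : ℝ) ≤ s := Nat.cast_nonneg s
  by_cases h1 : 1 / 2 ≤ n.re
  · exact ⟨(s, 0), by simp [zd], by simp [ht]; nlinarith⟩
  by_cases h2 : n.re ≤ -(1 / 2)
  · exact ⟨(-s, 0), by simp [zd], by simp [ht]; nlinarith⟩
  by_cases h3 : 1 / 2 ≤ n.im
  · exact ⟨(0, s), by simp [zd], by simp [ht]; nlinarith⟩
  have h4 : n.im ≤ -(1 / 2) := by nlinarith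
  exact ⟨(0, -s), by simp [zd], by simp [ht]; nlinarith⟩

theorem slope {u : ℤ × ℤ → ℝ} {n : ℂ} (hn : ‖n‖ = 1) {c : ℤ × ℤ} {k : Fin 4} {m : ℕ}
    {g δ E lam : ℝ} (hm : 1 ≤ m) (hc : 2 * m ≤ ht n c)
    (h1 : ∀ i < m, |u (c + (i + 1) • cn k) - u (c + i • cn k) - g| ≤ δ)
    (h2 : ∀ i ≤ m, |u (c + i • cn k) - lam * max (ht n (c + i • cn k)) 0| ≤ m * E) :
    |g - lam * ht n (cn k)| ≤ δ + 2 * E := by
  have m0 : (0 : ℝ) < m := by exact_mod_cast hm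
  have a1 := tele (f := fun i => u (c + i • cn k)) m h1
  have a2 := h2 0 (by omega)
  have a3 := h2 m le_rfl
  have a4 : -2 ≤ ht n (cn k) := by
    have b1 := (abs_le.1 (abs_ht_le hn (cn k))).1
    have b2 : (zd (cn k) 0 : ℝ) ≤ 1 := by exact_mod_cast zd_cn k
    linarith
  simp only [zero_smul, add_zero] at a1 a2
  rw [max_eq_left (by linarith)] at a2
  rw [ht_add, ht_smul, max_eq_left (by nlinarith)] at a3
  rw [abs_le] at a1 a2 a3
  refine le_of_mul_le_mul_left ?_ m0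
  rw [← abs_of_pos m0, ← abs_mul, abs_of_pos m0, abs_le]
  constructor <;> linarith

theorem nums {w₀ : ℝ} (hw : 0 ≤ w₀) {P s : ℕ} (hP : 32 ≤ P)
    (hs : (512 * P ^ 3 : ℕ) * (w₀ + 1) ≤ s) : 16384 * (w₀ + 1) ≤ s ∧ 16384 ≤ s ∧ ∃ m : ℕ, 1 ≤ m ∧
      m * 32 ≤ s ∧ ∀ t : ℝ, 0 ≤ t → t * (m + 1 : ℕ) / (s / 7 : ℕ) ≤ 16 * (t / P) ∧
        t * s / P ^ 2 ≤ m * (2 * (t / P)) := by
  have P1 : (32 : ℝ) ≤ P := by exact_mod_cast hP
  have P0 : (0 : ℝ) < P := by linarith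
  have q2 : (P : ℝ) ≤ P ^ 3 := by exact_mod_cast Nat.le_self_pow (by omega) P
  push_cast at hs
  have q3 : 512 * P * (w₀ + 1) ≤ s := le_trans (by gcongr) hs
  have q4 : 512 * P ≤ s := by exact_mod_cast (by nlinarith : (512 : ℝ) * P ≤ s)
  have m1 : 1 ≤ s / P := (Nat.le_div_iff_mul_le (by omega)).2 (by omega)
  have m2 : s / P * P ≤ s := Nat.div_mul_le_self s P
  have m3 : s < (s / P + 1) * P := by rw [mul_comm]; exact Nat.lt_mul_div_succ s (by omega)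
  generalize s / P = m at m1 m2 m3
  have m5 : (1 : ℝ) ≤ m := by exact_mod_cast m1
  have m6 : (m : ℝ) * P ≤ s := by exact_mod_cast m2
  have m7 : (s : ℝ) ≤ (m + 1) * P := by exact_mod_cast m3.le
  have r2 : (s : ℝ) ≤ 8 * (s / 7 : ℕ) := by exact_mod_cast (by omega : s ≤ 8 * (s / 7))
  refine ⟨by nlinarith, by omega, m, m1, (Nat.mul_le_mul_left m hP).trans m2, fun t ht => ⟨?_, ?_⟩⟩
  · rw [← mul_div_assoc, div_le_div_iff₀ (by nlinarith) P0, Nat.cast_succ]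
    nlinarith [mul_le_mul_of_nonneg_left (by nlinarith : ((m : ℝ) + 1) * P ≤ 16 * (s / 7 : ℕ)) ht]
  · rw [← mul_div_assoc, ← mul_div_assoc, div_le_div_iff₀ (by positivity) P0]
    nlinarith [mul_le_mul_of_nonneg_left (by nlinarith : (s : ℝ) ≤ 2 * m * P)
      (by positivity : 0 ≤ t * P)]

theorem sup_le {n : ℂ} (hn : ‖n‖ = 1) {C μ lam x P : ℝ} (hC : 1 ≤ C) (hμ : 0 ≤ μ) (hP : 1 ≤ P)
    {s : ℕ} (hs : 3 ≤ s) {v : ℤ × ℤ} (hv : zd v 0 ≤ 2 * s + 3)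
    (h : |x - lam * max (ht n v) 0| ≤ C * μ * s / P ^ 2) : |x| ≤ 6 * C * s * (|lam| + μ / P) := by
  have s1 : (3 : ℝ) ≤ s := by exact_mod_cast hs
  have b2 : max (ht n v) 0 ≤ 6 * s := by
    have b3 := (abs_le.1 (abs_ht_le hn v)).2
    have b4 : (zd v 0 : ℝ) ≤ 2 * s + 3 := by exact_mod_cast hv
    exact max_le (by linarith) (by linarith)
  have b3 : |lam * max (ht n v) 0| ≤ |lam| * (6 * C * s) := by
    rw [abs_mul, abs_of_nonneg (le_max_right (ht n v) 0)]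
    exact mul_le_mul_of_nonneg_left (b2.trans (by nlinarith)) (abs_nonneg _)
  have b4 : C * μ * s / P ^ 2 ≤ C * μ * s / P :=
    div_le_div_of_nonneg_left (by positivity) (by linarith) (by nlinarith)
  have b5 : 0 ≤ C * μ * s / P := by positivity
  have e : 6 * C * s * (|lam| + μ / P) = |lam| * (6 * C * s) + 6 * (C * μ * s / P) := by ring
  linarith [abs_sub_abs_le_abs_sub x (lam * max (ht n v) 0)]

theorem ctx_main (C₀ : ℝ) (hC₀ : 1 ≤ C₀) : ∃ C : ℝ, 1 ≤ C ∧ ∀ (M : ℕ) [NeZero M] (R : Reg M)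
    (B : Gauge M) (z : Tor M) (n : ℂ) (w₀ : ℝ) (s₁ : ℕ) (φ : Tor M × Fin 4 → ℝ) (μ : ℝ)
    (u w : ℤ × ℤ → ℝ), Ctx R B z n w₀ s₁ φ C₀ μ u w → ∀ P s : ℕ, 32 ≤ P →
    (512 * P ^ 3 : ℕ) * (w₀ + 1) ≤ s → 512 * P ^ 3 * s ≤ s₁ → ∀ c : ℤ × ℤ, zd c 0 ≤ s →
    (s : ℝ) / 2 ≤ ht n c → ∃ lam : ℝ, |lam| ≤ C * μ ∧
      |tc * (aL (R.vx z c 0) 1 φ ^ 2 - aL (R.vx z c 0) 0 φ ^ 2) - lam * n.re| ≤ C * (μ / P) ∧
      |2 * tc * aL (R.vx z c 0) 0 φ * aL (R.vx z c 0) 1 φ - lam * n.im| ≤ C * (μ / P) ∧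
      l2sq (ball z s) φ ≤ C * s ^ 2 * (|lam| + μ / P) := by
  obtain ⟨C₁, hC₁, h₁⟩ := ctx_int C₀ hC₀
  obtain ⟨C₂, hC₂, h₂⟩ := ctx_lin C₀ hC₀
  obtain ⟨C₃, hC₃, h₃⟩ := loc_l2
  have p2 := one_le_mul_of_one_le_of_one_le (one_le_mul_of_one_le_of_one_le hC₃ hC₀) hC₂
  refine ⟨16 * C₁ + 4 * C₂ + 12 * (C₃ * C₀ * C₂), by linarith,
    fun M _ R B z n w₀ s₁ φ μ u w h P s hP hs hs₁ c hc hh => ?_⟩
  obtain ⟨lam, l1, l2⟩ := h₂ M R B z n w₀ s₁ φ μ u w h P s (by omega) hs hs₁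
  have hμ := h.mu
  have hw := h.w0
  obtain ⟨q1, q2, m, m1, m2, m3⟩ := nums hw hP hs
  have q3 : 512 * s ≤ s₁ := le_trans (Nat.mul_le_mul_right _ (Nat.le_mul_of_pos_right _
    (Nat.pow_pos (by omega)))) hs₁
  have q4 := h₃ M R z s₁ φ u w C₀ (by linarith) h.pair h.le 0 s
    (6 * C₂ * s * (|lam| + μ / P)) (by simp only [zd, sub_self, Int.natAbs_zero, max_self]; omega)
    fun v hv => by
      rw [zero_add]
      exact sup_le h.nrm hC₂ hμ (by exact_mod_cast (by omega : 1 ≤ P)) (by omega) hv (l2 v hv)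
  have m4 : (m : ℝ) * 32 ≤ s := by exact_mod_cast m2
  have r1 : 7 * ((s / 7 : ℕ) : ℝ) ≤ s := by exact_mod_cast Nat.mul_div_le s 7
  have r2 : (s : ℝ) ≤ 8 * (s / 7 : ℕ) := by exact_mod_cast (by omega : s ≤ 8 * (s / 7))
  have c1 : (zd c 0 : ℝ) ≤ s := by exact_mod_cast hc
  have k1 := (h₁ M R B z n w₀ s₁ φ μ u w h c (s / 7) (by omega) (by omega)
    (by rw [Nat.cast_add, Nat.cast_ofNat]; linarith)
    (by linarith [(abs_le.1 (abs_ht_le h.nrm c)).2])).2 (m + 1) (by omega) (by omega)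
  clear h₁ h₂ h₃ hs hs₁
  have step : ∀ (k : Fin 4) (g : ℝ), (∀ y y', tdist y (R.vx z c 0) ≤ m + 1 →
      tdist y' (R.vx z c 0) ≤ m + 1 → |chi φ y k ^ 2 - chi φ y' 0 ^ 2 - g| ≤
        C₁ * μ * (m + 1 : ℕ) / (s / 7 : ℕ)) → |g - lam * ht n (cn k)| ≤
      (16 * C₁ + 4 * C₂ + 12 * (C₃ * C₀ * C₂)) * (μ / P) := fun k g hg => by
    have z1 : ∀ i ≤ m, zd (c + i • cn k) 0 ≤ 2 * s := fun i hi => by
      have a1 := zd_add c (i • cn k)
      have a2 := zd_smul i k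
      omega
    refine (slope (u := u) (c := c) (δ := 16 * (C₁ * μ / P)) (E := 2 * (C₂ * μ / P)) h.nrm m1
      (by linarith) (fun i hi => ?_) fun i hi =>
        (l2 _ ((z1 i hi).trans (by omega))).trans (m3 _ (by positivity)).2).trans ?_
    · have b1 := h.eq (c + (i + 1) • cn k) k ((z1 _ hi).trans (by omega))
      have b2 := h.eq (c + i • cn k) 0 ((z1 _ hi.le).trans (by omega))
      rw [succ_nsmul, ← add_assoc, add_sub_cancel_right, add_assoc, ← succ_nsmul] at b1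
      rw [show cn 0 = 0 from rfl, sub_zero] at b2
      refine le_of_eq_of_le (congrArg _ (by linarith)) ((hg _ _
        ((tdist_vx_k R z c ((i + 1) • cn k) k).trans ?_)
        ((tdist_vx_k R z c (i • cn k) 0).trans ?_)).trans (m3 _ (by positivity)).1)
      · exact Nat.add_le_add_right ((zd_smul _ k).trans hi) 1
      · exact Nat.add_le_add_right ((zd_smul _ k).trans hi.le) 1
    · have a5 : 0 ≤ C₃ * C₀ * C₂ * (μ / P) := by positivity
      rw [mul_div_assoc, mul_div_assoc]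
      linarith
  refine ⟨lam, l1.trans (mul_le_mul_of_nonneg_right (by linarith) hμ),
    by simpa [ht, cn] using step 1 _ fun y y' hy hy' => (k1 y y' hy hy').1,
    by simpa [ht, cn] using step 3 _ fun y y' hy hy' => (k1 y y' hy hy').2, ?_⟩
  rw [vx_zero, G.prj_zero, sub_zero, add_zero, ite_self] at q4
  refine q4.trans ?_
  rw [← mul_assoc]
  refine mul_le_mul_of_nonneg_right ?_ (by positivity)
  have b1 : C₃ * C₀ * C₂ * ((s + 1) * s) ≤ C₃ * C₀ * C₂ * (2 * s ^ 2) :=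
    mul_le_mul_of_nonneg_left (by nlinarith) (by linarith)
  linarith [mul_nonneg (by linarith : 0 ≤ 16 * C₁ + 4 * C₂) (sq_nonneg (s : ℝ))]

end Vale.Agent.P144Z.B2b2
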