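import Vale.Agent.P144D.B.Max

/-!
The domain half of Q1: the supremum of a pair is bounded by its mass.
-/

namespace Vale.Agent.P144Z

open Finset

namespace B1a1

theorem walk (g e : ℕ → ℝ) (n : ℕ) (h0 : 0 ≤ e 0)
    (h : ∀ t, t < n → |g (t + 1) - g t| ≤ e t + e (t + 1)) :
    |g n - g 0| + e n ≤ 2 * ∑ t ∈ range (n + 1), e t := by
  induction n with
  | zero => simp; linarith
  | succ n ih =>
    have h1 := ih fun t ht => h t (by omega)
    have h2 := h n (by omega)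
    have h3 := abs_sub_le (g (n + 1)) (g n) (g 0)
    rw [Finset.sum_range_succ _ (n + 1)]
    linarith

variable {ρ : ℕ} {u w : ℤ × ℤ → ℝ} {pr : ℤ × ℤ → Fin 4 → Prop} {out : ℤ × ℤ → Prop}

/-- The mass at a site. -/
def ms (u w : ℤ × ℤ → ℝ) (x : ℤ × ℤ) : ℝ := ∑ k, (u x - w (x - cn k))

/-- The mass on the contour. -/
noncomputable def mc (u w : ℤ × ℤ → ℝ) (ρ s : ℕ) : ℝ :=
  ∑ x ∈ (Finset.Icc (-(ρ : ℤ)) ρ ×ˢ Finset.Icc (-(ρ : ℤ)) ρ) with zd x 0 = s, ms u w x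

theorem ms_nonneg (h : IsPair ρ u w pr out) {x : ℤ × ℤ} (hx : zd x 0 ≤ ρ) : 0 ≤ ms u w x :=
  Finset.sum_nonneg fun k _ => sub_nonneg.2 (h.le x k hx)

theorem le_ms (h : IsPair ρ u w pr out) {x : ℤ × ℤ} (hx : zd x 0 ≤ ρ) (k : Fin 4) :
    u x - w (x - cn k) ≤ ms u w x :=
  Finset.single_le_sum (f := fun k => u x - w (x - cn k))
    (fun k _ => sub_nonneg.2 (h.le x k hx)) (Finset.mem_univ k)

theorem step (h : IsPair ρ u w pr out) {x y : ℤ × ℤ} (hx : zd x 0 ≤ ρ) (hy : zd y 0 ≤ ρ)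
    {k : Fin 4} (hk : y - cn k = x) : |u y - u x| ≤ ms u w x + ms u w y := by
  have h1 := h.le x 0 hx
  have h2 := le_ms h hx 0
  have h3 := h.le y k hy
  have h4 := le_ms h hy k
  rw [sub_cn_zero] at h1 h2
  rw [hk] at h3 h4
  rw [abs_le]
  constructor <;> linarith

theorem mc_nonneg (h : IsPair ρ u w pr out) (s : ℕ) : 0 ≤ mc u w ρ s :=
  Finset.sum_nonneg fun _ hx => ms_nonneg h (mem_box.1 (Finset.mem_filter.1 hx).1)

theorem ms_le (h : IsPair ρ u w pr out) {s : ℕ} (hs : s ≤ ρ) {x : ℤ × ℤ} (hx : zd x 0 = s) :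
    ms u w x ≤ mc u w ρ s :=
  Finset.single_le_sum (f := ms u w)
    (fun _ hx => ms_nonneg h (mem_box.1 (Finset.mem_filter.1 hx).1))
    (Finset.mem_filter.2 ⟨mem_box.2 (hx.trans_le hs), hx⟩)

theorem side (h : IsPair ρ u w pr out) {s : ℕ} (hs : s ≤ ρ) (p : ℕ → ℤ × ℤ)
    (hp : Function.Injective p) (k : Fin 4) (hk : ∀ t, p (t + 1) - cn k = p t) (n : ℕ)
    (hn : ∀ t, t ≤ n → zd (p t) 0 = s) : |u (p n) - u (p 0)| ≤ 2 * mc u w ρ s := by
  have h1 := walk (fun t => u (p t)) (fun t => ms u w (p t)) n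
    (ms_nonneg h ((hn 0 n.zero_le).trans_le hs)) fun t ht =>
      step h ((hn t ht.le).trans_le hs) ((hn _ ht).trans_le hs) (hk t)
  have h2 : ∑ t ∈ range (n + 1), ms u w (p t) ≤ mc u w ρ s := by
    rw [← Finset.sum_image (f := ms u w) fun _ _ _ _ h3 => hp h3]
    refine Finset.sum_le_sum_of_subset_of_nonneg (fun x hx => ?_)
      fun _ hx _ => ms_nonneg h (mem_box.1 (Finset.mem_filter.1 hx).1)
    obtain ⟨t, ht, rfl⟩ := Finset.mem_image.1 hx
    have h3 := hn t (Nat.lt_succ_iff.1 (Finset.mem_range.1 ht))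
    exact Finset.mem_filter.2 ⟨mem_box.2 (h3.trans_le hs), h3⟩
  have h3 := ms_nonneg h ((hn n le_rfl).trans_le hs)
  linarith

theorem side_h (h : IsPair ρ u w pr out) {s : ℕ} (hs : s ≤ ρ) {a b : ℤ} (ha : -(s : ℤ) ≤ a)
    (ha' : a ≤ s) (hb : b = s ∨ b = -s) : |u (a, b) - u (-s, b)| ≤ 2 * mc u w ρ s := by
  have h1 := side h hs (fun t => (-s + t, b)) (fun t t' h1 => by
    have h2 : -(s : ℤ) + t = -s + t' := congrArg Prod.fst h1
    omega) 1 (fun t => Prod.ext (by simp [cn]; ring) (by simp [cn])) (a + s).toNat fun t ht => by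
      simp only [zd, Prod.fst_zero, Prod.snd_zero, sub_zero]
      omega
  have h2 : -(s : ℤ) + ((a + s).toNat : ℤ) = a := by omega
  simpa only [h2, Nat.cast_zero, add_zero] using h1

theorem side_v (h : IsPair ρ u w pr out) {s : ℕ} (hs : s ≤ ρ) {a b : ℤ} (hb : -(s : ℤ) ≤ b)
    (hb' : b ≤ s) (ha : a = s ∨ a = -s) : |u (a, b) - u (a, -s)| ≤ 2 * mc u w ρ s := by
  have h1 := side h hs (fun t => (a, -s + t)) (fun t t' h1 => by
    have h2 : -(s : ℤ) + t = -s + t' := congrArg Prod.snd h1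
    omega) 3 (fun t => Prod.ext (by simp [cn]) (by simp [cn]; ring)) (b + s).toNat fun t ht => by
      simp only [zd, Prod.fst_zero, Prod.snd_zero, sub_zero]
      omega
  have h2 : -(s : ℤ) + ((b + s).toNat : ℤ) = b := by omega
  simpa only [h2, Nat.cast_zero, add_zero] using h1

theorem contour (h : IsPair ρ u w pr out) {s : ℕ} (hs : s ≤ ρ) {x : ℤ × ℤ} (hx : zd x 0 = s) :
    |u x - u (-s, -s)| ≤ 4 * mc u w ρ s := by
  obtain ⟨a, b⟩ := x
  simp only [zd, Prod.fst_zero, Prod.snd_zero, sub_zero] at hx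
  by_cases ha : a = s ∨ a = -s
  · have h1 := side_v h hs (a := a) (b := b) (by omega) (by omega) ha
    have h2 := side_h h hs (a := a) (b := -s) (by omega) (by omega) (Or.inr rfl)
    linarith [abs_sub_le (u (a, b)) (u (a, -s)) (u (-s, -s))]
  · have h1 := side_h h hs (a := a) (b := b) (by omega) (by omega) (by omega)
    have h2 := side_v h hs (a := -s) (b := b) (by omega) (by omega) (Or.inr rfl)
    linarith [abs_sub_le (u (a, b)) (u (-s, b)) (u (-s, -s))]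

theorem bound (h : IsPair ρ u w pr out) {s : ℕ} (hs : s ≤ ρ) {x : ℤ × ℤ} {k : Fin 4}
    (hx : zd x 0 = s) (ho : out (x - cn k)) {v : ℤ × ℤ} (hv : zd v 0 ≤ s) :
    |u v| ≤ 10 * mc u w ρ s ∧ |w v| ≤ 10 * mc u w ρ s := by
  have h0 := mc_nonneg h s
  have h1 : w (x - cn k) = 0 := h.zero _ (by have := zd_corner x k; omega) ho
  have h2 := h.le x k (hx.trans_le hs)
  have h3 := (le_ms h (hx.trans_le hs) k).trans (ms_le h hs hx)
  have h4 := abs_le.1 (contour h hs hx)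
  have h5 := h.max_u hs (b := 10 * mc u w ρ s) (by linarith) (fun y hy => by
    linarith [(abs_le.1 (contour h hs hy)).2]) v hv
  have h6 := h.min_w hs (b := 10 * mc u w ρ s) (by linarith) (fun y hy => by
    have h7 := (le_ms h (hy.trans_le hs) 0).trans (ms_le h hs hy)
    rw [sub_cn_zero] at h7
    linarith [(abs_le.1 (contour h hs hy)).1]) v hv
  have h7 := h.le v 0 (hv.trans hs)
  rw [sub_cn_zero] at h7
  exact ⟨abs_le.2 ⟨by linarith, h5⟩, abs_le.2 ⟨h6, by linarith⟩⟩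

end B1a1

open B1a1

/-- The supremum is bounded by the mass. -/
theorem pair_sup : ∃ C : ℝ, 1 ≤ C ∧ ∀ (ρ : ℕ) (u w : ℤ × ℤ → ℝ) (pr : ℤ × ℤ → Fin 4 → Prop)
    (out : ℤ × ℤ → Prop), IsPair ρ u w pr out → 8 ≤ ρ →
    (∀ s : ℕ, ρ ≤ 2 * s → s ≤ ρ → ∃ v k, zd v 0 = s ∧ out (v - cn k)) →
    ∀ v, 2 * zd v 0 ≤ ρ → ∀ N : ℝ,
      (∑ x ∈ Finset.Icc (-(ρ : ℤ)) ρ ×ˢ Finset.Icc (-(ρ : ℤ)) ρ, ∑ k, (u x - w (x - cn k))) ≤ N →
      |u v| * ρ ≤ C * N ∧ |w v| * ρ ≤ C * N := by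
  refine ⟨20, by norm_num, fun ρ u w pr out h _ ho v hv N hN => ?_⟩
  have h1 : ∑ s ∈ Finset.Icc ((ρ + 1) / 2) ρ, mc u w ρ s ≤ N :=
    (Finset.sum_fiberwise_le_sum_of_sum_fiber_nonneg fun s _ => mc_nonneg h s).trans hN
  have h0 : 0 ≤ N := (Finset.sum_nonneg fun s _ => mc_nonneg h s).trans h1
  obtain ⟨s, hs, h2⟩ := Finset.exists_le_of_sum_le (s := Finset.Icc ((ρ + 1) / 2) ρ)
    (f := fun s => mc u w ρ s * ρ) (g := fun _ => 2 * N) (Finset.nonempty_Icc.2 (by omega)) (by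
      rw [← Finset.sum_mul, Finset.sum_const, Nat.card_Icc, nsmul_eq_mul]
      have h3 : ρ ≤ 2 * (ρ + 1 - (ρ + 1) / 2) := by omega
      have h4 : (ρ : ℝ) ≤ 2 * ((ρ + 1 - (ρ + 1) / 2 : ℕ) : ℝ) := by exact_mod_cast h3
      have h5 := mul_le_mul_of_nonneg_right h1 (Nat.cast_nonneg (α := ℝ) ρ)
      nlinarith)
  obtain ⟨h3, h4⟩ := Finset.mem_Icc.1 hs
  obtain ⟨x, k, hx, h5⟩ := ho s (by omega) h4
  obtain ⟨h6, h7⟩ := bound h h4 hx h5 (v := v) (by omega)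
  have h8 := Nat.cast_nonneg (α := ℝ) ρ
  exact ⟨by nlinarith, by nlinarith⟩

end Vale.Agent.P144Z
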