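import Vale.Agent.P144D.DefsB
import Vale.Agent.P144Z.E5.Base

/-! The trace of a field on the boundary layer. -/

namespace Vale.Agent.P144Z

open Finset Matrix

namespace B3b

variable {M : ℕ} [NeZero M]

theorem line_le {q d : ZMod M → ℝ} (hd : ∀ k, 0 ≤ d k) (h : ∀ k, q k - q (k + 1) ≤ d k)
    {k₀ : ZMod M} (h0 : q k₀ = 0) (k : ZMod M) : q k ≤ ∑ j, d j := by
  have h1 : ∀ n : ℕ, q k - q (k + n) ≤ ∑ m ∈ range n, d (k + m) := by
    intro n
    induction n with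
    | zero => simp
    | succ n ih =>
      rw [sum_range_succ, Nat.cast_succ, ← add_assoc]
      linarith [h (k + n)]
  have h2 := h1 (k₀ - k).val
  rw [ZMod.natCast_zmod_val, add_sub_cancel, h0, sub_zero] at h2
  refine h2.trans ?_
  rw [← sum_image (s := range (k₀ - k).val) (g := fun m : ℕ => k + m) (f := d)]
  · exact sum_le_sum_of_subset_of_nonneg (subset_univ _) fun j _ _ => hd j
  · intro a ha b hb e
    have ha' := (mem_range.1 (mem_coe.1 ha)).trans (ZMod.val_lt _)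
    have hb' := (mem_range.1 (mem_coe.1 hb)).trans (ZMod.val_lt _)
    have e' := congrArg ZMod.val (add_left_cancel e)
    rwa [ZMod.val_cast_of_lt ha', ZMod.val_cast_of_lt hb'] at e'

/-- The majorant of the decrease of the square along an edge. -/
def dd (B : Gauge M) (g : Tor M × Fin 4 → ℝ) (i : Fin 2) (y : Tor M) : ℝ :=
  ∑ a, |B (y, i) * g (y + uv M i, a) - g (y, a)| * |B (y, i) * g (y + uv M i, a) + g (y, a)|

omit [NeZero M] in
theorem dd_nonneg (B : Gauge M) (g : Tor M × Fin 4 → ℝ) (i : Fin 2) (y : Tor M) :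
    0 ≤ dd B g i y := sum_nonneg fun _ _ => by positivity

omit [NeZero M] in
theorem sub_le_dd {B : Gauge M} (hB : IsSign B) (g : Tor M × Fin 4 → ℝ) (i : Fin 2) (y : Tor M) :
    ∑ a, g (y, a) ^ 2 - ∑ a, g (y + uv M i, a) ^ 2 ≤ dd B g i y := by
  rw [← sum_sub_distrib]
  refine sum_le_sum fun a _ => ?_
  rw [← abs_mul]
  refine le_of_eq_of_le ?_ (neg_le_abs _)
  linear_combination g (y + uv M i, a) ^ 2 * E4.sign_sq hB (y, i)

theorem sum_dd {B : Gauge M} (hB : IsSign B) (g : Tor M × Fin 4 → ℝ) (i : Fin 2) :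
    ∑ y, dd B g i y ≤ 2 * (√(l2sq univ g) * √(gradsq B univ g)) := by
  have h := Real.sum_mul_le_sqrt_mul_sqrt (univ : Finset (Tor M × Fin 4))
    (fun s => |B (s.1, i) * g (s.1 + uv M i, s.2) - g s|)
    (fun s => |B (s.1, i) * g (s.1 + uv M i, s.2) + g s|)
  simp only [Fintype.sum_prod_type (α₂ := Fin 4), sq_abs] at h
  have h1 : ∑ y, ∑ a, (B (y, i) * g (y + uv M i, a) - g (y, a)) ^ 2 ≤ gradsq B univ g :=
    sum_le_sum fun y _ => single_le_sum
      (f := fun i => ∑ a, (B (y, i) * g (y + uv M i, a) - g (y, a)) ^ 2)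
      (fun _ _ => sum_nonneg fun _ _ => sq_nonneg _) (mem_univ i)
  have h2 : ∑ y, ∑ a, (B (y, i) * g (y + uv M i, a) + g (y, a)) ^ 2 ≤ 2 ^ 2 * l2sq univ g := by
    have h3 := E1.sum_shift (fun y => ∑ a, g (y, a) ^ 2) (uv M i)
    calc _ ≤ ∑ y, (2 * ∑ a, g (y + uv M i, a) ^ 2 + 2 * ∑ a, g (y, a) ^ 2) := by
          refine sum_le_sum fun y _ => ?_
          rw [mul_sum, mul_sum, ← sum_add_distrib]
          refine sum_le_sum fun a _ => ?_
          have h4 := E1.sgn_sq (E4.sign_sq hB (y, i)) (g (y + uv M i, a))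
          nlinarith [sq_nonneg (B (y, i) * g (y + uv M i, a) - g (y, a))]
      _ = _ := by
          rw [sum_add_distrib, ← mul_sum, ← mul_sum, h3, l2sq]
          ring
  have h3 := Real.sqrt_le_sqrt h2
  rw [Real.sqrt_mul (by norm_num), Real.sqrt_sq (by norm_num)] at h3
  refine h.trans ((mul_le_mul (Real.sqrt_le_sqrt h1) h3 (Real.sqrt_nonneg _)
    (Real.sqrt_nonneg _)).trans (le_of_eq (by ring)))

theorem fib_le {S : Finset (Tor M)} {p : Tor M → ZMod M} {N : ℕ}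
    (hS : ∀ t, (S.filter fun x => p x = t).card ≤ N) {q : Tor M → ℝ} {H : ZMod M → ℝ}
    (hH : ∀ t, 0 ≤ H t) (h : ∀ x, q x ≤ H (p x)) : ∑ x ∈ S, q x ≤ N * ∑ t, H t := by
  rw [← sum_fiberwise S p, mul_sum]
  refine sum_le_sum fun t _ => ?_
  refine (sum_le_card_nsmul _ _ (H t) fun x hx => (mem_filter.1 hx).2 ▸ h x).trans ?_
  rw [nsmul_eq_mul]
  exact mul_le_mul_of_nonneg_right (by exact_mod_cast hS t) (hH t)

theorem vma_far {ρ : ℕ} (h : 2 * ρ + 3 ≤ M) (a : ZMod M) :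
    ρ < (a + ((ρ + 1 : ℕ) : ℤ) - a).valMinAbs.natAbs := by
  rw [add_sub_cancel_left, G.vma_cast (by rw [Nat.abs_cast]; omega)]
  omega

end B3b

open B3b in
/-- The trace on the boundary layer. -/
theorem trace_est : ∃ C : ℝ, 1 ≤ C ∧ ∀ (M : ℕ) [NeZero M] (I : Finset (Tor M)) (B : Gauge M),
    IsSign B → ∀ (z : Tor M) (ρ ρ' N : ℕ), 2 * ρ' + 3 ≤ M → TrB I z ρ N → ∀ g, SuppIn g z ρ' →
    ∀ X : Finset (Tor M), (∀ x ∈ X, tdist x z ≤ ρ ∧ NearB I 2 x) →
      l2sq X g ≤ C * N * (√(l2sq univ g) * √(gradsq B univ g)) := by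
  refine ⟨4, by norm_num, ?_⟩
  rintro M _ I B hB z ρ ρ' N hM ⟨Hs, Vs, hc, hH, hV⟩ g hg X hX
  have h0 : l2sq Hs g ≤ N * ∑ t, ∑ j, dd B g 0 (j, t) := by
    refine fib_le hH (fun t => sum_nonneg fun j _ => dd_nonneg _ _ _ _) fun x => ?_
    refine line_le (q := fun k => ∑ a, g ((k, x.2), a) ^ 2) (fun k => dd_nonneg _ _ _ _)
      (fun k => ?_) (k₀ := z.1 + ((ρ' + 1 : ℕ) : ℤ)) (sum_eq_zero fun a _ => ?_) x.1
    · simpa [uv] using sub_le_dd hB g 0 (k, x.2)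
    · rw [hg _ ((vma_far hM z.1).trans_le (le_max_left _ _)), zero_pow two_ne_zero]
  have h1 : l2sq Vs g ≤ N * ∑ t, ∑ j, dd B g 1 (t, j) := by
    refine fib_le hV (fun t => sum_nonneg fun j _ => dd_nonneg _ _ _ _) fun x => ?_
    refine line_le (q := fun k => ∑ a, g ((x.1, k), a) ^ 2) (fun k => dd_nonneg _ _ _ _)
      (fun k => ?_) (k₀ := z.2 + ((ρ' + 1 : ℕ) : ℤ)) (sum_eq_zero fun a _ => ?_) x.2
    · simpa [uv] using sub_le_dd hB g 1 (x.1, k)
    · rw [hg _ ((vma_far hM z.2).trans_le (le_max_right _ _)), zero_pow two_ne_zero]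
  rw [sum_comm, ← Fintype.sum_prod_type (f := dd B g 0)] at h0
  rw [← Fintype.sum_prod_type (f := dd B g 1)] at h1
  have h2 : l2sq X g ≤ l2sq (Hs ∪ Vs) g :=
    E5.l2sq_mono (fun x hx => mem_union.2 (hc x (hX x hx).1 (hX x hx).2)) g
  have h3 : l2sq (Hs ∪ Vs) g + l2sq (Hs ∩ Vs) g = l2sq Hs g + l2sq Vs g := sum_union_inter
  have h4 := E5.l2sq_nonneg (Hs ∩ Vs) g
  have h5 := mul_le_mul_of_nonneg_left (sum_dd hB g 0) (Nat.cast_nonneg N)
  have h6 := mul_le_mul_of_nonneg_left (sum_dd hB g 1) (Nat.cast_nonneg N)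
  linarith

end Vale.Agent.P144Z
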